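import Vale.Agent.P281Z.Ha.Defs
import Vale.Agent.P284.H205.K.Msr
import Vale.Agent.P272.K.INT.Wirt

/-!
# P281Z, block HA: integrals
-/

open scoped ContDiff Topology ComplexConjugate ComplexOrder ENNReal
open Filter Set MeasureTheory Matrix

noncomputable section

namespace Vale.Agent.P281Z.Ha

open Vale.Agent.P272.K Vale.Agent.P284.H608.K Vale.Agent.P284.H205.K

namespace It

variable {n : ℕ} {M : Type} [TopologicalSpace M] [MeasurableSpace M] {K : KA n M} {i : K.I}
  {z : Cm n} {x : M}

theorem det_re (hz : z ∈ (K.e i).target) :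
    0 < (K.w i z).det.re ∧ ((K.w i z).det.re : ℂ) = (K.w i z).det :=
  have h := Complex.lt_def.1 (K.wpos i z hz).det_pos
  ⟨h.1, Complex.ext rfl h.2⟩

theorem wt_eq (hz : z ∈ (K.e i).target) : ∃ r : ℝ, 0 < r ∧ wt K i z = r :=
  ⟨_, div_pos (Real.exp_pos _) (det_re hz).1, by rw [Complex.ofReal_div, (det_re hz).2, wt]⟩

theorem wt_pos (hz : z ∈ (K.e i).target) : 0 < wt K i z :=
  (wt_eq hz).elim fun _ h => h.2 ▸ Complex.zero_lt_real.2 h.1

theorem wt_conj (hz : z ∈ (K.e i).target) : conj (wt K i z) = wt K i z :=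
  (wt_eq hz).elim fun _ h => h.2 ▸ Complex.conj_ofReal _

theorem wt_sm (hz : z ∈ (K.e i).target) : ContDiffAt ℝ ∞ (wt K i) z :=
  (ofReal_contDiffAt (K.φsm i z hz).neg.exp).mul ((contDiffAt_det (K.wsm i z hz)).inv
    (K.wpos i z hz).det_pos.ne')

theorem ix_tg (x : M) : K.e (K.ix x) x ∈ (K.e (K.ix x)).target := (K.e _).map_source (ix_mem x)

theorem fl_dot (g : Vc K) (v : Cm n) :
    ∑ b, fl K g i z b * conj (v b) = g i z ⬝ᵥ K.w i z *ᵥ star v := by
  rw [dotProduct_mulVec]
  rfl

theorem dV_fl (g g' : Vc K) (x : M) : dV K (fl K g) g' x = wt K (K.ix x) (K.e (K.ix x) x) *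
    (g (K.ix x) (K.e (K.ix x) x) ⬝ᵥ K.w (K.ix x) (K.e (K.ix x) x) *ᵥ
      star (g' (K.ix x) (K.e (K.ix x) x))) := by
  rw [dV, fl_dot]

theorem dS_nn (f : Sc K) (x : M) : 0 ≤ dS K f f x :=
  mul_nonneg (wt_pos (ix_tg x)).le (mul_star_self_nonneg _)

theorem dV_nn (g : Vc K) (x : M) : 0 ≤ dV K (fl K g) g x := by
  have := (K.wpos _ _ (ix_tg x)).posSemidef.dotProduct_mulVec_nonneg
    (star (g (K.ix x) (K.e (K.ix x) x)))
  rw [star_star] at this
  rw [dV_fl]
  exact mul_nonneg (wt_pos (ix_tg x)).le this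

theorem dV_conj (g g' : Vc K) (x : M) : dV K (fl K g) g' x = conj (dV K (fl K g') g x) := by
  rw [dV_fl, dV_fl, map_mul, wt_conj (ix_tg x), ← Complex.star_def, ← star_dotProduct_star,
    star_mulVec, star_star, (K.wpos _ _ (ix_tg x)).isHermitian.eq, dotProduct_mulVec]

theorem dS_cont (A : Api K) {f f' : Sc K} (hf : Top K f) (hf' : Top K f') (sf : Sm K f)
    (sf' : Sm K f') : Continuous (dS K f f') :=
  cont_of_chart K (G := fun i z => wt K i z * (f i z * conj (f' i z)))
    (fun i x hi => A.dS_eq f f' i x hi (fun j => hf.chg i j x hi) fun j => hf'.chg i j x hi)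
    fun i z hz => (wt_sm hz).continuousAt.mul ((sf i z hz).continuousAt.mul
      (Complex.continuous_conj.continuousAt.comp (sf' i z hz).continuousAt))

theorem dV_cont (A : Api K) {u g : Vc K} (hu : Cov K u) (hg : Vec K g) (su : Sm K u)
    (sg : Sm K g) : Continuous (dV K u g) :=
  cont_of_chart K (G := fun i z => wt K i z * ∑ b, u i z b * conj (g i z b))
    (fun i x hi => A.dV_eq u g i x hi hg fun j => hu.chg i j x hi)
    fun i z hz => (wt_sm hz).continuousAt.mul (tendsto_finsetSum _ fun b _ =>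
      (continuousAt_pi.1 (su i z hz).continuousAt b).mul (Complex.continuous_conj.continuousAt.comp
        (continuousAt_pi.1 (sg i z hz).continuousAt b)))

theorem bump [T2Space M] (K : KA n M) (x : M) {W : Set M} (hW : W ∈ 𝓝 x) : ∃ f : M → ℝ,
    tsupport f ⊆ W ∧ (∀ y, 0 ≤ f y) ∧ (∀ᶠ y in 𝓝 x, 0 < f y) ∧
      Sm K fun i z => f ((K.e i).symm z) := by
  have hi := ix_mem (K := K) x
  set i := K.ix x
  obtain ⟨ψ, h1, h2, h3, h4, h5⟩ := exists_contDiff_tsupport_subset (n := ⊤)
    (inter_mem ((K.e i).open_target.mem_nhds (ix_tg x))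
      (((K.e i).continuousAt_symm (ix_tg x)).preimage_mem_nhds (t := W)
        (by rwa [(K.e i).left_inv hi])))
  have hc : IsClosed ((K.e i).symm '' tsupport ψ) := (h2.isCompact.image_of_continuousOn
    ((K.e i).continuousOn_symm.mono fun _ h => (h1 h).1)).isClosed
  have h0 : ∀ y ∉ (K.e i).symm '' tsupport ψ,
      (K.e i).source.indicator (fun y => ψ (K.e i y)) y = 0 := fun y hy =>
    indicator_apply_eq_zero.2 fun h => by_contra fun k =>
      hy ⟨_, subset_tsupport _ k, (K.e i).left_inv h⟩
  refine ⟨(K.e i).source.indicator fun y => ψ (K.e i y), (closure_minimal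
    (Function.support_subset_iff'.2 h0) hc).trans ?_,
    indicator_nonneg fun _ _ => (h4 ⟨_, rfl⟩).1, ?_, fun j z hz => ?_⟩
  · rintro _ ⟨z, hz, rfl⟩
    exact (h1 hz).2
  · filter_upwards [(K.e i).open_source.mem_nhds hi, (h3.continuous.continuousAt.comp
      ((K.e i).continuousAt hi)).eventually (lt_mem_nhds (by
        rw [Function.comp, h5]; exact one_pos))] with y a b
    rwa [indicator_of_mem a]
  have hs := (K.e j).continuousAt_symm hz
  by_cases h : (K.e j).symm z ∈ (K.e i).source
  · refine (h3.contDiffAt.comp z (((K.hol j i z hz h).contDiffAt (n := ∞)).restrict_scalars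
      ℝ)).congr_of_eventuallyEq ?_
    filter_upwards [hs.eventually ((K.e i).open_source.mem_nhds h)] with y a
      using indicator_of_mem a _
  · refine (contDiffAt_const (c := (0 : ℝ))).congr_of_eventuallyEq ?_
    filter_upwards [hs.eventually (hc.isOpen_compl.mem_nhds (fun ⟨y, a, b⟩ =>
      h (b ▸ (K.e i).map_target (h1 a).1)))] with y a using h0 _ a

theorem pou [T2Space M] [CompactSpace M] (K : KA n M) (W : M → Set M) (hW : ∀ x, W x ∈ 𝓝 x) :
    ∃ (s : Finset M) (χ : M → M → ℝ), (∀ x, tsupport (χ x) ⊆ W x) ∧ (∀ y, ∑ x ∈ s, χ x y = 1) ∧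
      (∀ x y, 0 ≤ χ x y) ∧ ∀ x, Sm K fun i z => χ x ((K.e i).symm z) := by
  choose f h1 h2 h3 h4 using fun x => bump K x (hW x)
  obtain ⟨s, -, hs⟩ := isCompact_univ.elim_nhds_subcover (fun x => {y | 0 < f x y}) fun x _ => h3 x
  have hp : ∀ y, 0 < ∑ x ∈ s, f x y := fun y =>
    Finset.sum_pos' (fun x _ => h2 x y) (by simpa using hs (mem_univ y))
  refine ⟨s, fun x y => f x y / ∑ x ∈ s, f x y, fun x => (closure_mono (Function.support_subset_iff'.2
    fun y h => div_eq_zero_iff.2 (.inl (Function.notMem_support.1 h)))).trans (h1 x), fun y => ?_, fun x y => div_nonneg (h2 x y) (hp y).le, fun x i z hz =>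
      (h4 x i z hz).div (ContDiffAt.sum fun x _ => h4 x i z hz) (hp _).ne'⟩
  rw [← Finset.sum_div, div_self (hp y).ne']

variable [BorelSpace M]

theorem open_pos (K : KA n M) : K.μ.IsOpenPosMeasure := ⟨fun U hU ⟨x, hx⟩ h => by
  have hi := ix_mem (K := K) x
  set i := K.ix x
  have h1 : K.μ.restrict (K.e i).source U = 0 := Measure.absolutelyContinuous_restrict h
  rw [map_nuC, Measure.map_apply_of_aemeasurable (symm_meas.mono_ac nuC_ac) hU.measurableSet] at h1
  have h2 := withDensity_absolutelyContinuous' det_meas ((ae_restrict_mem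
    (K.e i).open_target.measurableSet).mono fun z hz =>
      (ENNReal.ofReal_pos.2 (det_re hz).1).ne') h1
  rw [Measure.restrict_apply' (K.e i).open_target.measurableSet, inter_comm] at h2
  exact ((K.e i).isOpen_inter_preimage_symm hU).measure_ne_zero _
    ⟨_, ix_tg x, by rwa [mem_preimage, (K.e i).left_inv hi]⟩ h2⟩

theorem chart (i : K.I) (F : M → ℂ) (h0 : ∀ x ∉ (K.e i).source, F x = 0)
    (h : AEStronglyMeasurable (fun z => F ((K.e i).symm z)) (volume.restrict (K.e i).target)) :
    (Integrable F K.μ ↔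
      IntegrableOn (fun z => F ((K.e i).symm z) * (K.w i z).det) (K.e i).target) ∧
    ∫ x, F x ∂K.μ = ∫ z in (K.e i).target, F ((K.e i).symm z) * (K.w i z).det := by
  have hs : AEMeasurable (K.e i).symm (nuC K i) := symm_meas.mono_ac nuC_ac
  have ms := (K.e i).open_source.measurableSet
  have mt := (K.e i).open_target.measurableSet
  have he : AEMeasurable (K.e i) (K.μ.restrict (K.e i).source) :=
    (K.e i).continuousOn.aemeasurable ms
  have h1 : (K.μ.restrict (K.e i).source).map (K.e i) = nuC K i := by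
    rw [map_nuC] at he ⊢
    rw [he.map_map_of_aemeasurable hs]
    exact (Measure.map_congr (nuC_ac.ae_le ((ae_restrict_mem mt).mono fun z hz =>
      (K.e i).right_inv hz))).trans Measure.map_id
  have h2 : AEStronglyMeasurable F (K.μ.restrict (K.e i).source) :=
    ((h1 ▸ h.mono_ac nuC_ac).comp_aemeasurable he).congr ((ae_restrict_mem ms).mono fun x hx =>
      congrArg F ((K.e i).left_inv hx))
  refine ⟨?_, by simpa only [mul_comm] using int_chart h2 h0⟩
  rw [← integrableOn_iff_integrable_of_support_subset (s := (K.e i).source)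
    fun x hx => by_contra fun k => hx (h0 x k), IntegrableOn, map_nuC,
    integrable_map_measure (map_nuC (K := K) ▸ h2) hs, nuC,
    integrable_withDensity_iff_integrable_smul₀' det_meas (.of_forall fun _ => ENNReal.ofReal_lt_top)]
  exact integrableOn_congr_fun (fun z hz => by
    simp only [ENNReal.toReal_ofReal (det_re hz).1.le, Complex.real_smul, (det_re hz).2,
      Function.comp, mul_comm]) mt

theorem stokes_loc [T2Space M] (A : Api K) {f : Sc K} {g : Vc K} (hf : Top K f) (sf : Sm K f)
    (hg : Vec K g) (sg : Sm K g) (hd : Dv K g) {C : Set M} (hC : IsCompact C)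
    (hi : C ⊆ (K.e i).source) (h0 : ∀ j, ∀ y ∈ (K.e j).source, y ∉ C → f j (K.e j y) = 0) :
    pV K (db K f) g = 0 := by
  have hc := A.db_cl f hf sf
  have hC' : IsCompact (K.e i '' C) := hC.image_of_continuousOn ((K.e i).continuousOn.mono hi)
  let H : Fin n → Cm n → ℂ := fun b y => f i y * conj ((Real.exp (-K.φ i y) : ℂ) * g i y b)
  have z0 : ∀ b, ∀ z ∉ K.e i '' C, H b =ᶠ[𝓝 z] fun _ => 0 := fun b z hz => by
    filter_upwards [hC'.isClosed.isOpen_compl.mem_nhds hz] with y hy
    refine mul_eq_zero_of_left ?_ _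
    by_cases h : y ∈ (K.e i).target
    · rw [← (K.e i).right_inv h]
      exact h0 i _ ((K.e i).map_target h) fun k => hy ⟨_, k, (K.e i).right_inv h⟩
    · exact hf.off i y h
  have z1 : ∀ b, ∀ z ∉ K.e i '' C, dzb b (H b) z = 0 := fun b z hz => by
    rw [INT.dzb_congr (z0 b z hz), INT.dzb_const]
  have tg : ∀ z ∉ (K.e i).target, z ∉ K.e i '' C := fun z hz ⟨y, a, b⟩ =>
    hz (b ▸ (K.e i).map_source (hi a))
  have s1 : ∀ b, ∀ z ∈ (K.e i).target,
      ContDiffAt ℝ ∞ (fun y => conj ((Real.exp (-K.φ i y) : ℂ) * g i y b)) z := fun b z hz =>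
    (Complex.conjCLE : ℂ →L[ℝ] ℂ).contDiff.contDiffAt.comp z
      ((ofReal_contDiffAt (K.φsm i z hz).neg.exp).mul (contDiffAt_pi.1 (sg i z hz) b))
  have sH : ∀ b, ContDiff ℝ ∞ (H b) := fun b => contDiff_iff_contDiffAt.2 fun z => by
    by_cases h : z ∈ (K.e i).target
    · exact (sf i z h).mul (s1 b z h)
    · exact contDiffAt_const.congr_of_eventuallyEq (z0 b z (tg z h))
  rw [pV, int_chart (i := i) (dV_cont A hc.cov hg (A.cl_sm _ hc) sg).aestronglyMeasurable
    fun y hy => ?_, setIntegral_congr_fun (g := fun z => ∑ b, dzb b (H b) z)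
      (K.e i).open_target.measurableSet fun z hz => ?_,
    setIntegral_eq_integral_of_forall_compl_eq_zero fun z hz =>
      Finset.sum_eq_zero fun b _ => z1 b z (tg z hz), integral_finsetSum _ fun b _ => ?_]
  · exact Finset.sum_eq_zero fun b _ => INT.integral_dzb_eq_zero ((sH b).of_le (by simp))
      (HasCompactSupport.intro hC' fun z hz => (z0 b z hz).self_of_nhds) b
  · exact (continuous_iff_continuousAt.2 fun z => (INT.smooth_dzb
      (sH b).contDiffAt).continuousAt).integrable_of_hasCompactSupport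
        (HasCompactSupport.intro hC' (z1 b))
  · have h1 := (K.e i).map_target hz
    have h2 := congrArg conj (hd i z hz)
    simp only [map_sum, ← INT.dzb_conj, map_zero] at h2
    simp only [H]
    rw [A.dV_eq _ g i _ h1 hg fun j => hc.cov.chg i j _ h1, (K.e i).right_inv hz,
      Finset.sum_congr rfl fun b _ => INT.dzb_mul ((sf i z hz).differentiableAt (by simp))
        ((s1 b z hz).differentiableAt (by simp)), Finset.sum_add_distrib, ← Finset.mul_sum, h2,
      mul_zero, add_zero, wt, ← mul_assoc, mul_div_cancel₀ _ (K.wpos i z hz).det_pos.ne',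
      Finset.mul_sum]
    exact Finset.sum_congr rfl fun b _ => by
      rw [db, if_pos hz, map_mul, Complex.conj_ofReal, mul_left_comm]
  · refine mul_eq_zero_of_right _ (Finset.sum_eq_zero fun b _ => mul_eq_zero_of_left ?_ _)
    rw [db, if_pos (ix_tg y), INT.dzb_congr (G := fun _ => 0) ?_, INT.dzb_const]
    filter_upwards [((K.e _).continuousAt_symm (ix_tg y)).eventually
      (hC.isClosed.isOpen_compl.mem_nhds (by
        rw [(K.e _).left_inv (ix_mem y)]; exact fun h => hy (hi h))),
      (K.e _).open_target.mem_nhds (ix_tg y)] with z a b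
    rw [← (K.e _).right_inv b]
    exact h0 _ _ ((K.e _).map_target b) a

variable [T2Space M] [CompactSpace M]

theorem zero_of (K : KA n M) {D : M → ℂ} (hD : Continuous D) (h0 : ∀ x, 0 ≤ D x)
    (h : ∫ x, D x ∂K.μ = 0) (x : M) : D x = 0 := by
  have := open_pos K
  have hi := integ_of (K := K) hD isCompact_univ fun _ k => (k trivial).elim
  have h1 := (integral_eq_zero_iff_of_nonneg (fun x => (Complex.le_def.1 (h0 x)).1) hi.re).1
    ((integral_re hi).trans (congrArg _ h))
  exact Complex.ext (congrFun (((Complex.continuous_re.comp hD).ae_eq_iff_eq K.μ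
    continuous_zero).1 h1) x) (Complex.le_def.1 (h0 x)).2.symm

theorem intV (A : Api K) {u g : Vc K} (hu : Cov K u) (hg : Vec K g) (su : Sm K u)
    (sg : Sm K g) : Integrable (dV K u g) K.μ :=
  integ_of (dV_cont A hu hg su sg) isCompact_univ fun _ k => (k trivial).elim

theorem stokes (A : Api K) {f : Sc K} {g : Vc K} (hf : Top K f) (sf : Sm K f)
    (hg : Vec K g) (sg : Sm K g) (hd : Dv K g) : pV K (db K f) g = 0 := by
  obtain ⟨s, χ, h1, h2, -, h4⟩ := pou K _ fun x => (K.e _).open_source.mem_nhds (ix_mem x)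
  let F : M → Sc K := fun x i z => χ x ((K.e i).symm z) * f i z
  have t : ∀ x, Top K (F x) := fun x => ⟨fun i j y hi hj => by
    simp only [F, (K.e i).left_inv hi, (K.e j).left_inv hj, hf.chg i j y hi hj, mul_left_comm],
    fun i z hz => mul_eq_zero_of_right _ (hf.off i z hz)⟩
  have sm : ∀ x, Sm K (F x) := fun x i z hz => (ofReal_contDiffAt (h4 x i z hz)).mul (sf i z hz)
  have e : ∀ i, f i = fun z => ∑ x ∈ s, F x i z := fun i => funext fun z => by
    rw [← Finset.sum_mul, ← Complex.ofReal_sum, h2, Complex.ofReal_one, one_mul]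
  have e' : dV K (db K f) g = fun y => ∑ x ∈ s, dV K (db K (F x)) g y := funext fun y => by
    simp only [dV, db, if_pos (ix_tg y)]
    rw [← Finset.mul_sum, Finset.sum_comm]
    refine congrArg _ (Finset.sum_congr rfl fun b _ => ?_)
    rw [← Finset.sum_mul, e, INT.dzb_sum _ fun x _ =>
      (sm x _ _ (ix_tg y)).differentiableAt (by simp)]
  rw [pV, e', integral_finsetSum _ fun x _ =>
    intV A (A.db_cl _ (t x) (sm x)).cov hg (A.cl_sm _ (A.db_cl _ (t x) (sm x))) sg]
  exact Finset.sum_eq_zero fun x _ => stokes_loc A (t x) (sm x) hg sg hd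
    (isClosed_tsupport _).isCompact (h1 x) fun j y hy h => by
      simp only [F, (K.e j).left_inv hy, image_eq_zero_of_notMem_tsupport h, Complex.ofReal_zero,
        zero_mul]

omit [BorelSpace M] [T2Space M] [CompactSpace M] in
theorem nnV (g : Vc K) : 0 ≤ pV K (fl K g) g := integral_nonneg (dV_nn g)

omit [BorelSpace M] [T2Space M] [CompactSpace M] in
theorem conjV (g g' : Vc K) : pV K (fl K g) g' = conj (pV K (fl K g') g) := by
  rw [pV, pV, ← integral_conj]
  exact integral_congr_ae (.of_forall (dV_conj g g'))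

theorem cs (A : Api K) {a b : Vc K} (ha : Vec K a) (hb : Vec K b) (sa : Sm K a) (sb : Sm K b) :
    ‖pV K (fl K a) b‖ ^ 2 ≤ (pV K (fl K a) a).re * (pV K (fl K b) b).re := by
  have I : ∀ {g g'}, Vec K g → Vec K g' → Sm K g → Sm K g' →
      Integrable (dV K (fl K g) g') K.μ := fun hg hg' sg sg' =>
    intV A (A.fl_cov _ hg).1 hg' ((A.fl_cov _ hg).2.1 sg) sg'
  have key : ∀ c : ℂ, pV K (fl K (a - c • b)) (a - c • b) = pV K (fl K a) a -
      conj c * pV K (fl K a) b - c * pV K (fl K b) a + c * conj c * pV K (fl K b) b := fun c => by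
    simp only [pV, ← integral_const_mul]
    have i1 := (I ha ha sa sa).sub' ((I ha hb sa sb).const_mul (conj c))
    have i2 := i1.sub' ((I hb ha sb sa).const_mul c)
    rw [← integral_sub (I ha ha sa sa) ((I ha hb sa sb).const_mul _), ← integral_sub i1
      ((I hb ha sb sa).const_mul _), ← integral_add i2 ((I hb hb sb sb).const_mul _)]
    refine integral_congr_ae (.of_forall fun x => ?_)
    simp only [dV_fl, Pi.sub_apply, Pi.smul_apply, star_sub, star_smul, mulVec_sub, mulVec_smul,
      sub_dotProduct, dotProduct_sub, smul_dotProduct, dotProduct_smul, smul_eq_mul,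
      Complex.star_def]
    ring
  have h1 := (Complex.le_def.1 (nnV (K := K) a)).1
  have h2 := (Complex.le_def.1 (nnV (K := K) b)).1
  have h3 := discrim_le_zero (a := ‖pV K (fl K a) b‖ ^ 2 * (pV K (fl K b) b).re)
    (b := -2 * ‖pV K (fl K a) b‖ ^ 2) (c := (pV K (fl K a) a).re) fun t => by
      have := (Complex.le_def.1 (nnV (K := K) (a - (t * pV K (fl K a) b) • b))).1
      rw [key, conjV b a] at this
      refine this.trans_eq ?_
      rw [Complex.sq_norm, Complex.normSq_apply]
      simp
      ring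
  rcases (sq_nonneg ‖pV K (fl K a) b‖).eq_or_lt with h | h
  · exact h ▸ mul_nonneg h1 h2
  · rw [discrim] at h3
    exact le_of_mul_le_mul_left (by nlinarith) h

end It

open It in
theorem stInt (hA : StApi) : StInt := fun n M _ _ _ _ _ K =>
  have A := hA n M K
  { fin := have := locFin (K := K); inferInstance
    intS := fun _ _ a b c d => integ_of (dS_cont A a b c d) isCompact_univ fun _ k =>
      (k trivial).elim
    intV := fun _ _ => intV A
    posS := fun f hf sf h => funext fun i => funext fun z => by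
      by_cases hz : z ∈ (K.e i).target
      · have h1 := (K.e i).map_target hz
        have h2 := zero_of K (dS_cont A hf hf sf sf) (dS_nn f) h ((K.e i).symm z)
        rw [A.dS_eq f f i _ h1 (fun j => hf.chg i j _ h1) fun j => hf.chg i j _ h1,
          (K.e i).right_inv hz] at h2
        simpa [(wt_pos hz).ne'] using h2
      · exact hf.off i z hz
    posV := fun g hg sg h => funext fun i => funext fun z => by
      by_cases hz : z ∈ (K.e i).target
      · have h1 := (K.e i).map_target hz
        have c := A.fl_cov g hg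
        have h2 := zero_of K (dV_cont A c.1 hg (c.2.1 sg) sg) (dV_nn g) h ((K.e i).symm z)
        rw [A.dV_eq _ g i _ h1 hg fun j => c.1.chg i j _ h1, (K.e i).right_inv hz, fl_dot] at h2
        by_contra h3
        have h4 := (K.wpos i z hz).dotProduct_mulVec_pos (star_ne_zero.2 h3)
        rw [star_star] at h4
        exact (mul_pos (wt_pos hz) h4).ne' h2
      · exact hg.off i z hz
    nnS := fun f => integral_nonneg (dS_nn f)
    nnV := nnV
    conjS := fun f f' => by
      rw [pS, pS, ← integral_conj]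
      refine integral_congr_ae (.of_forall fun x => ?_)
      simp only [dS, map_mul, wt_conj (ix_tg x), Complex.conj_conj, mul_comm]
    conjV := conjV
    chart := chart
    pou := pou K
    stokes := fun _ _ => stokes A
    cs := fun u g hu hg su sg => by
      have c := A.sh_vec u hu
      have := cs A c.1 hg (c.2.1 su) sg
      rwa [c.2.2] at this }

end Vale.Agent.P281Z.Ha
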