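import Vale.Agent.P281Z.Ha.Defs
import Vale.Agent.P284.H205.K.Tr
import Vale.Agent.P301.H897.Hol
import Vale.Agent.P272.K.C2.Mat

/-!
# P281Z, block HA, row API: pointwise and local facts
-/

open scoped ContDiff Topology ComplexConjugate ComplexOrder Matrix
open Filter Set

noncomputable section

namespace Vale.Agent.P281Z.Ha

open Vale.Agent.P272.K Vale.Agent.P284.H608.K Vale.Agent.P284.H205.K

variable {n : ℕ}

theorem dzb_eq_dbV (a : Fin n) (f : Cm n → ℂ) (z : Cm n) : dzb a f z = dbV a f z := by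
  simp only [dzb, dbV, smul_eq_mul]; ring

theorem an_sm {E : Type} [NormedAddCommGroup E] [NormedSpace ℂ E] [CompleteSpace E]
    {f : Cm n → E} {z : Cm n} (h : AnalyticAt ℂ f z) : ContDiffAt ℝ ∞ f z :=
  (h.restrictScalars (𝕜 := ℝ)).contDiffAt

theorem dzb_an {f : Cm n → ℂ} {z : Cm n} (h : AnalyticAt ℂ f z) (b : Fin n) : dzb b f z = 0 := by
  rw [dzb_eq_dbV, (HasW.of_holo h.differentiableAt.hasFDerivAt).dbV]
  rfl

theorem dzb_an_mul {a q : Cm n → ℂ} {z : Cm n} (ha : AnalyticAt ℂ a z)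
    (hq : DifferentiableAt ℝ q z) (b : Fin n) :
    dzb b (fun y => a y * q y) z = a z * dzb b q z := by
  rw [C2.dzb_mul b ((an_sm ha).differentiableAt (by simp)) hq, dzb_an ha, zero_mul, zero_add]

/-- the chain rule -/
theorem dzb_chg {F : Cm n → Cm n} {a q : Cm n → ℂ} {z : Cm n} (hF : AnalyticAt ℂ F z)
    (ha : AnalyticAt ℂ a z) (hq : DifferentiableAt ℝ q (F z)) (b : Fin n) :
    dzb b (fun y => a y * q (F y)) z =
      a z * ∑ c, conj (Jm (fderiv ℂ F z) c b) * dzb c q (F z) := by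
  have h1 := (hasW_of_diff hq).comp_holo hF.differentiableAt.hasFDerivAt
  rw [dzb_an_mul ha h1.differentiableAt, dzb_eq_dbV, h1.dbV, ContinuousLinearMap.comp_apply,
    pB_apply]
  refine congrArg _ (Finset.sum_congr rfl fun c _ => ?_)
  have h2 : cjm n (Pi.single b 1) = Pi.single b 1 := by
    funext l
    show conj ((Pi.single b 1 : Cm n) l) = _
    rw [Pi.single_apply]
    split_ifs <;> simp
  rw [dzb_eq_dbV, Jm_apply, smul_eq_mul]
  show conj (fderiv ℂ F z (cjm n (Pi.single b 1)) c) * _ = _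
  rw [h2]

variable {M : Type} [TopologicalSpace M] [MeasurableSpace M] {K : KA n M} {i j k : K.I} {x : M}

theorem ix_src (K : KA n M) (x : M) : x ∈ (K.e (K.ix x)).source := (K.cover x).choose_spec

theorem jac_mul (hi : x ∈ (K.e i).source) (hj : x ∈ (K.e j).source) (hk : x ∈ (K.e k).source) :
    jacM (K.e i) (K.e k) x = jacM (K.e j) (K.e k) x * jacM (K.e i) (K.e j) x := by
  have h1 : HasFDerivAt (tr K i j) (trL K i j x) (K.e i x) :=
    (tr_an hi hj).differentiableAt.hasFDerivAt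
  have h2 : HasFDerivAt (tr K j k) (trL K j k x) (tr K i j (K.e i x)) := by
    rw [tr_apply hi]; exact (tr_an hj hk).differentiableAt.hasFDerivAt
  have h4 : tr K i k =ᶠ[𝓝 (K.e i x)] (tr K j k ∘ tr K i j) := by
    filter_upwards [nhds_two hi hj] with z hz
    show _ = K.e k ((K.e j).symm (K.e j ((K.e i).symm z)))
    rw [(K.e j).left_inv hz.2.2]
    rfl
  have h5 : trL K i k x = (trL K j k x).comp (trL K i j x) :=
    ((h2.comp (K.e i x) h1).congr_of_eventuallyEq h4).fderiv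
  rw [jacM_tr hi hk, jacM_tr hj hk, jacM_tr hi hj, h5]
  exact LinearMap.toMatrix'_comp _ _

theorem jac_unit (hi : x ∈ (K.e i).source) (hj : x ∈ (K.e j).source) :
    IsUnit (jacM (K.e i) (K.e j) x).det := by
  rw [jacM_tr hi hj]
  exact Jm_isUnit (trL_bij hi hj)

theorem ta_ne (hi : x ∈ (K.e i).source) (hj : x ∈ (K.e j).source) : ta K i j x ≠ 0 :=
  mul_ne_zero (a_ne hi hj) (jac_unit hi hj).ne_zero

theorem ta_coc (hi : x ∈ (K.e i).source) (hj : x ∈ (K.e j).source) (hk : x ∈ (K.e k).source) :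
    ta K i k x = ta K i j x * ta K j k x := by
  rw [ta, ta, ta, K.coc i j k x hi hj hk, jac_mul hi hj hk, Matrix.det_mul]
  ring

theorem ta_self (hi : x ∈ (K.e i).source) : ta K i i x = 1 :=
  (mul_left_cancel₀ (ta_ne hi hi) ((mul_one _).trans (ta_coc hi hi hi))).symm

theorem jac_eq {z : Cm n} (hz : z ∈ (K.e i).target) (hj : (K.e i).symm z ∈ (K.e j).source) :
    jacM (K.e i) (K.e j) ((K.e i).symm z) = Jm (fderiv ℂ (tr K i j) z) := by
  rw [jacM_tr ((K.e i).map_target hz) hj, trL, (K.e i).right_inv hz]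

theorem near_two {z : Cm n} (hz : z ∈ (K.e i).target) (hj : (K.e i).symm z ∈ (K.e j).source) :
    ∀ᶠ y in 𝓝 z, y ∈ (K.e i).target ∧ (K.e i).symm y ∈ (K.e j).source := by
  have h := nhds_two ((K.e i).map_target hz) hj
  rw [(K.e i).right_inv hz] at h
  exact h.mono fun y hy => ⟨hy.1, hy.2.2⟩

theorem ta_hol {z : Cm n} (hz : z ∈ (K.e i).target) (hj : (K.e i).symm z ∈ (K.e j).source) :
    AnalyticAt ℂ (fun y => ta K i j ((K.e i).symm y)) z := by
  have h1 : ∀ c b, AnalyticAt ℂ (fun y => Jm (fderiv ℂ (tr K i j) y) c b) z := by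
    intro c b
    simp only [Jm_apply]
    exact analyticAt_pi_iff.1 (((ContinuousLinearMap.apply ℂ (Cm n) (Pi.single b 1)).analyticAt
      _).comp (K.hol i j z hz hj).fderiv) c
  have h2 : AnalyticAt ℂ (fun y => (Jm (fderiv ℂ (tr K i j) y)).det) z := by
    simp only [Matrix.det_apply']
    exact Finset.analyticAt_fun_sum _ fun σ _ =>
      analyticAt_const.fun_mul (Finset.analyticAt_fun_prod _ fun b _ => h1 _ _)
  refine ((K.ahol i j z hz hj).fun_mul h2).congr ?_
  filter_upwards [near_two hz hj] with y hy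
  rw [ta, (K.e i).right_inv hy.1, jac_eq hy.1 hy.2]

theorem nsq (t : ℂ) : ((‖t‖ ^ 2 : ℝ) : ℂ) = t * conj t := by
  rw [Complex.mul_conj, Complex.normSq_eq_norm_sq]

theorem w_det (hi : x ∈ (K.e i).source) : (K.w i (K.e i x)).det ≠ 0 := (wp hi).det_pos.ne'

theorem wt_ch (hi : x ∈ (K.e i).source) (hj : x ∈ (K.e j).source) :
    wt K i (K.e i x) * (‖ta K i j x‖ ^ 2 : ℝ) = wt K j (K.e j x) := by
  have h1 := (jac_unit hi hj).ne_zero
  have h2 : conj (jacM (K.e i) (K.e j) x).det ≠ 0 := by simpa using h1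
  have h3 := w_det hj
  have h4 : ((jacM (K.e i) (K.e j) x).map (starRingEnd ℂ)).det =
      conj (jacM (K.e i) (K.e j) x).det := ((starRingEnd ℂ).map_det _).symm
  rw [nsq, wt, wt, ← exp_tr hi hj, K.wch i j x hi hj, Matrix.det_mul, Matrix.det_mul,
    Matrix.det_transpose, h4, ta, map_mul]
  field_simp

theorem vec_mul {J : Matrix (Fin n) (Fin n) ℂ} {g g' : Cm n} {t : ℂ} :
    (∀ c, ∑ b, J c b * g b = t * g' c) ↔ J *ᵥ g = t • g' := funext_iff.symm

theorem cov_mul {J : Matrix (Fin n) (Fin n) ℂ} {u u' : Cm n} {t : ℂ} :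
    (∀ b, u b = t * ∑ c, conj (J c b) * u' c) ↔ u = t • (u' ᵥ* J.map (starRingEnd ℂ)) := by
  rw [funext_iff]
  simp only [Pi.smul_apply, smul_eq_mul, Matrix.vecMul, dotProduct, Matrix.map_apply, mul_comm]

theorem fl_eq (g : Vc K) (i : K.I) (z : Cm n) : fl K g i z = g i z ᵥ* K.w i z := rfl

theorem sh_eq (u : Vc K) (i : K.I) (z : Cm n) : sh K u i z = u i z ᵥ* (K.w i z)⁻¹ := rfl

theorem sm_vecMul {g : Cm n → Cm n} {w : Cm n → Matrix (Fin n) (Fin n) ℂ} {z : Cm n}
    (hg : ContDiffAt ℝ ∞ g z) (hw : C2.MC ∞ w z) : ContDiffAt ℝ ∞ (fun y => g y ᵥ* w y) z :=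
  contDiffAt_pi.2 fun c => ContDiffAt.sum (s := Finset.univ) (f := fun b y => g y b * w y b c)
    fun b _ => (contDiffAt_pi.1 hg b).mul (hw b c)

theorem fl_cov {g : Vc K} (h : Vec K g) :
    Cov K (fl K g) ∧ (Sm K g → Sm K (fl K g)) ∧ sh K (fl K g) = g := by
  refine ⟨⟨fun i j x hi hj => cov_mul.2 ?_, fun i z hz => ?_⟩,
    fun hs i z hz => sm_vecMul (hs i z hz) (K.wsm i z hz), ?_⟩
  · rw [fl_eq, fl_eq, K.wch i j x hi hj, ← Matrix.vecMul_vecMul, ← Matrix.vecMul_vecMul,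
      Matrix.vecMul_transpose, vec_mul.1 (h.chg i j x hi hj), Matrix.smul_vecMul,
      Matrix.smul_vecMul]
  · rw [fl_eq, h.off i z hz, Matrix.zero_vecMul]
  · funext i z
    rw [sh_eq, fl_eq]
    by_cases hz : z ∈ (K.e i).target
    · rw [Matrix.vecMul_vecMul, Matrix.mul_nonsing_inv _ (K.wpos i z hz).det_pos.ne'.isUnit,
        Matrix.vecMul_one]
    · rw [h.off i z hz, Matrix.zero_vecMul, Matrix.zero_vecMul]

theorem sh_vec {u : Vc K} (h : Cov K u) :
    Vec K (sh K u) ∧ (Sm K u → Sm K (sh K u)) ∧ fl K (sh K u) = u := by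
  refine ⟨⟨fun i j x hi hj => vec_mul.2 ?_, fun i z hz => ?_⟩, fun hs i z hz =>
    sm_vecMul (hs i z hz) (C2.MC.inv (K.wsm i z hz) (K.wpos i z hz).det_pos.ne'), ?_⟩
  · rw [sh_eq, sh_eq, cov_mul.1 (h.chg i j x hi hj), ← Matrix.vecMul_transpose,
      Matrix.smul_vecMul, Matrix.smul_vecMul, Matrix.vecMul_vecMul, Matrix.vecMul_vecMul,
      ← Matrix.mul_assoc, K.wch i j x hi hj, inv_chg (jac_unit hi hj)]
  · rw [sh_eq, h.off i z hz, Matrix.zero_vecMul]
  · funext i z
    rw [fl_eq, sh_eq]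
    by_cases hz : z ∈ (K.e i).target
    · rw [Matrix.vecMul_vecMul, Matrix.nonsing_inv_mul _ (K.wpos i z hz).det_pos.ne'.isUnit,
        Matrix.vecMul_one]
    · rw [h.off i z hz, Matrix.zero_vecMul, Matrix.zero_vecMul]

theorem db_eq (f : Sc K) {z : Cm n} (hz : z ∈ (K.e i).target) (b : Fin n) :
    db K f i z b = dzb b (f i) z := if_pos hz

theorem db_off (f : Sc K) {z : Cm n} (hz : z ∉ (K.e i).target) : db K f i z = 0 :=
  funext fun _ => if_neg hz

/-- the chain rule for the transitions -/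
theorem dzb_tr {q : Cm n → ℂ} {z : Cm n} (hz : z ∈ (K.e i).target)
    (hj : (K.e i).symm z ∈ (K.e j).source) (hq : DifferentiableAt ℝ q (tr K i j z)) (b : Fin n) :
    dzb b (fun y => ta K i j ((K.e i).symm y) * q (tr K i j y)) z = ta K i j ((K.e i).symm z) *
      ∑ c, conj (jacM (K.e i) (K.e j) ((K.e i).symm z) c b) * dzb c q (tr K i j z) := by
  rw [jac_eq hz hj]
  exact dzb_chg (K.hol i j z hz hj) (ta_hol hz hj) hq b

theorem db_cl {f : Sc K} (h : Top K f) (hs : Sm K f) : Cl K (db K f) := by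
  refine ⟨⟨fun i j x hi hj b => ?_, fun i z hz => db_off f hz⟩, fun i z hz => ⟨f i, ?_⟩⟩
  · have hz := (K.e i).map_source hi
    have hj' : (K.e i).symm (K.e i x) ∈ (K.e j).source := by rwa [(K.e i).left_inv hi]
    have h1 := dzb_tr (q := f j) hz hj' (by
      rw [tr_apply hi]
      exact (hs j _ ((K.e j).map_source hj)).differentiableAt (by simp)) b
    rw [(K.e i).left_inv hi, tr_apply hi] at h1
    simp only [db_eq f hz, db_eq f ((K.e j).map_source hj)]
    rw [← h1]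
    refine C2.dzb_congr b ?_
    filter_upwards [near_two hz hj'] with y hy
    have h2 := h.chg i j _ ((K.e i).map_target hy.1) hy.2
    rwa [(K.e i).right_inv hy.1] at h2
  · filter_upwards [(K.e i).open_target.mem_nhds hz] with y hy
    exact ⟨hs i y hy, fun b => (db_eq f hy b).symm⟩

theorem cl_sm {u : Vc K} (h : Cl K u) : Sm K u := by
  intro i z hz
  obtain ⟨q, hq⟩ := h.loc i z hz
  exact contDiffAt_pi.2 fun b =>
    (C2.contDiffAt_dzb b hq.self_of_nhds.1 le_rfl).congr_of_eventuallyEq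
      (hq.mono fun y hy => (hy.2 b).symm)

theorem cl_of {u : Vc K} (h : Cov K u) (hl : ∀ x, ∃ i, x ∈ (K.e i).source ∧ ∃ q : Cm n → ℂ,
    ∀ᶠ y in 𝓝 (K.e i x), ContDiffAt ℝ ∞ q y ∧ ∀ b, dzb b q y = u i y b) : Cl K u := by
  refine ⟨h, fun i z hz => ?_⟩
  obtain ⟨j, hj, q, hq⟩ := hl ((K.e i).symm z)
  refine ⟨fun y => ta K i j ((K.e i).symm y) * q (tr K i j y), ?_⟩
  filter_upwards [near_two hz hj, (K.hol i j z hz hj).continuousAt.eventually hq] with y hy hy'
  refine ⟨(an_sm (ta_hol hy.1 hy.2)).mul (hy'.1.comp y (an_sm (K.hol i j y hy.1 hy.2))),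
    fun b => ?_⟩
  have h2 := h.chg i j _ ((K.e i).map_target hy.1) hy.2 b
  rw [(K.e i).right_inv hy.1] at h2
  rw [dzb_tr hy.1 hy.2 (hy'.1.differentiableAt (by simp)), h2]
  simp only [tr, hy'.2]

theorem hol_of {f : Sc K} (hs : Sm K f) (h : db K f = 0) : Hl K f := by
  intro i z hz
  refine P301.H897.analyticAt_of_dzb ?_
  filter_upwards [(K.e i).open_target.mem_nhds hz] with y hy
  exact ⟨(hs i y hy).differentiableAt (by simp), fun b => by rw [← db_eq f hy, h]; rfl⟩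

theorem Vec.add {g g' : Vc K} (h : Vec K g) (h' : Vec K g') : Vec K (g + g') :=
  ⟨fun i j x hi hj => vec_mul.2 (by
    simp only [Pi.add_apply, Matrix.mulVec_add, vec_mul.1 (h.chg i j x hi hj),
      vec_mul.1 (h'.chg i j x hi hj), smul_add]), fun i z hz => by
    simp only [Pi.add_apply, h.off i z hz, h'.off i z hz, add_zero]⟩

theorem Vec.smul (c : ℂ) {g : Vc K} (h : Vec K g) : Vec K (c • g) :=
  ⟨fun i j x hi hj => vec_mul.2 (by
    simp only [Pi.smul_apply, Matrix.mulVec_smul, vec_mul.1 (h.chg i j x hi hj)]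
    rw [smul_comm]), fun i z hz => by simp only [Pi.smul_apply, h.off i z hz, smul_zero]⟩

theorem Cov.add {u u' : Vc K} (h : Cov K u) (h' : Cov K u') : Cov K (u + u') :=
  ⟨fun i j x hi hj => cov_mul.2 (by
    rw [Pi.add_apply, Pi.add_apply, Pi.add_apply, Pi.add_apply, cov_mul.1 (h.chg i j x hi hj),
      cov_mul.1 (h'.chg i j x hi hj), Matrix.add_vecMul, smul_add]), fun i z hz => by
    simp only [Pi.add_apply, h.off i z hz, h'.off i z hz, add_zero]⟩

theorem Cov.smul (c : ℂ) {u : Vc K} (h : Cov K u) : Cov K (c • u) :=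
  ⟨fun i j x hi hj => cov_mul.2 (by
    rw [Pi.smul_apply, Pi.smul_apply, Pi.smul_apply, Pi.smul_apply, cov_mul.1 (h.chg i j x hi hj),
      Matrix.smul_vecMul, smul_comm]), fun i z hz => by
    simp only [Pi.smul_apply, h.off i z hz, smul_zero]⟩

theorem diff_exp {g : Vc K} (h : Hl K g) {z : Cm n} (hz : z ∈ (K.e i).target) (b : Fin n) :
    DifferentiableAt ℝ (fun y => (Real.exp (-K.φ i y) : ℂ) * g i y b) z :=
  ((C2.contDiffAt_ofReal (K.φsm i z hz).neg.exp).mul
    (contDiffAt_pi.1 (an_sm (h i z hz)) b)).differentiableAt (by simp)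

theorem gam_add {g g' : Vc K} (h : Gam K g) (h' : Gam K g') : Gam K (g + g') := by
  refine ⟨h.vec.add h'.vec, fun i z hz => (h.hol i z hz).add (h'.hol i z hz), fun i z hz => ?_⟩
  simp only [Pi.add_apply, mul_add, C2.dz_add _ (diff_exp h.hol hz _) (diff_exp h'.hol hz _),
    Finset.sum_add_distrib, h.dv i z hz, h'.dv i z hz, add_zero]

theorem gam_smul (c : ℂ) {g : Vc K} (h : Gam K g) : Gam K (c • g) := by
  refine ⟨h.vec.smul c, fun i z hz => (h.hol i z hz).const_smul (c := c), fun i z hz => ?_⟩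
  simp only [Pi.smul_apply, smul_eq_mul, mul_left_comm _ c,
    C2.dz_const_mul _ c (diff_exp h.hol hz _), ← Finset.mul_sum, h.dv i z hz, mul_zero]

theorem cl_add {u u' : Vc K} (h : Cl K u) (h' : Cl K u') : Cl K (u + u') := by
  refine ⟨h.cov.add h'.cov, fun i z hz => ?_⟩
  obtain ⟨q, hq⟩ := h.loc i z hz
  obtain ⟨q', hq'⟩ := h'.loc i z hz
  refine ⟨fun y => q y + q' y, ?_⟩
  filter_upwards [hq, hq'] with y h1 h2
  refine ⟨h1.1.add h2.1, fun b => ?_⟩
  rw [C2.dzb_add b (h1.1.differentiableAt (by simp)) (h2.1.differentiableAt (by simp)), h1.2, h2.2]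
  rfl

theorem cl_smul (c : ℂ) {u : Vc K} (h : Cl K u) : Cl K (c • u) := by
  refine ⟨h.cov.smul c, fun i z hz => ?_⟩
  obtain ⟨q, hq⟩ := h.loc i z hz
  refine ⟨fun y => c * q y, ?_⟩
  filter_upwards [hq] with y h1
  refine ⟨contDiffAt_const.mul h1.1, fun b => ?_⟩
  rw [C2.dzb_const_mul b c (h1.1.differentiableAt (by simp)), h1.2]
  rfl

theorem ta_tw (T : Twi K) (i j : K.I) (x : M) :
    ta T.ka i j x = ta K i j x * T.γ i j (K.e i x) := mul_right_comm _ _ _

theorem dS_eq {f f' : Sc K} (hi : x ∈ (K.e i).source)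
    (h : ∀ j, x ∈ (K.e j).source → f i (K.e i x) = ta K i j x * f j (K.e j x))
    (h' : ∀ j, x ∈ (K.e j).source → f' i (K.e i x) = ta K i j x * f' j (K.e j x)) :
    dS K f f' x = wt K i (K.e i x) * (f i (K.e i x) * conj (f' i (K.e i x))) := by
  rw [dS, ← wt_ch hi (ix_src K x), h _ (ix_src K x), h' _ (ix_src K x), nsq, map_mul]
  ring

theorem dV_eq {u g : Vc K} (hi : x ∈ (K.e i).source) (hg : Vec K g)
    (h : ∀ j, x ∈ (K.e j).source → ∀ b, u i (K.e i x) b =
      ta K i j x * ∑ c, conj (jacM (K.e i) (K.e j) x c b) * u j (K.e j x) c) :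
    dV K u g x = wt K i (K.e i x) * ∑ b, u i (K.e i x) b * conj (g i (K.e i x) b) := by
  have h1 := fun c => congrArg conj (hg.chg i _ x hi (ix_src K x) c)
  simp only [map_sum, map_mul] at h1
  rw [dV, ← wt_ch hi (ix_src K x), nsq, mul_assoc]
  refine congrArg _ ?_
  simp only [h _ (ix_src K x), Finset.mul_sum, Finset.sum_mul]
  rw [Finset.sum_comm]
  refine Finset.sum_congr rfl fun c _ => ?_
  have h2 := congrArg (ta K i (K.ix x) x * u (K.ix x) (K.e (K.ix x) x) c * ·) (h1 c)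
  simp only [Finset.mul_sum] at h2
  refine Eq.trans (by ring) (h2.symm.trans (Finset.sum_congr rfl fun b _ => by ring))

theorem tw_top (T : Twi K) {f : Sc K} (h : Top K f) : Top T.ka (T.mul f) :=
  ⟨fun i j x hi hj => by
    show T.σ i (K.e i x) * f i (K.e i x) = _ * (T.σ j (K.e j x) * f j (K.e j x))
    rw [ta_tw, h.chg i j x hi hj, T.σch i j x hi hj]
    ring, fun i z hz => by
    show T.σ i z • f i z = 0
    rw [h.off i z hz, smul_zero]⟩

theorem tw_vec (T : Twi K) {g : Vc K} (h : Vec K g) : Vec T.ka (T.mul g) :=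
  ⟨fun i j x hi hj => vec_mul.2 (by
    show jacM (K.e i) (K.e j) x *ᵥ (T.σ i (K.e i x) • g i (K.e i x)) =
      _ • T.σ j (K.e j x) • g j (K.e j x)
    rw [ta_tw, Matrix.mulVec_smul, vec_mul.1 (h.chg i j x hi hj), T.σch i j x hi hj, smul_smul,
      smul_smul]
    exact congrArg (· • g j (K.e j x)) (by ring)), fun i z hz => by
    show T.σ i z • g i z = 0
    rw [h.off i z hz, smul_zero]⟩

theorem tw_cov (T : Twi K) {u : Vc K} (h : Cov K u) : Cov T.ka (T.mul u) :=
  ⟨fun i j x hi hj => cov_mul.2 (by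
    show T.σ i (K.e i x) • u i (K.e i x) =
      _ • ((T.σ j (K.e j x) • u j (K.e j x)) ᵥ* (jacM (K.e i) (K.e j) x).map (starRingEnd ℂ))
    rw [ta_tw, Matrix.smul_vecMul, cov_mul.1 (h.chg i j x hi hj), T.σch i j x hi hj, smul_smul,
      smul_smul]
    exact congrArg (· • _) (by ring)), fun i z hz => by
    show T.σ i z • u i z = 0
    rw [h.off i z hz, smul_zero]⟩

theorem tw_db (T : Twi K) {f : Sc K} (hs : Sm K f) : db T.ka (T.mul f) = T.mul (db K f) := by
  funext i z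
  by_cases hz : z ∈ (K.e i).target
  · funext b
    rw [db_eq (K := T.ka) _ hz]
    show dzb b (fun y => T.σ i y * f i y) z = T.σ i z * db K f i z b
    rw [db_eq f hz, dzb_an_mul (T.σhol i z hz) ((hs i z hz).differentiableAt (by simp))]
  · rw [db_off (K := T.ka) _ hz]
    show 0 = T.σ i z • db K f i z
    rw [db_off f hz, smul_zero]

theorem api (K : KA n M) : Api K where
  ta_ne _ _ _ := ta_ne
  ta_coc _ _ _ _ := ta_coc
  ta_self _ _ := ta_self
  ta_hol _ _ _ := ta_hol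
  wt_ch _ _ _ := wt_ch
  dS_eq _ _ _ _ := dS_eq
  dV_eq _ _ _ _ := dV_eq
  fl_cov _ := fl_cov
  sh_vec _ := sh_vec
  db_cl _ := db_cl
  cl_sm _ := cl_sm
  cl_of _ := cl_of
  hol_of _ := hol_of
  gam_add _ _ := gam_add
  gam_smul c _ := gam_smul c
  cl_add _ _ := cl_add
  cl_smul c _ := cl_smul c
  tw_top T _ := tw_top T
  tw_vec T _ := tw_vec T
  tw_cov T _ := tw_cov T
  tw_db T _ := tw_db T

/-- row API -/
theorem stApi : StApi := fun _ _ _ _ _ _ _ K => api K

end Vale.Agent.P281Z.Ha
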