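import Vale.Agent.P281Z.Ha.Defs
import Vale.Agent.P271.H884.Holo
import Vale.Agent.P271.H884.Poly
import Vale.Agent.P299.H720.Montel
import Vale.Agent.P284Z.F0.Ball

/-!
# P281Z, block HA: the theorem of Montel, the local solution of the Cauchy-Riemann equation
-/

open scoped ContDiff Topology ENNReal
open Filter Set MeasureTheory Metric

noncomputable section

namespace Vale.Agent.P281Z.Ha

open Vale.Agent.P272.K Vale.Agent.P284Z

namespace LocH

variable {n : ℕ}

theorem ofReal_sq (a : ℂ) : ENNReal.ofReal (‖a‖ ^ 2) = ‖a‖ₑ ^ 2 := by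
  rw [ENNReal.ofReal_pow (norm_nonneg _), ofReal_norm]

theorem sup_le {f : Cm n → ℂ} {x y : Cm n} {r : ℝ} (hr : 0 < r)
    (hf : DifferentiableOn ℂ f (ball x (2 * r))) {C : ℝ≥0∞} (hC : C ≠ ⊤)
    (h : ∫⁻ z in ball x (2 * r), ‖f z‖ₑ ^ 2 ≤ C) (hy : y ∈ ball x r) :
    ‖f y‖ ≤ √(C.toReal / volume.real (ball (0 : Cm n) r)) := by
  have hB : closedBall y r ⊆ ball x (2 * r) := closedBall_subset_ball' (by linarith [mem_ball.1 hy])
  have hB' := ball_subset_closedBall.trans hB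
  have k1 := (lpsh_norm isOpen_ball hf).pow 2
  have k2 := k1.psh.le_ball volume k1.lb hB
  rw [integral_eq_lintegral_of_nonneg_ae (f := fun z => ‖f z‖ ^ 2)
    (Eventually.of_forall fun _ => by positivity)
    (((hf.continuousOn.mono hB').norm.pow 2).aestronglyMeasurable measurableSet_ball),
    measureReal_def, Measure.addHaar_ball_center] at k2
  refine Real.le_sqrt_of_sq_le ((le_div_iff₀ (ENNReal.toReal_pos (measure_ball_pos _ _ hr).ne'
    measure_ball_lt_top.ne)).2 (k2.trans (ENNReal.toReal_mono hC ?_)))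
  simp only [ofReal_sq]
  exact (lintegral_mono_set hB').trans h

theorem mon {O : Set (Cm n)} (hO : IsOpen O) {h : ℕ → Cm n → ℂ}
    (H : ∀ x ∈ O, ∃ r > (0 : ℝ), ∃ C : ℝ≥0∞, C ≠ ⊤ ∧ ∀ᶠ k in atTop,
      DifferentiableOn ℂ (h k) (ball x r) ∧ ∫⁻ z in ball x r, ‖h k z‖ₑ ^ 2 ≤ C) :
    ∃ (φ : ℕ → ℕ) (h₀ : Cm n → ℂ), StrictMono φ ∧ DifferentiableOn ℂ h₀ O ∧
      TendstoLocallyUniformlyOn (fun k => h (φ k)) h₀ atTop O := by
  obtain ⟨g, g1, g2, -⟩ := P299.H720.montel_full (hyperfilter ℕ) (f := h) hO fun x hx => by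
    obtain ⟨r, hr, C, hC, k⟩ := H x hx
    obtain ⟨r, rfl⟩ : ∃ s, r = 2 * s := ⟨r / 2, by ring⟩
    have hr' : 0 < r := by linarith
    exact ⟨r, hr', _, (k.filter_mono Nat.hyperfilter_le_atTop).mono fun j hj =>
      ⟨hj.1.mono (ball_subset_ball (by linarith)), fun y hy => sup_le hr' hj.1 hC hj.2 hy⟩⟩
  have := hO.locallyCompactSpace
  let E := CompactExhaustion.choice O
  rw [tendstoLocallyUniformlyOn_iff_forall_isCompact hO] at g2
  obtain ⟨φ, h1, h2⟩ := extraction_forall_of_frequently (P := fun m k =>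
    ∀ y ∈ Subtype.val '' E m, dist (g y) (h k y) < 1 / (m + 1 : ℝ)) fun m =>
      (tendstoUniformlyOn_iff.1 (g2 _ (Subtype.coe_image_subset _ _)
        ((E.isCompact m).image continuous_subtype_val)) _
        Nat.one_div_pos_of_nat).frequently.filter_mono Nat.hyperfilter_le_atTop
  refine ⟨φ, g, h1, g1, (tendstoLocallyUniformlyOn_iff_forall_isCompact hO).2 fun K a b =>
    tendstoUniformlyOn_iff.2 fun ε hε => ?_⟩
  obtain ⟨m, hm⟩ := E.exists_superset_of_isCompact (s := Subtype.val ⁻¹' K)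
    (Topology.IsInducing.subtypeVal.isCompact_preimage' b (by simpa using a))
  filter_upwards [eventually_ge_atTop m,
    tendsto_one_div_add_atTop_nhds_zero_nat.eventually (gt_mem_nhds hε)] with k k1 k2 y hy
  exact (h2 k y ⟨⟨y, a hy⟩, E.subset k1 (hm hy), rfl⟩).trans k2

theorem dzb_cont {v : Cm n → ℂ} {V : Set (Cm n)} (hV : IsOpen V) (hv : ContDiffOn ℝ 2 v V)
    (j : Fin n) : ContinuousOn (dzb j v) V :=
  (P282.L2.contDiffOn_dzb (m := 1) (j := j) hV (by simpa using hv)).continuousOn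

/-- the solution on a smaller polydisc -/
theorem small {a : Cm n} {ρ r : ℝ} (hr : 0 < r) (hρ : r < ρ) {v : Cm n → ℂ}
    (hv : ContDiffOn ℝ 2 v (ball a ρ)) {A : ℝ≥0∞} (hA : A ≠ ⊤)
    (h : ∫⁻ z in ball a ρ, ∑ b, ‖dzb b v z‖ₑ ^ 2 ≤ A) :
    ∃ F : Cm n → ℂ, DifferentiableOn ℂ F (ball a r) ∧ ∫⁻ z in ball a r, ‖v z - F z‖ₑ ^ 2 ≤
      ENNReal.ofReal (2 * Real.exp (n * (‖a‖ + ρ) ^ 2)) * A := by
  obtain ⟨p, C, -, hp⟩ := P271.Dom.exh_ball (z₀ := a) hr
  have s1 : closedBall a r ⊆ ball a ρ := closedBall_subset_ball hρ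
  have s2 := ball_subset_closedBall.trans s1
  have hc : ContinuousOn (fun z j => dzb j v z) (ball a ρ) :=
    continuousOn_pi.2 (dzb_cont isOpen_ball hv)
  obtain ⟨c, hc'⟩ := (isCompact_closedBall a r).exists_bound_of_continuousOn (hc.mono s1)
  have h0 : ∀ z : Cm n, 0 ≤ ∑ i, ‖z i‖ ^ 2 := fun z => by positivity
  obtain ⟨F, hF, H⟩ := P271.Dom.holo_dom isOpen_ball hp (Φ := fun z => ∑ i, ‖z i‖ ^ 2)
    (ContDiff.sum fun i _ => (contDiff_apply ℝ ℂ i).norm_sq ℂ).contDiffOn ⟨0, fun z _ => h0 z⟩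
    (fun z _ β => by rw [P271.Dom.leviF_sumSq]; exact h0 β) (hv.mono s2)
    ⟨c, 0, fun z hz j => ((norm_le_pi_norm (fun j => dzb j v z) j).trans
      (hc' z (ball_subset_closedBall hz))).trans_eq (by simp)⟩
    (fun z => ∑ j, ‖dzb j v z‖ ^ 2) (fun _ => by positivity)
    ((continuousOn_finsetSum _ fun j _ =>
      ((dzb_cont isOpen_ball hv j).mono s2).norm.pow 2).aemeasurable measurableSet_ball)
    (fun z _ β => by
      rw [P271.Dom.leviF_sumSq]
      refine (pow_le_pow_left₀ (norm_nonneg _) (norm_sum_le _ _) 2).trans ?_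
      simp only [norm_mul, Complex.norm_conj]
      exact Finset.sum_mul_sq_le_sq_mul_sq _ _ _) (A := A.toReal) ENNReal.toReal_nonneg (by
      rw [ENNReal.ofReal_toReal hA]
      refine le_trans (lintegral_mono fun z => ?_) ((lintegral_mono_set s2).trans h)
      simp only [← ofReal_sq]
      rw [← ENNReal.ofReal_sum_of_nonneg fun _ _ => by positivity]
      exact ENNReal.ofReal_le_ofReal (mul_le_of_le_one_right (by positivity)
        (Real.exp_le_one_iff.2 (neg_nonpos.2 (h0 z)))))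
  refine ⟨F, hF, ?_⟩
  rw [ENNReal.ofReal_mul zero_le_two, ENNReal.ofReal_toReal hA] at H
  rw [mul_comm 2, ENNReal.ofReal_mul (Real.exp_pos _).le, mul_assoc]
  refine le_trans ?_ (mul_le_mul_right H _)
  rw [← lintegral_const_mul' _ _ ENNReal.ofReal_ne_top]
  refine setLIntegral_mono' measurableSet_ball fun z hz => ?_
  rw [← ofReal_sq, ← ENNReal.ofReal_mul (Real.exp_pos _).le, norm_sub_rev, mul_left_comm,
    ← Real.exp_add]
  refine ENNReal.ofReal_le_ofReal (le_mul_of_one_le_right (by positivity)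
    (Real.one_le_exp (sub_nonneg.2 ?_)))
  have k : ‖z‖ ≤ ‖a‖ + ρ := norm_le_of_mem_closedBall (ball_subset_closedBall (s2 hz))
  simpa using Finset.sum_le_card_nsmul Finset.univ (fun i => ‖z i‖ ^ 2) _ fun i _ =>
    pow_le_pow_left₀ (norm_nonneg _) ((norm_le_pi_norm z i).trans k) 2

theorem l2_le {s : Set (Cm n)} (hs : MeasurableSet s) {v F : Cm n → ℂ} {M : ℝ}
    (hM : ∀ z ∈ s, ‖v z‖ ≤ M) : ∫⁻ z in s, ‖F z‖ₑ ^ 2 ≤
      ENNReal.ofReal (2 * M ^ 2) * volume s + ENNReal.ofReal 2 * ∫⁻ z in s, ‖v z - F z‖ₑ ^ 2 := by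
  rw [← setLIntegral_const, ← lintegral_const_mul' _ _ ENNReal.ofReal_ne_top,
    ← lintegral_add_left measurable_const]
  refine setLIntegral_mono' hs fun z hz => ?_
  rw [← ofReal_sq, ← ofReal_sq, ← ENNReal.ofReal_mul zero_le_two,
    ← ENNReal.ofReal_add (by positivity) (by positivity)]
  refine ENNReal.ofReal_le_ofReal ?_
  have k := norm_sub_le (v z) (v z - F z)
  rw [sub_sub_cancel] at k
  have k' := pow_le_pow_left₀ (norm_nonneg _) (k.trans (add_le_add_left (hM z hz) _)) 2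
  nlinarith [sq_nonneg (M - ‖v z - F z‖)]

end LocH

open LocH in
/-- **MON** -/
theorem stMon : StMon := by
  intro n O hO h hh C hC H
  obtain ⟨φ, g, h1, h2, h3⟩ := mon hO (h := h) fun x hx => by
    obtain ⟨r, hr, k⟩ := Metric.isOpen_iff.1 hO x hx
    exact ⟨r, hr, C, hC, Eventually.of_forall fun j =>
      ⟨fun z hz => (hh j z (k hz)).differentiableAt.differentiableWithinAt,
        (lintegral_mono_set k).trans (H j)⟩⟩
  exact ⟨φ, g, h1, P268.analyticOnNhd_of_differentiableOn hO h2, h3⟩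

open LocH in
/-- **LOC** -/
theorem stLoc : StLoc := by
  intro n a ρ hρ
  refine ⟨ENNReal.ofReal (2 * Real.exp (n * (‖a‖ + ρ) ^ 2)), ENNReal.ofReal_ne_top, fun v hv => ?_⟩
  obtain ⟨A, hA⟩ : ∃ A, A = ∫⁻ z in ball a ρ, ∑ b, ‖dzb b v z‖ₑ ^ 2 := ⟨_, rfl⟩
  rw [← hA]
  rcases eq_or_ne A ⊤ with e | e
  · refine ⟨0, fun _ _ => analyticAt_const, ?_⟩
    rw [e, ENNReal.mul_top (ENNReal.ofReal_pos.2 (by positivity)).ne']
    exact le_top
  have hv2 : ContDiffOn ℝ 2 v (ball a ρ) := fun z hz =>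
    ((hv z hz).of_le (by norm_cast)).contDiffWithinAt
  obtain ⟨u, -, u2, u3⟩ := exists_seq_strictMono_tendsto' hρ
  choose F hF H using fun k => small (u2 k).1 (u2 k).2 hv2 e hA.ge
  obtain ⟨φ, g, h1, h2, h3⟩ := mon (isOpen_ball (x := a) (ε := ρ)) (h := F) fun x hx => by
    obtain ⟨t, t1, t2⟩ := exists_between (mem_ball.1 hx)
    obtain ⟨M, hM⟩ := (isCompact_closedBall a t).exists_bound_of_continuousOn
      (hv2.continuousOn.mono (closedBall_subset_ball t2))
    have s1 : ball x (t - dist x a) ⊆ ball a t := ball_subset_ball' (by linarith)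
    refine ⟨t - dist x a, sub_pos.2 t1, _, ?_, (u3.eventually (lt_mem_nhds t2)).mono fun k hk =>
      ⟨(hF k).mono (s1.trans (ball_subset_ball hk.le)), (l2_le measurableSet_ball fun z hz =>
        hM z (ball_subset_closedBall (s1 hz))).trans (add_le_add_right (mul_le_mul_right
          ((lintegral_mono_set (s1.trans (ball_subset_ball hk.le))).trans (H k)) _) _)⟩⟩
    exact ENNReal.add_ne_top.2 ⟨ENNReal.mul_ne_top ENNReal.ofReal_ne_top measure_ball_lt_top.ne,
      ENNReal.mul_ne_top ENNReal.ofReal_ne_top (ENNReal.mul_ne_top ENNReal.ofReal_ne_top e)⟩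
  refine ⟨g, P268.analyticOnNhd_of_differentiableOn isOpen_ball h2, ?_⟩
  have s2 : ∀ k, ball a (u k) ⊆ ball a ρ := fun k => ball_subset_ball (u2 k).2.le
  have k1 : ∀ z, Tendsto (fun k => (ball a (u (φ k))).indicator (fun z => ‖v z - F (φ k) z‖ₑ ^ 2) z)
      atTop (𝓝 ((ball a ρ).indicator (fun z => ‖v z - g z‖ₑ ^ 2) z)) := fun z => by
    by_cases hz : z ∈ ball a ρ
    · rw [indicator_of_mem hz]
      refine (ENNReal.Tendsto.pow ((h3.tendsto_at hz).const_sub (v z)).enorm).congr' ?_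
      filter_upwards [(u3.comp h1.tendsto_atTop).eventually (lt_mem_nhds (mem_ball.1 hz))]
        with k hk
      exact (indicator_of_mem (s := ball a (u (φ k))) hk fun z => ‖v z - F (φ k) z‖ₑ ^ 2).symm
    · simp only [indicator_of_notMem hz, indicator_of_notMem fun c => hz (s2 _ c)]
      exact tendsto_const_nhds
  rw [← lintegral_indicator measurableSet_ball]
  refine (lintegral_congr fun z => (k1 z).liminf_eq.symm).trans_le ((lintegral_liminf_le'
    fun k => ?_).trans (liminf_le_of_frequently_le' (Frequently.of_forall fun k => ?_)))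
  · exact (aemeasurable_indicator_iff measurableSet_ball).2
      ((((hv2.continuousOn.mono (s2 _)).sub (hF _).continuousOn).aemeasurable
        measurableSet_ball).enorm.pow_const 2)
  · rw [lintegral_indicator measurableSet_ball]
    exact H _

end Vale.Agent.P281Z.Ha
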