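import Vale.Agent.P284.H608.K.Spec

/-!
# P281Z, block HA: harmonic theory of `(n,1)`-forms with values in a semipositive line bundle

`K : KA n M` is a Kähler manifold with a line bundle `F`, in framed charts. Sections of `K_M + F` are
families of functions (`Top`), `(n-1,0)`-forms with values in `F` are families of vectors (`Vec`),
`(n,1)`-forms are families of covectors (`Cov`).
-/

open scoped ContDiff Topology ComplexConjugate ComplexOrder ENNReal
open Filter Set MeasureTheory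

noncomputable section

namespace Vale.Agent.P281Z.Ha

open Vale.Agent.P272.K Vale.Agent.P284.H608.K

/-- the form `dz_1 ∧ … ∧ dz_p` -/
def dt (p : ℕ) : Af p p :=
  { Matrix.detRowAlternating (n := Fin p) (R := ℂ) with
    cont := Continuous.matrix_det continuous_id }

section defs

variable {n : ℕ} {M : Type} [TopologicalSpace M] [MeasurableSpace M] (K : KA n M)

/-- families of functions -/
abbrev Sc : Type := K.I → Cm n → ℂ

/-- families of vectors -/
abbrev Vc : Type := K.I → Cm n → Cm n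

/-- the cocycle of `K_M + F` -/
def ta (i j : K.I) (x : M) : ℂ := K.a i j (K.e i x) * (jacM (K.e i) (K.e j) x).det

/-- a section of `K_M + F` -/
structure Top (f : Sc K) : Prop where
  chg : ∀ i j x, x ∈ (K.e i).source → x ∈ (K.e j).source →
    f i (K.e i x) = ta K i j x * f j (K.e j x)
  off : ∀ i, ∀ z ∉ (K.e i).target, f i z = 0

/-- a section of `T_M ⊗ (K_M + F)` -/
structure Vec (g : Vc K) : Prop where
  chg : ∀ i j x, x ∈ (K.e i).source → x ∈ (K.e j).source → ∀ c,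
    ∑ b, jacM (K.e i) (K.e j) x c b * g i (K.e i x) b = ta K i j x * g j (K.e j x) c
  off : ∀ i, ∀ z ∉ (K.e i).target, g i z = 0

/-- a `(0,1)`-form with values in `K_M + F` -/
structure Cov (u : Vc K) : Prop where
  chg : ∀ i j x, x ∈ (K.e i).source → x ∈ (K.e j).source → ∀ b,
    u i (K.e i x) b = ta K i j x * ∑ c, conj (jacM (K.e i) (K.e j) x c b) * u j (K.e j x) c
  off : ∀ i, ∀ z ∉ (K.e i).target, u i z = 0

/-- smooth families -/
def Sm {E : Type} [NormedAddCommGroup E] [NormedSpace ℝ E] (f : K.I → Cm n → E) : Prop :=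
  ∀ i, ∀ z ∈ (K.e i).target, ContDiffAt ℝ ∞ (f i) z

/-- holomorphic families -/
def Hl {E : Type} [NormedAddCommGroup E] [NormedSpace ℂ E] (f : K.I → Cm n → E) : Prop :=
  ∀ i, ∀ z ∈ (K.e i).target, AnalyticAt ℂ (f i) z

/-- the factor `e^{-φ} / det w` -/
def wt (i : K.I) (z : Cm n) : ℂ := (Real.exp (-K.φ i z) : ℂ) / (K.w i z).det

/-- the density of the product of two sections -/
def dS (f f' : Sc K) (x : M) : ℂ :=
  wt K (K.ix x) (K.e (K.ix x) x) *
    (f (K.ix x) (K.e (K.ix x) x) * conj (f' (K.ix x) (K.e (K.ix x) x)))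

/-- the density of the pairing of a covector `u` and a vector `g` -/
def dV (u g : Vc K) (x : M) : ℂ :=
  wt K (K.ix x) (K.e (K.ix x) x) *
    ∑ b, u (K.ix x) (K.e (K.ix x) x) b * conj (g (K.ix x) (K.e (K.ix x) x) b)

/-- the product of two sections -/
def pS (f f' : Sc K) : ℂ := ∫ x, dS K f f' x ∂K.μ

/-- the pairing `∫ u ∧ conj g` -/
def pV (u g : Vc K) : ℂ := ∫ x, dV K u g x ∂K.μ

/-- `g ↦ ω ∧ g` -/
def fl (g : Vc K) : Vc K := fun i z c => ∑ b, g i z b * K.w i z b c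

/-- the inverse of `fl` -/
def sh (u : Vc K) : Vc K := fun i z b => ∑ c, u i z c * (K.w i z)⁻¹ c b

open Classical in
/-- `∂̄ f` -/
def db (f : Sc K) : Vc K := fun i z b => if z ∈ (K.e i).target then dzb b (f i) z else 0

/-- `D' g = 0` -/
def Dv (g : Vc K) : Prop := ∀ i, ∀ z ∈ (K.e i).target,
  ∑ b, dz b (fun y => (Real.exp (-K.φ i y) : ℂ) * g i y b) z = 0

/-- the space `Γ` -/
structure Gam (g : Vc K) : Prop where
  vec : Vec K g
  hol : Hl K g
  dv : Dv K g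

/-- holomorphic sections of `K_M + F` -/
structure H0 (f : Sc K) : Prop where
  top : Top K f
  hol : Hl K f

/-- locally exact forms -/
structure Cl (u : Vc K) : Prop where
  cov : Cov K u
  loc : ∀ i, ∀ z ∈ (K.e i).target, ∃ q : Cm n → ℂ,
    ∀ᶠ y in 𝓝 z, ContDiffAt ℝ ∞ q y ∧ ∀ b, dzb b q y = u i y b

/-- exact forms -/
def Ex (u : Vc K) : Prop := ∃ v, Top K v ∧ Sm K v ∧ db K v = u

/-- the curvature is semipositive -/
def Psd : Prop := ∀ i, ∀ z ∈ (K.e i).target, (cHess (K.φ i) z).PosSemidef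

/-- a second line bundle with a metric and a holomorphic section `σ` -/
structure Twi where
  γ : K.I → K.I → Cm n → ℂ
  τ : K.I → Cm n → ℝ
  σ : Sc K
  τsm : ∀ i, ∀ z ∈ (K.e i).target, ContDiffAt ℝ ∞ (τ i) z
  γhol : ∀ i j z, z ∈ (K.e i).target → (K.e i).symm z ∈ (K.e j).source → AnalyticAt ℂ (γ i j) z
  coc : ∀ i j k x, x ∈ (K.e i).source → x ∈ (K.e j).source → x ∈ (K.e k).source →
    γ i k (K.e i x) = γ i j (K.e i x) * γ j k (K.e j x)
  self : ∀ i x, x ∈ (K.e i).source → γ i i (K.e i x) = 1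
  τch : ∀ i j x, x ∈ (K.e i).source → x ∈ (K.e j).source →
    Real.exp (-τ i (K.e i x)) * ‖γ i j (K.e i x)‖ ^ 2 = Real.exp (-τ j (K.e j x))
  σhol : Hl K σ
  σch : ∀ i j x, x ∈ (K.e i).source → x ∈ (K.e j).source →
    σ i (K.e i x) = γ i j (K.e i x) * σ j (K.e j x)

variable {K}

/-- the twisted bundle -/
@[reducible] def Twi.ka (T : Twi K) : KA n M where
  I := K.I
  e := K.e
  w := K.w
  φ i z := K.φ i z + T.τ i z
  a i j z := K.a i j z * T.γ i j z
  μ := K.μ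
  cover := K.cover
  wsm := K.wsm
  wpos := K.wpos
  wcl := K.wcl
  φsm i z hz := (K.φsm i z hz).add (T.τsm i z hz)
  hol := K.hol
  wch := K.wch
  ahol i j z h h' := (K.ahol i j z h h').mul (T.γhol i j z h h')
  coc i j k x h h' h'' := by
    rw [K.coc i j k x h h' h'', T.coc i j k x h h' h'']
    ring
  aself i x h := by rw [K.aself i x h, T.self i x h, one_mul]
  φch i j x h h' := by
    rw [neg_add, neg_add, Real.exp_add, Real.exp_add, ← K.φch i j x h h', ← T.τch i j x h h',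
      norm_mul]
    ring
  hμ := K.hμ

/-- multiplication by `σ` -/
def Twi.mul (T : Twi K) {E : Type} [SMul ℂ E] (g : K.I → Cm n → E) : K.I → Cm n → E :=
  fun i z => T.σ i z • g i z

/-- the curvature of the second bundle is dominated by the curvature of `F` -/
def Twi.Dom (T : Twi K) : Prop := ∃ C : ℝ, ∀ i, ∀ z ∈ (K.e i).target,
  ((C : ℂ) • cHess (K.φ i) z - cHess (T.τ i) z).PosSemidef

end defs

section forms

variable {r : ℕ} {M : Type} [TopologicalSpace M] [MeasurableSpace M] (K : KA (r + 1) M)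

/-- the form of top degree with the coefficient `f` -/
def tS (f : Sc K) : K.Fm (r + 1) := fun i z => f i z • dt (r + 1)

/-- the contraction of the volume form with the vector `g` -/
def tV (g : Vc K) : K.Fm r := fun i z => (dt (r + 1)).curryLeft (g i z)

open Classical in
/-- `D' g` -/
def dv (g : Vc K) : Sc K := fun i z => if z ∈ (K.e i).target then
  (Real.exp (K.φ i z) : ℂ) * ∑ b, dz b (fun y => (Real.exp (-K.φ i y) : ℂ) * g i y b) z else 0

end forms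

/-- weakly closed forms -/
def WCl {n : ℕ} {M : Type} [TopologicalSpace M] [MeasurableSpace M] (K : KA n M) :
    ∀ {p : ℕ}, K.Fm p → Prop
  | 0, _ => True
  | p + 1, η => ∀ ψ : K.Fm p, K.Test ψ → K.ip η (K.dh ψ) = 0

/-- A statement for all compact `M`. -/
def ForK (P : ∀ (n : ℕ) (M : Type) [TopologicalSpace M] [MeasurableSpace M], KA n M → Prop) :
    Prop :=
  ∀ (n : ℕ) (M : Type) [TopologicalSpace M] [T2Space M] [CompactSpace M] [MeasurableSpace M]
    [BorelSpace M] (K : KA n M), P n M K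

/-- A statement for all compact `M` of positive dimension. -/
def ForK1 (P : ∀ (r : ℕ) (M : Type) [TopologicalSpace M] [MeasurableSpace M],
    KA (r + 1) M → Prop) : Prop :=
  ∀ (r : ℕ) (M : Type) [TopologicalSpace M] [T2Space M] [CompactSpace M] [MeasurableSpace M]
    [BorelSpace M] (K : KA (r + 1) M), P r M K

section api

variable {n : ℕ} {M : Type} [TopologicalSpace M] [MeasurableSpace M] (K : KA n M)

/-- (API) pointwise facts -/
structure Api : Prop where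
  ta_ne : ∀ i j x, x ∈ (K.e i).source → x ∈ (K.e j).source → ta K i j x ≠ 0
  ta_coc : ∀ i j k x, x ∈ (K.e i).source → x ∈ (K.e j).source → x ∈ (K.e k).source →
    ta K i k x = ta K i j x * ta K j k x
  ta_self : ∀ i x, x ∈ (K.e i).source → ta K i i x = 1
  ta_hol : ∀ i j z, z ∈ (K.e i).target → (K.e i).symm z ∈ (K.e j).source →
    AnalyticAt ℂ (fun y => ta K i j ((K.e i).symm y)) z
  wt_ch : ∀ i j x, x ∈ (K.e i).source → x ∈ (K.e j).source →
    wt K i (K.e i x) * (‖ta K i j x‖ ^ 2 : ℝ) = wt K j (K.e j x)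
  dS_eq : ∀ (f f' : Sc K) i x, x ∈ (K.e i).source →
    (∀ j, x ∈ (K.e j).source → f i (K.e i x) = ta K i j x * f j (K.e j x)) →
    (∀ j, x ∈ (K.e j).source → f' i (K.e i x) = ta K i j x * f' j (K.e j x)) →
    dS K f f' x = wt K i (K.e i x) * (f i (K.e i x) * conj (f' i (K.e i x)))
  dV_eq : ∀ (u g : Vc K) i x, x ∈ (K.e i).source → Vec K g →
    (∀ j, x ∈ (K.e j).source → ∀ b, u i (K.e i x) b =
      ta K i j x * ∑ c, conj (jacM (K.e i) (K.e j) x c b) * u j (K.e j x) c) →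
    dV K u g x = wt K i (K.e i x) * ∑ b, u i (K.e i x) b * conj (g i (K.e i x) b)
  fl_cov : ∀ g, Vec K g → Cov K (fl K g) ∧ (Sm K g → Sm K (fl K g)) ∧ sh K (fl K g) = g
  sh_vec : ∀ u, Cov K u → Vec K (sh K u) ∧ (Sm K u → Sm K (sh K u)) ∧ fl K (sh K u) = u
  db_cl : ∀ f, Top K f → Sm K f → Cl K (db K f)
  cl_sm : ∀ u, Cl K u → Sm K u
  cl_of : ∀ u, Cov K u → (∀ x, ∃ i, x ∈ (K.e i).source ∧ ∃ q : Cm n → ℂ,
    ∀ᶠ y in 𝓝 (K.e i x), ContDiffAt ℝ ∞ q y ∧ ∀ b, dzb b q y = u i y b) → Cl K u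
  hol_of : ∀ f, Sm K f → db K f = 0 → Hl K f
  gam_add : ∀ g g', Gam K g → Gam K g' → Gam K (g + g')
  gam_smul : ∀ (c : ℂ) g, Gam K g → Gam K (c • g)
  cl_add : ∀ u u', Cl K u → Cl K u' → Cl K (u + u')
  cl_smul : ∀ (c : ℂ) u, Cl K u → Cl K (c • u)
  tw_top : ∀ (T : Twi K) f, Top K f → Top T.ka (T.mul f)
  tw_vec : ∀ (T : Twi K) g, Vec K g → Vec T.ka (T.mul g)
  tw_cov : ∀ (T : Twi K) u, Cov K u → Cov T.ka (T.mul u)
  tw_db : ∀ (T : Twi K) f, Sm K f → db T.ka (T.mul f) = T.mul (db K f)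

/-- (INT) integrals -/
structure Int : Prop where
  fin : IsFiniteMeasure K.μ
  intS : ∀ f f', Top K f → Top K f' → Sm K f → Sm K f' → Integrable (dS K f f') K.μ
  intV : ∀ u g, Cov K u → Vec K g → Sm K u → Sm K g → Integrable (dV K u g) K.μ
  posS : ∀ f, Top K f → Sm K f → pS K f f = 0 → f = 0
  posV : ∀ g, Vec K g → Sm K g → pV K (fl K g) g = 0 → g = 0
  nnS : ∀ f, 0 ≤ pS K f f
  nnV : ∀ g, 0 ≤ pV K (fl K g) g
  conjS : ∀ f f', pS K f f' = conj (pS K f' f)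
  conjV : ∀ g g', pV K (fl K g) g' = conj (pV K (fl K g') g)
  chart : ∀ i (F : M → ℂ), (∀ x ∉ (K.e i).source, F x = 0) →
    AEStronglyMeasurable (fun z => F ((K.e i).symm z)) (volume.restrict (K.e i).target) →
    (Integrable F K.μ ↔
      IntegrableOn (fun z => F ((K.e i).symm z) * (K.w i z).det) (K.e i).target) ∧
    ∫ x, F x ∂K.μ = ∫ z in (K.e i).target, F ((K.e i).symm z) * (K.w i z).det
  pou : ∀ W : M → Set M, (∀ x, W x ∈ 𝓝 x) → ∃ (s : Finset M) (χ : M → M → ℝ),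
    (∀ x, tsupport (χ x) ⊆ W x) ∧ (∀ y, ∑ x ∈ s, χ x y = 1) ∧ (∀ x y, 0 ≤ χ x y) ∧
      ∀ x, Sm K fun i z => χ x ((K.e i).symm z)
  stokes : ∀ f g, Top K f → Sm K f → Vec K g → Sm K g → Dv K g → pV K (db K f) g = 0
  cs : ∀ u g, Cov K u → Vec K g → Sm K u → Sm K g →
    ‖pV K u g‖ ^ 2 ≤ (pV K u (sh K u)).re * (pV K (fl K g) g).re

end api

/-- (TR) the dictionary with the forms of the `L²` engine -/
structure Tr {r : ℕ} {M : Type} [TopologicalSpace M] [MeasurableSpace M] (K : KA (r + 1) M) :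
    Prop where
  formS : ∀ f, K.IsForm (tS K f) ↔ Top K f
  formV : ∀ g, K.IsForm (tV K g) ↔ Vec K g
  smS : ∀ f, K.Smooth (tS K f) ↔ Sm K f
  smV : ∀ g, K.Smooth (tV K g) ↔ Sm K g
  holV : ∀ g, K.Hol (tV K g) ↔ Hl K g
  surjS : Function.Bijective (tS K)
  surjV : Function.Bijective (tV K)
  dnS : ∀ f f', K.dn (tS K f) (tS K f') = dS K f f'
  dnV : ∀ g g', K.dn (tV K g) (tV K g') = dV K (fl K g) g'
  S_eq : ∀ f, Sm K f → K.S (tS K f) = -tV K (sh K (db K f))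
  dh_eq : ∀ g, Sm K g → K.dh (tV K g) = tS K (dv K g)
  dA_eq : ∀ g x, K.dA (tV K g) x = (wt K (K.ix x) (K.e (K.ix x) x) *
    ∑ c, ∑ d, cHess (K.φ (K.ix x)) (K.e (K.ix x) x) c d *
      (g (K.ix x) (K.e (K.ix x) x) c * conj (g (K.ix x) (K.e (K.ix x) x) d))).re

/-- (API) -/
def StApi : Prop := ForK fun _ _ _ _ K => Api K

/-- (INT) -/
def StInt : Prop := ForK fun _ _ _ _ K => Int K

/-- (TR) -/
def StTr : Prop := ForK1 fun _ _ _ _ K => Tr K

/-- (WCL) locally exact forms and holomorphic forms are weakly closed -/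
def StWcl : Prop := ForK1 fun r _ _ _ K =>
  (∀ u, Cl K u → WCl K (tV K (sh K u))) ∧
    ∀ η : K.Fm r, K.IsForm η → K.Hol η → WCl K η

/-- (DEN) closed forms which are orthogonal to `Γ` are limits of exact forms -/
def StDen : Prop := ForK1 fun r _ _ _ K => Psd K → ∀ η : K.Fm r, K.Test η → WCl K η →
  (∀ g : K.Fm r, K.IsForm g → K.Hol g → K.dh g = 0 → K.ip η g = 0) →
  ∃ v : ℕ → K.Fm (r + 1), (∀ k, K.Test (v k)) ∧
    Tendsto (fun k => K.nq (K.S (v k) - η)) atTop (𝓝 0)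

/-- (LOC) the local solution of `∂̄` with an `L²` estimate -/
def StLoc : Prop := ∀ (n : ℕ) (a : Cm n) (ρ : ℝ), 0 < ρ → ∃ C : ℝ≥0∞, C ≠ ⊤ ∧ ∀ v : Cm n → ℂ,
  (∀ z ∈ Metric.ball a ρ, ContDiffAt ℝ ∞ v z) → ∃ h : Cm n → ℂ,
    (∀ z ∈ Metric.ball a ρ, AnalyticAt ℂ h z) ∧
      ∫⁻ z in Metric.ball a ρ, ‖v z - h z‖ₑ ^ 2 ≤
        C * ∫⁻ z in Metric.ball a ρ, ∑ b, ‖dzb b v z‖ₑ ^ 2

/-- (MON) Montel's theorem for sequences which are bounded in `L²` -/
def StMon : Prop := ∀ (n : ℕ) (O : Set (Cm n)), IsOpen O → ∀ h : ℕ → Cm n → ℂ,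
  (∀ k, ∀ z ∈ O, AnalyticAt ℂ (h k) z) → ∀ C : ℝ≥0∞, C ≠ ⊤ →
  (∀ k, ∫⁻ z in O, ‖h k z‖ₑ ^ 2 ≤ C) → ∃ (φ : ℕ → ℕ) (h₀ : Cm n → ℂ), StrictMono φ ∧
    (∀ z ∈ O, AnalyticAt ℂ h₀ z) ∧ TendstoLocallyUniformlyOn (fun k => h (φ k)) h₀ atTop O

/-- (RNG) the range of `∂̄` is closed -/
def StRng : Prop := ForK fun _ _ _ _ K => ∀ u, Cl K u → ∀ v : ℕ → Sc K,
  (∀ k, Top K (v k) ∧ Sm K (v k)) →
  Tendsto (fun k => pV K (db K (v k) - u) (sh K (db K (v k) - u))) atTop (𝓝 0) → Ex K u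

/-- (FIN) finite dimension -/
def StFin : Prop := ForK fun _ _ _ _ K =>
  (∃ s : Finset (Sc K), (∀ f ∈ s, H0 K f) ∧ ∀ f, H0 K f → f ∈ Submodule.span ℂ (s : Set (Sc K))) ∧
    ∃ s : Finset (Vc K), (∀ g ∈ s, Gam K g) ∧
      ∀ g, Gam K g → g ∈ Submodule.span ℂ (s : Set (Vc K))

/-- (A1) detection -/
def StA1 : Prop := ForK fun _ _ _ _ K => Psd K → ∀ u, Cl K u →
  (∀ g, Gam K g → pV K u g = 0) → Ex K u

/-- (A2) -/
def StA2 : Prop := ForK fun _ _ _ _ K => Psd K → ∀ T : Twi K, T.Dom → ∀ g, Gam K g →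
  Gam T.ka (T.mul g)

/-- (A3) -/
def StA3 : Prop := ForK fun _ _ _ _ K => Psd K → ∀ T : Twi K, ∀ u g₀, Cl K u → Gam K g₀ →
  Gam T.ka (T.mul g₀) → (∀ g, Gam K g → pV K u g = pV K (fl K g₀) g) →
  pV T.ka (T.mul u) (T.mul g₀) = pV T.ka (fl T.ka (T.mul g₀)) (T.mul g₀)

/-- the output of the block -/
structure Out : Prop where
  api : StApi
  int : StInt
  fin : StFin
  a1 : StA1
  a2 : StA2
  a3 : StA3

end Vale.Agent.P281Z.Ha
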