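import Vale.Agent.P281Z.Ha.Defs
import Mathlib.Analysis.InnerProductSpace.Defs
import Mathlib.Analysis.Normed.Module.FiniteDimension
import Mathlib.MeasureTheory.Measure.OpenPos
import Mathlib.Topology.UniformSpace.LocallyUniformConvergence

/-!
# P281Z, block HA: tools for the closed range and the finite dimension
-/

open scoped ContDiff Topology ComplexConjugate ComplexOrder ENNReal NNReal
open Filter Set MeasureTheory Metric

noncomputable section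

namespace Vale.Agent.P281Z.Ha.Rn

open Vale.Agent.P272.K Vale.Agent.P284.H608.K

section gen

variable {α E : Type*} [TopologicalSpace α] [MeasurableSpace α] [OpensMeasurableSpace α]
  [NormedAddCommGroup E]

theorem aem (μ : Measure α) {O : Set α} (hO : IsOpen O) {f : α → E} (hf : ContinuousOn f O) :
    AEMeasurable (fun z => ‖f z‖ₑ ^ 2) (μ.restrict O) :=
  ((ENNReal.continuous_pow 2).comp_continuousOn
    (continuous_enorm.comp_continuousOn hf)).aemeasurable hO.measurableSet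

theorem sq_le {E' E'' : Type*} [NormedAddCommGroup E'] [NormedAddCommGroup E''] {F : E} {a : E'}
    {b : E''} (h : ‖F‖ ≤ ‖a‖ + ‖b‖) : ‖F‖ₑ ^ 2 ≤ 2 * ‖a‖ₑ ^ 2 + 2 * ‖b‖ₑ ^ 2 := by
  have h1 : ‖F‖₊ ^ 2 ≤ 2 * ‖a‖₊ ^ 2 + 2 * ‖b‖₊ ^ 2 := by
    rw [← NNReal.coe_le_coe]
    push_cast
    nlinarith [norm_nonneg F, norm_nonneg a, norm_nonneg b, sq_nonneg (‖a‖ - ‖b‖)]
  simp only [enorm_eq_nnnorm]
  exact_mod_cast h1

theorem lint2 (μ : Measure α) {O : Set α} (hO : IsOpen O) {F f g : α → E} (hf : ContinuousOn f O)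
    (h : ∀ z ∈ O, ‖F z‖ ≤ ‖f z‖ + ‖g z‖) : ∫⁻ z in O, ‖F z‖ₑ ^ 2 ∂μ ≤
      2 * ∫⁻ z in O, ‖f z‖ₑ ^ 2 ∂μ + 2 * ∫⁻ z in O, ‖g z‖ₑ ^ 2 ∂μ := by
  rw [← lintegral_const_mul' _ _ (by simp), ← lintegral_const_mul' _ _ (by simp),
    ← lintegral_add_left' ((aem μ hO hf).const_mul _)]
  exact setLIntegral_mono' hO.measurableSet fun z hz => sq_le (h z hz)

theorem tend0 {a : ℕ → ℝ≥0∞} {C : ℝ≥0∞} (hC : C ≠ ⊤) (ha : Tendsto a atTop (𝓝 0)) :
    Tendsto (fun k => C * a k) atTop (𝓝 0) := by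
  have h := ENNReal.Tendsto.const_mul ha (Or.inr hC)
  rwa [mul_zero] at h

theorem sq0 {a b : ℕ → ℝ≥0∞} (hb : Tendsto b atTop (𝓝 0)) (h : ∀ k, a k ≤ b k) :
    Tendsto a atTop (𝓝 0) :=
  tendsto_of_tendsto_of_tendsto_of_le_of_le tendsto_const_nhds hb (fun _ => zero_le) h

theorem tend2 {a b c : ℕ → ℝ≥0∞} (ha : Tendsto a atTop (𝓝 0)) (hb : Tendsto b atTop (𝓝 0))
    (h : ∀ k, c k ≤ 2 * a k + 2 * b k) : Tendsto c atTop (𝓝 0) := by
  have h1 := (tend0 (C := 2) (by simp) ha).add (tend0 (C := 2) (by simp) hb)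
  rw [add_zero] at h1
  exact sq0 h1 h

theorem tend_re {a : ℕ → ℝ} (h0 : ∀ k, 0 ≤ a k)
    (h : Tendsto (fun k => ENNReal.ofReal (a k)) atTop (𝓝 0)) : Tendsto a atTop (𝓝 0) := by
  have h1 := (ENNReal.tendsto_toReal ENNReal.zero_ne_top).comp h
  exact h1.congr fun k => ENNReal.toReal_ofReal (h0 k)

/-- two limits in `L²` agree -/
theorem glue (μ : Measure α) [μ.IsOpenPosMeasure] {U : Set α} (hU : IsOpen U) {A A' τ : α → ℂ}
    {B : ℕ → α → ℂ} (hA : ContinuousOn A U) (hA' : ContinuousOn A' U) (hτ : ContinuousOn τ U)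
    (hB : ∀ k, ContinuousOn (B k) U)
    (h1 : Tendsto (fun k => ∫⁻ m in U, ‖τ m * B k m - A m‖ₑ ^ 2 ∂μ) atTop (𝓝 0))
    (h2 : Tendsto (fun k => ∫⁻ m in U, ‖B k m - A' m‖ₑ ^ 2 ∂μ) atTop (𝓝 0)) :
    ∀ m ∈ U, A m = τ m * A' m := by
  have hp : ∀ m, 0 < 1 + ‖τ m‖ := fun m => by positivity
  have hF : ContinuousOn (fun m => (1 + ‖τ m‖)⁻¹ • (A m - τ m * A' m)) U :=
    ((continuousOn_const.add hτ.norm).inv₀ fun m _ => (hp m).ne').smul (hA.sub (hτ.mul hA'))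
  have h3 : Tendsto (fun _ : ℕ => ∫⁻ m in U, ‖(1 + ‖τ m‖)⁻¹ • (A m - τ m * A' m)‖ₑ ^ 2 ∂μ) atTop
      (𝓝 0) := by
    refine tend2 h1 h2 fun k => lint2 μ hU ((hτ.mul (hB k)).sub hA) fun m _ => ?_
    rw [norm_smul, norm_inv, Real.norm_of_nonneg (hp m).le, inv_mul_le_iff₀ (hp m),
      show A m - τ m * A' m = τ m * (B k m - A' m) - (τ m * B k m - A m) by ring]
    refine (norm_sub_le _ _).trans ?_
    rw [norm_mul]
    nlinarith [norm_nonneg (τ m), norm_nonneg (B k m - A' m), norm_nonneg (τ m * B k m - A m)]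
  have h4 := (lintegral_eq_zero_iff' (aem μ hU hF)).1 (tendsto_const_nhds_iff.1 h3)
  have h5 : (fun m => (1 + ‖τ m‖)⁻¹ • (A m - τ m * A' m)) =ᵐ[μ.restrict U] fun _ => 0 := by
    filter_upwards [h4] with m hm
    exact enorm_eq_zero.1 (pow_eq_zero_iff two_ne_zero |>.1 hm)
  intro m hm
  have h6 := Measure.eqOn_open_of_ae_eq h5 hU hF continuousOn_const hm
  exact sub_eq_zero.1 ((smul_eq_zero.1 h6).resolve_left (inv_ne_zero (hp m).ne'))

end gen

/-- one subsequence for finitely many properties -/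
theorem sub_fin {ι : Type*} (s : Finset ι) (P : ι → (ℕ → ℕ) → Prop)
    (h1 : ∀ i ∈ s, ∀ φ : ℕ → ℕ, StrictMono φ → ∃ ψ : ℕ → ℕ, StrictMono ψ ∧ P i (φ ∘ ψ))
    (h2 : ∀ i (φ ψ : ℕ → ℕ), StrictMono ψ → P i φ → P i (φ ∘ ψ)) :
    ∃ φ : ℕ → ℕ, StrictMono φ ∧ ∀ i ∈ s, P i φ := by
  classical
  induction s using Finset.induction_on with
  | empty => exact ⟨id, strictMono_id, by simp⟩
  | insert a s _ ih =>
    obtain ⟨φ, hφ, h3⟩ := ih fun i hi => h1 i (Finset.mem_insert_of_mem hi)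
    obtain ⟨ψ, hψ, h4⟩ := h1 a (Finset.mem_insert_self _ _) φ hφ
    refine ⟨φ ∘ ψ, hφ.comp hψ, fun i hi => ?_⟩
    rcases Finset.mem_insert.1 hi with rfl | hi
    · exact h4
    · exact h2 i φ ψ hψ (h3 i hi)

/-- finite dimension from compactness -/
theorem fin_abs {E : Type} [AddCommGroup E] [Module ℂ E] (V : Submodule ℂ E) (p : E → E → ℂ)
    (add : ∀ a ∈ V, ∀ b ∈ V, ∀ c ∈ V, p (a + b) c = p a c + p b c)
    (smul : ∀ (c : ℂ) a b, p (c • a) b = c * p a b) (cj : ∀ a b, p a b = conj (p b a))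
    (nn : ∀ a, 0 ≤ p a a) (pos : ∀ a ∈ V, p a a = 0 → a = 0)
    (cpt : ∀ (f : ℕ → E) (C : ℝ), (∀ k, f k ∈ V) → (∀ k, (p (f k) (f k)).re ≤ C) →
      ∃ j k, j ≠ k ∧ (p (f j - f k) (f j - f k)).re < 1) :
    ∃ s : Finset E, (∀ f ∈ s, f ∈ V) ∧ ∀ f ∈ V, f ∈ Submodule.span ℂ (s : Set E) := by
  let c : InnerProductSpace.Core ℂ V :=
    { inner := fun a b => p b a
      conj_inner_symm := fun a b => (cj _ _).symm
      re_inner_nonneg := fun a => (Complex.nonneg_iff.1 (nn a)).1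
      add_left := fun a b c => by
        show p c (a + b) = p c a + p c b
        rw [cj c, add _ a.2 _ b.2 _ c.2, map_add, ← cj, ← cj]
      smul_left := fun a b r => by
        show p b (r • a) = conj r * p b a
        rw [cj b, smul, map_mul, ← cj]
      definite := fun a h => Subtype.ext (pos _ a.2 h) }
  let : NormedAddCommGroup V := InnerProductSpace.Core.toNormedAddCommGroup (𝕜 := ℂ)
  let : NormedSpace ℂ V := InnerProductSpace.Core.toNormedSpace (𝕜 := ℂ)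
  have hn : ∀ a : V, ‖a‖ = √(p a a).re := fun _ => rfl
  have h1 : FiniteDimensional ℂ V := by
    by_contra h
    obtain ⟨R, f, -, h2, h3⟩ := exists_seq_norm_le_one_le_norm_sub (𝕜 := ℂ) h
    obtain ⟨j, k, hjk, h4⟩ := cpt (fun k => f k) (R ^ 2) (fun k => (f k).2) fun k =>
      (Real.sqrt_le_iff.1 (hn _ ▸ h2 k)).2
    have h5 : 1 ≤ ‖f j - f k‖ := h3 hjk
    rw [hn, Real.le_sqrt' one_pos, one_pow] at h5
    exact h4.not_ge h5
  obtain ⟨s, hs⟩ := (Submodule.fg_iff_finiteDimensional V).2 h1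
  exact ⟨s, fun f hf => hs ▸ Submodule.subset_span hf, fun f hf => hs ▸ hf⟩

variable {n : ℕ}

theorem lt_top {a : Cm n} {ρ : ℝ} {E : Type*} [NormedAddCommGroup E] {q : Cm n → E}
    (hq : ContinuousOn q (closedBall a ρ)) : ∫⁻ z in ball a ρ, ‖q z‖ₑ ^ 2 ≠ ⊤ := by
  obtain ⟨B, hB⟩ := (isCompact_closedBall a ρ).exists_bound_of_continuousOn hq
  refine (setLIntegral_lt_top_of_le_nnreal measure_ball_lt_top.ne
    ⟨B.toNNReal ^ 2, fun z hz => ?_⟩).ne
  rw [ENNReal.coe_pow]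
  exact pow_le_pow_left' (by
    rw [← ofReal_norm]
    exact ENNReal.ofReal_le_ofReal (hB z (ball_subset_closedBall hz))) 2

/-- Montel's theorem in `L²` -/
theorem mon2 (hM : StMon) (a : Cm n) {ρ : ℝ} (hρ : 0 < ρ) (h : ℕ → Cm n → ℂ)
    (hh : ∀ k, ∀ z ∈ ball a ρ, AnalyticAt ℂ (h k) z) {C : ℝ≥0∞} (hC : C ≠ ⊤)
    (hb : ∀ k, ∫⁻ z in ball a ρ, ‖h k z‖ₑ ^ 2 ≤ C) : ∃ (φ : ℕ → ℕ) (h₀ : Cm n → ℂ), StrictMono φ ∧
      (∀ z ∈ ball a ρ, AnalyticAt ℂ h₀ z) ∧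
      Tendsto (fun k => ∫⁻ z in ball a (ρ / 2), ‖h (φ k) z - h₀ z‖ₑ ^ 2) atTop (𝓝 0) := by
  obtain ⟨φ, h₀, hφ, h1, h2⟩ := hM n _ isOpen_ball h hh C hC hb
  have h3 : closedBall a (ρ / 2) ⊆ ball a ρ := closedBall_subset_ball (by linarith)
  have h4 := (tendstoLocallyUniformlyOn_iff_tendstoUniformlyOn_of_compact
    (isCompact_closedBall a (ρ / 2))).1 (h2.mono h3)
  refine ⟨φ, h₀, hφ, h1, ?_⟩
  have h5 : Tendsto (fun k => ∫⁻ z in ball a (ρ / 2), ‖h (φ k) z - h₀ z‖ₑ ^ 2) atTop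
      (𝓝 (∫⁻ _ in ball a (ρ / 2), 0)) := by
    refine tendsto_lintegral_filter_of_dominated_convergence' (fun _ => 1)
      (Eventually.of_forall fun k => aem _ isOpen_ball fun z hz => ?_) ?_ ?_ ?_
    · have h6 := h3 (ball_subset_closedBall hz)
      exact ((hh _ z h6).continuousAt.sub (h1 z h6).continuousAt).continuousWithinAt
    · filter_upwards [Metric.tendstoUniformlyOn_iff.1 h4 1 one_pos] with k hk
      refine (ae_restrict_iff' measurableSet_ball).2 (Eventually.of_forall fun z hz => ?_)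
      refine pow_le_one₀ zero_le ?_
      rw [← ofReal_norm, ← dist_eq_norm, dist_comm]
      exact ENNReal.ofReal_le_one.2 (hk z (ball_subset_closedBall hz)).le
    · rw [setLIntegral_one]
      exact measure_ball_lt_top.ne
    · refine (ae_restrict_iff' measurableSet_ball).2 (Eventually.of_forall fun z hz => ?_)
      have h6 := (((ENNReal.continuous_pow 2).comp continuous_enorm).tendsto _).comp
        (tendsto_sub_nhds_zero_iff.2 (h4.tendsto_at (ball_subset_closedBall hz)))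
      simpa [Function.comp_def] using h6
  rwa [lintegral_zero] at h5

/-- sequences which are bounded in `L²` and asymptotically holomorphic -/
theorem loc (hL : StLoc) (hM : StMon) (a : Cm n) {ρ : ℝ} (hρ : 0 < ρ) (y : ℕ → Cm n → ℂ)
    (hy : ∀ k, ∀ z ∈ ball a ρ, ContDiffAt ℝ ∞ (y k) z) {C : ℝ≥0∞} (hC : C ≠ ⊤)
    (hb : ∀ k, ∫⁻ z in ball a ρ, ‖y k z‖ₑ ^ 2 ≤ C)
    (hd : Tendsto (fun k => ∫⁻ z in ball a ρ, ∑ b, ‖dzb b (y k) z‖ₑ ^ 2) atTop (𝓝 0)) :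
    ∃ (φ : ℕ → ℕ) (h₀ : Cm n → ℂ), StrictMono φ ∧ (∀ z ∈ ball a ρ, AnalyticAt ℂ h₀ z) ∧
      Tendsto (fun k => ∫⁻ z in ball a (ρ / 2), ‖y (φ k) z - h₀ z‖ₑ ^ 2) atTop (𝓝 0) := by
  obtain ⟨C', hC', h1⟩ := hL n a ρ hρ
  choose h hh h2 using fun k => h1 (y k) (hy k)
  have h3 := sq0 (tend0 hC' hd) h2
  obtain ⟨N, hN⟩ := eventually_atTop.1 (h3.eventually (ge_mem_nhds zero_lt_one))
  have hc : ∀ k, ContinuousOn (y k) (ball a ρ) := fun k z hz =>
    (hy k z hz).continuousAt.continuousWithinAt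
  obtain ⟨φ, h₀, hφ, h4, h5⟩ := mon2 hM a hρ (fun k => h (k + N)) (fun k => hh _)
    (C := 2 * C + 2 * 1) (by finiteness) fun k => by
      refine (lint2 _ isOpen_ball (g := fun z => y (k + N) z - h (k + N) z) (hc (k + N))
        fun z _ => ?_).trans ?_
      · have h6 := norm_sub_le (y (k + N) z) (y (k + N) z - h (k + N) z)
        rwa [sub_sub_cancel] at h6
      · gcongr
        · exact hb _
        · exact hN _ (Nat.le_add_left _ _)
  have h6 : ball a (ρ / 2) ⊆ ball a ρ := ball_subset_ball (by linarith)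
  have h7 : StrictMono fun k => φ k + N := fun j k hjk => Nat.add_lt_add_right (hφ hjk) N
  refine ⟨fun k => φ k + N, h₀, h7, h4, tend2 (sq0 (h3.comp h7.tendsto_atTop) fun k =>
    lintegral_mono_set h6) h5 fun k => lint2 _ isOpen_ball
      (((hc _).sub fun z hz => (hh _ z hz).continuousAt.continuousWithinAt).mono h6)
      fun z _ => norm_sub_le_norm_sub_add_norm_sub _ _ _⟩

end Vale.Agent.P281Z.Ha.Rn
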