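import Vale.Agent.P281Z.Ha.Defs
import Vale.Agent.P284.H608.K.Eng

/-!
# P281Z, block HA: closed forms which are orthogonal to `Γ` are limits of exact forms
-/

open scoped ContDiff Topology ComplexConjugate ComplexOrder ENNReal InnerProductSpace
open Filter Set MeasureTheory

noncomputable section

namespace Vale.Agent.P281Z.Ha

open Vale.Agent.P272.K Vale.Agent.P284.H608.K Vale.Agent.P284.H286.K Vale.Agent.P284.H752

namespace Den

theorem abs {E F : Type} [SeminormedAddCommGroup E] [InnerProductSpace ℂ E] [AddCommGroup F]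
    [Module ℂ F] (S : F →ₗ[ℂ] E) (η : E)
    (key : ∀ v : ℕ → F, CauchySeq (fun k => η - S (v k)) →
      (∀ u, Tendsto (fun k => ⟪S u, η - S (v k)⟫_ℂ) atTop (𝓝 0)) →
      ∃ s : E, Tendsto (fun k => η - S (v k)) atTop (𝓝 s) ∧ ((∀ u, ⟪S u, s⟫_ℂ = 0) → ⟪s, η⟫_ℂ = 0)) :
    ∃ v : ℕ → F, Tendsto (fun k => ‖S (v k) - η‖) atTop (𝓝 0) := by
  let c : E →ₗᵢ[ℂ] UniformSpace.Completion E := UniformSpace.Completion.toComplₗᵢ
  let R : Submodule ℂ (UniformSpace.Completion E) :=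
    (LinearMap.range (c.toLinearMap ∘ₗ S)).topologicalClosure
  have : CompleteSpace R := (Submodule.isClosed_topologicalClosure _).completeSpace_coe
  obtain ⟨a, ha, hl⟩ := mem_closure_iff_seq_limit.1 (Submodule.starProjection_apply_mem R (c η))
  choose v hv using ha
  have h1 : Tendsto (fun k => c (η - S (v k))) atTop (𝓝 (c η - R.starProjection (c η))) :=
    (tendsto_const_nhds.sub hl).congr fun k => by rw [map_sub, ← hv k]; rfl
  have h2 : ∀ u, Tendsto (fun k => ⟪S u, η - S (v k)⟫_ℂ) atTop (𝓝 0) := fun u => by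
    have h3 := (tendsto_const_nhds (x := c (S u))).inner (𝕜 := ℂ) h1
    rw [inner_eq_zero_symm.1 (Submodule.starProjection_inner_eq_zero (K := R) (c η) (c (S u))
      (Submodule.le_topologicalClosure _ ⟨u, rfl⟩))] at h3
    exact h3.congr fun k => c.inner_map_map _ _
  obtain ⟨s, hs, hs'⟩ := key v
    (c.isometry.isUniformInducing.cauchy_map_iff.1 h1.cauchySeq) h2
  have h3 : ∀ u, ⟪S u, s⟫_ℂ = 0 := fun u =>
    tendsto_nhds_unique ((tendsto_const_nhds (x := S u)).inner (𝕜 := ℂ) hs) (h2 u)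
  have h4 : ⟪s, s⟫_ℂ = 0 := by
    refine tendsto_nhds_unique ((tendsto_const_nhds (x := s)).inner (𝕜 := ℂ) hs)
      (tendsto_const_nhds.congr fun k => ?_)
    rw [inner_sub_right, hs' h3, inner_eq_zero_symm.1 (h3 _), sub_zero]
  have h5 := hs.norm
  rw [norm_eq_sqrt_re_inner (𝕜 := ℂ), h4, map_zero, Real.sqrt_zero] at h5
  exact ⟨v, h5.congr fun k => norm_sub_rev _ _⟩

theorem abs2 {E F : Type} [AddCommGroup E] [Module ℂ E] (b : PreInnerProductSpace.Core ℂ E)
    [AddCommGroup F] [Module ℂ F] (S : F →ₗ[ℂ] E) (a : E) (c : ℕ → E)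
    (hc : Tendsto (fun k => qf b (c k - a)) atTop (𝓝 0))
    (key : ∀ v : ℕ → F, Cau b (fun k => c k - S (v k)) →
      (∀ u, Tendsto (fun k => b.inner (S u) (c k - S (v k))) atTop (𝓝 0)) →
      ∃ y : ℕ → E, Tendsto (fun k => qf b (y k - (c k - S (v k)))) atTop (𝓝 0) ∧ (Cau b y →
        ∃ s, Tendsto (fun k => qf b (s - y k)) atTop (𝓝 0) ∧
          ((∀ u, b.inner (S u) s = 0) → b.inner s a = 0))) :
    ∃ v : ℕ → F, Tendsto (fun k => qf b (S (v k) - a)) atTop (𝓝 0) := by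
  let i := ng b
  let j : InnerProductSpace ℂ E := InnerProductSpace.ofCore b
  have n1 : ∀ x : E, ‖x‖ ^ 2 = qf b x := sq_norm b
  have n2 : ∀ {x : ℕ → E}, Tendsto (fun k => qf b (x k)) atTop (𝓝 0) → Tendsto x atTop (𝓝 0) :=
    fun h => tendsto_zero_iff_norm_tendsto_zero.2 (by
      simpa only [← n1, Real.sqrt_sq (norm_nonneg _), Real.sqrt_zero] using h.sqrt)
  obtain ⟨v, hv⟩ := Den.abs S a (fun v h1 h2 => by
    have h0 := n2 hc
    have h3 : CauchySeq fun k => c k - S (v k) :=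
      (funext fun k => sub_add_sub_cancel (c k) a (S (v k))) ▸ h0.cauchySeq.add h1
    obtain ⟨y, h4, h5⟩ := key v ((cau_iff b _).2 h3) fun u => by
      have h4 := ((tendsto_const_nhds (x := S u)).inner (𝕜 := ℂ) h0).add (h2 u)
      simpa only [inner_zero_right, add_zero, ← inner_add_right, sub_add_sub_cancel] using h4
    obtain ⟨s, h6, h7⟩ := h5 ((cau_iff b _).2
      ((funext fun k => sub_add_cancel (y k) (c k - S (v k))) ▸ (n2 h4).cauchySeq.add h3))
    have h8 := (tendsto_const_nhds (x := s)).sub (((n2 h6).add (n2 h4)).add h0)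
    rw [add_zero, add_zero, sub_zero] at h8
    exact ⟨s, h8.congr fun k => by abel, h7⟩)
  exact ⟨v, by simpa only [n1, zero_pow two_ne_zero] using hv.pow 2⟩

variable {n p : ℕ} {M : Type} [TopologicalSpace M] [MeasurableSpace M] (K : KA n M)

/-- the trivial cut-off of a compact manifold -/
def cut [CompactSpace M] : K.Cut where
  χ _ _ := 1
  ε _ := 0
  sm _ _ _ _ := contDiffAt_const
  supp _ := ⟨univ, isCompact_univ, fun x h => absurd (mem_univ x) h⟩
  nonneg _ _ := zero_le_one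
  mono _ _ := le_rfl
  le_one _ _ := le_rfl
  lim _ := .of_forall fun _ => .of_forall fun _ => rfl
  grad _ i z _ := by
    have h : (((0 : ℝ) : ℂ) • K.w i z - Matrix.of fun j k =>
        dz j (fun _ => ((1 : ℝ) : ℂ)) z * conj (dz k (fun _ => ((1 : ℝ) : ℂ)) z)) = 0 := by
      ext j k
      simp [dz]
    exact h ▸ Matrix.PosSemidef.zero
  tend := tendsto_const_nhds

variable {K}

theorem test_of [CompactSpace M] {η : K.Fm p} (h : K.IsForm η) (h' : K.Smooth η) : K.Test η :=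
  ⟨h, h', univ, isCompact_univ, fun _ x _ hx => absurd (mem_univ x) hx⟩

variable [BorelSpace M]

theorem openPos : K.μ.IsOpenPosMeasure := ⟨fun U hU ⟨x, hx⟩ h0 => by
  obtain ⟨i, hi⟩ := K.cover x
  have hV : IsOpen (U ∩ (K.e i).source) := hU.inter (K.e i).open_source
  have hW : IsOpen ((K.e i).target ∩ (K.e i).symm ⁻¹' U) :=
    (K.e i).isOpen_inter_preimage_symm hU
  have h1 := K.hμ i ((U ∩ (K.e i).source).indicator 1) (measurable_one.indicator hV.measurableSet)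
    fun y hy => indicator_of_notMem (fun h => hy h.2) _
  rw [lintegral_indicator_one hV.measurableSet, measure_mono_null inter_subset_left h0] at h1
  have h2 : ∫⁻ z in (K.e i).target ∩ (K.e i).symm ⁻¹' U, ENNReal.ofReal (K.w i z).det.re = 0 := by
    refine le_zero_iff.1 (le_trans (le_of_eq ?_) ((lintegral_mono_set
      (inter_subset_left (t := (K.e i).symm ⁻¹' U))).trans h1.ge))
    refine setLIntegral_congr_fun hW.measurableSet fun z hz => ?_
    rw [indicator_of_mem (mem_inter (mem_preimage.1 hz.2) ((K.e i).map_target hz.1)), Pi.one_apply,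
      one_mul]
  have hc : ContinuousOn (fun z => ENNReal.ofReal (K.w i z).det.re)
      ((K.e i).target ∩ (K.e i).symm ⁻¹' U) := fun z hz =>
    (ENNReal.continuous_ofReal.continuousAt.comp (Complex.continuous_re.continuousAt.comp
      (continuous_id.matrix_det.continuousAt.comp (continuousAt_pi.2 fun a =>
        continuousAt_pi.2 fun b => (K.wsm i z hz.1 a b).continuousAt)))).continuousWithinAt
  have h3 := (ae_restrict_iff' hW.measurableSet).1
    ((lintegral_eq_zero_iff' (hc.aemeasurable hW.measurableSet)).1 h2)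
  refine hW.measure_ne_zero volume ⟨K.e i x, (K.e i).map_source hi, ?_⟩
    (measure_eq_zero_iff_ae_notMem.2 (h3.mono fun z hz h => ?_))
  · rwa [mem_preimage, (K.e i).left_inv hi]
  · exact (ENNReal.ofReal_pos.2 (Complex.pos_iff.1 (K.wpos i z h.1).det_pos).1).ne' (hz h)⟩

variable [T2Space M]

theorem eq_zero (χ : K.Cut) {ζ : K.Fm p} (h : K.IsForm ζ) (h' : K.Smooth ζ)
    (h0 : ∀ ψ, K.Test ψ → K.ip ψ ζ = 0) : ζ = 0 := by
  have := openPos (K := K)
  have h3 := k3 n M K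
  have h1 : ∀ ν x, χ.χ ν x * (K.dn ζ ζ x).re = 0 := fun ν x => by
    have t := test_cm χ h h' ν
    have h2 := (h3.int p _ ζ t h h').1
    have h5 : ∀ x, 0 ≤ (K.dn (cm χ ζ ν) ζ x).re := fun x => by
      rw [dn_cm, Complex.re_ofReal_mul]
      exact mul_nonneg (χ.nonneg ν x) (dn_nonneg k1Stmt ζ x)
    have h4 := (integral_eq_zero_iff_of_nonneg h5 h2.re).1
      ((integral_re h2).trans (congrArg Complex.re (h0 _ t)))
    rw [← Complex.re_ofReal_mul, ← dn_cm]
    exact congrFun (((Complex.continuous_re.comp (continuous_dn h3 t.form t.smooth h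
      h')).ae_eq_iff_eq K.μ continuous_zero).1 h4) x
  funext i z
  by_cases hz : z ∈ (K.e i).target
  · by_contra h2
    obtain ⟨ν, hν⟩ := (χ.lim ((K.e i).symm z)).exists
    have h4 := h1 ν ((K.e i).symm z)
    rw [hν.self_of_nhds, one_mul, h3.dn_eq p ζ ζ h h i _ ((K.e i).map_target hz),
      (K.e i).right_inv hz, Complex.re_ofReal_mul] at h4
    exact (mul_pos (Real.exp_pos _)
      (Complex.pos_iff.1 (k1Stmt.pos n p _ (K.wpos i z hz) _ h2)).1).ne' h4
  · exact h.off i z hz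

variable (K) in
/-- the square integrable smooth forms -/
def LS (p : ℕ) : Submodule ℂ (K.Fm p) where
  carrier := {η | K.IsForm η ∧ K.Smooth η ∧ K.nl η < ⊤}
  add_mem' h h' := ⟨form_add K h.1 h'.1, smooth_add K h.2.1 h'.2.1,
    (nl_young k1Stmt (k3 n M K) h.1 h.2.1 h'.1 h'.2.1 one_pos).trans_lt (ENNReal.add_lt_top.2
      ⟨ENNReal.mul_lt_top ENNReal.ofReal_lt_top h.2.2,
        ENNReal.mul_lt_top ENNReal.ofReal_lt_top h'.2.2⟩)⟩
  zero_mem' := ⟨form_zero K, smooth_zero K, by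
    rw [nl_eq k1Stmt (k3 n M K) (test_zero K)]
    exact ENNReal.ofReal_lt_top⟩
  smul_mem' c η h := ⟨form_smul K c h.1, smooth_smul K c h.2.1, by
    refine lt_of_le_of_lt (le_of_eq ?_)
      (ENNReal.mul_lt_top (ENNReal.ofReal_lt_top (r := Complex.normSq c)) h.2.2)
    rw [KA.nl, KA.nl, ← lintegral_const_mul' _ _ ENNReal.ofReal_ne_top]
    refine lintegral_congr fun x => ?_
    simp only [dn_smul_left, dn_smul_right]
    rw [← mul_assoc, ← Complex.normSq_eq_conj_mul_self, Complex.re_ofReal_mul,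
      ENNReal.ofReal_mul (Complex.normSq_nonneg c)]⟩

theorem ts_le : TS K p ≤ LS K p := fun η h => ⟨h.form, h.smooth, by
  rw [nl_eq k1Stmt (k3 n M K) h]
  exact ENNReal.ofReal_lt_top⟩

theorem int_self {η : K.Fm p} (h : η ∈ LS K p) : Integrable (K.dn η η) K.μ := by
  refine ⟨(continuous_dn (k3 n M K) h.1 h.2.1 h.1 h.2.1).measurable.aestronglyMeasurable,
    lt_of_le_of_lt (le_of_eq (lintegral_congr fun x => ?_)) h.2.2⟩
  rw [← Complex.conj_eq_iff_re.1 (dn_conj k1Stmt η η x).symm, Complex.ofReal_re,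
    ← ofReal_norm, Complex.norm_of_nonneg (dn_nonneg k1Stmt η x)]

theorem int {η ζ : K.Fm p} (h : η ∈ LS K p) (h' : ζ ∈ LS K p) : Integrable (K.dn η ζ) K.μ := by
  have h1 := fun c : ℂ =>
    (int_self ((LS K p).add_mem h ((LS K p).smul_mem c h'))).const_mul (c / 4)
  refine ((((h1 1).add (h1 (-1))).add (h1 Complex.I)).add (h1 (-Complex.I))).congr
    (.of_forall fun x => ?_)
  simp only [Pi.add_apply, dn_add_left, dn_add_right, dn_smul_left, dn_smul_right, map_neg,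
    map_one, Complex.conj_I]
  linear_combination (K.dn ζ η x / 2 - K.dn η ζ x / 2) * Complex.I_mul_I

variable (K) in
/-- the product -/
@[reducible] def core (p : ℕ) : PreInnerProductSpace.Core ℂ (LS K p) where
  inner x y := K.ip y.1 x.1
  conj_inner_symm _ _ := (ip_conj k1Stmt _ _).symm
  re_inner_nonneg x := (integral_nonneg fun y => dn_nonneg k1Stmt _ y).trans
    (integral_re (int_self x.2)).le
  add_left x y z := (congrArg (integral K.μ) (dn_add_right z.1 x.1 y.1)).trans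
    (integral_add (int z.2 x.2) (int z.2 y.2))
  smul_left x y r := ip_smul_right r y.1 x.1

variable (K) in
/-- `S` on the test forms -/
def sL (p : ℕ) : TS K (p + 1) →ₗ[ℂ] LS K p := Submodule.inclusion ts_le ∘ₗ sT (k3 n M K) p

theorem qf_eq (x : LS K p) : qf (core K p) x = K.nq x.1 := rfl

theorem in_eq (x y : LS K p) : (core K p).inner x y = K.ip y.1 x.1 := rfl

theorem sL_val (x : TS K (p + 1)) : (sL K p x).1 = K.S x.1 := rfl

theorem tend_nl {x : ℕ → K.Fm p} (hx : ∀ k, x k ∈ LS K p) :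
    Tendsto (fun k => K.nq (x k)) atTop (𝓝 0) ↔ Tendsto (fun k => K.nl (x k)) atTop (𝓝 0) := by
  have h1 : ∀ k, K.nl (x k) = ENNReal.ofReal (K.nq (x k)) := fun k =>
    ((congrArg ENNReal.ofReal (integral_re (int_self (hx k))).symm).trans
      (ofReal_integral_eq_lintegral_ofReal (int_self (hx k)).re
        (.of_forall fun y => dn_nonneg k1Stmt _ y))).symm
  simp only [h1]
  refine ⟨fun h => ENNReal.ofReal_zero ▸ ENNReal.tendsto_ofReal h, fun h => ?_⟩
  refine ((ENNReal.tendsto_toReal ENNReal.zero_ne_top).comp h).congr fun k => ?_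
  exact ENNReal.toReal_ofReal ((core K p).re_inner_nonneg ⟨x k, hx k⟩)

variable (K) in
/-- asymptotically closed sequences -/
def WL : ∀ {p : ℕ}, (ℕ → K.Fm p) → Prop
  | 0, _ => True
  | p + 1, x => ∀ ψ : K.Fm p, K.Test ψ → Tendsto (fun k => K.ip (x k) (K.dh ψ)) atTop (𝓝 0)

/-- the regularisation of a weakly harmonic sequence -/
theorem reg (χ : K.Cut) : ∀ {p : ℕ} (x : ℕ → K.Fm p), (∀ k, K.Test (x k)) →
    Tendsto (fun q : ℕ × ℕ => K.nq (x q.1 - x q.2)) atTop (𝓝 0) →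
    (∀ ψ, K.Test ψ → Tendsto (fun k => K.ip (x k) (K.S ψ)) atTop (𝓝 0)) →
    WL K x → ∃ y : ℕ → K.Fm p, (∀ k, K.Test (y k)) ∧
      Tendsto (fun k => K.nq (y k - x k)) atTop (𝓝 0) ∧
      Tendsto (fun k => (∫ z, K.dT (y k) z ∂K.μ) + ∫ z, K.dA (y k) z ∂K.μ) atTop (𝓝 0)
  | 0, x, hx, hc, h1, _ => by
    obtain ⟨y, hy, hy1, hy2⟩ := P284.H419.K.k45z_of k1Stmt (k3 n M K) ⟨χ⟩ x (fun _ => 0) hx
      (fun _ => test_zero K) hc (by simp only [sub_zero, nq_zero, tendsto_const_nhds])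
      (fun ψ hψ => by simpa only [ip_zero_left, sub_zero] using h1 ψ hψ)
    exact ⟨y, hy, hy1, hy2.congr fun k => by rw [sub_zero, (k3 n M K).bk0 _ (hy k)]⟩
  | p + 1, x, hx, hc, h1, h2 => by
    obtain ⟨y, hy, hy1, hy2, hy3⟩ := P284.H419.K.k45_of k1Stmt (k3 n M K) ⟨χ⟩ p x (fun _ => 0)
      (fun _ => 0) hx (fun _ => test_zero K) (fun _ => test_zero K) hc
      (by simp only [sub_zero, nq_zero, tendsto_const_nhds])
      (by simp only [sub_zero, nq_zero, tendsto_const_nhds])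
      (fun ψ hψ => by simpa only [ip_zero_left, sub_zero] using h1 ψ hψ)
      (fun ψ hψ => by simpa only [ip_zero_left, sub_zero] using h2 ψ hψ)
    have h3 := hy2.add hy3
    rw [add_zero] at h3
    exact ⟨y, hy, hy1, h3.congr fun k => by rw [sub_zero, sub_zero, (k3 n M K).bk p _ (hy k)]⟩

theorem wl (χ : K.Cut) : ∀ {p : ℕ} {η : K.Fm p} {v : ℕ → K.Fm (p + 1)}, K.IsForm η →
    K.Smooth η → (∀ k, K.Test (v k)) → WCl K η → WL K fun k => cm χ η k - K.S (v k)
  | 0, _, _, _, _, _, _ => trivial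
  | p + 1, η, v, h, h', hv, hw => fun ψ hψ => by
    have h3 := k3 n M K
    have h1 := h3.dh_test p ψ hψ
    refine tendsto_const_nhds.congr' ((ip_cm χ η h1).mono fun k hk => ?_)
    have h4 := h3.S_test _ _ (hv k)
    have h2 := ip_add_left h3 ((TS K _).sub_mem (test_cm χ h h' k) h4) h4 h1
    rw [sub_add_cancel, hk, hw ψ hψ, ip_conj k1Stmt (K.S _),
      ← h3.adj _ _ _ h1.form h1.smooth (hv k).form (hv k).smooth (Or.inl h1), h3.dh_dh p ψ hψ,
      ip_zero_left, map_zero, add_zero] at h2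
    exact h2

/-- the limit of a harmonic sequence -/
theorem lim (χ : K.Cut) (hφ : Psd K) {y : ℕ → K.Fm p} (hy : ∀ k, K.Test (y k))
    (hc : Tendsto (fun q : ℕ × ℕ => K.nq (y q.1 - y q.2)) atTop (𝓝 0))
    (hy2 : Tendsto (fun k => (∫ z, K.dT (y k) z ∂K.μ) + ∫ z, K.dA (y k) z ∂K.μ) atTop (𝓝 0)) :
    ∃ s ∈ LS K p, Tendsto (fun k => K.nq (s - y k)) atTop (𝓝 0) ∧ K.Hol s ∧
      ∀ i, ∀ z ∈ (K.e i).target, Ad (K.w i z) (cHess (K.φ i) z) (s i z) = 0 := by
  have := sigma_of_cut χ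
  have hT0 : ∀ k, 0 ≤ ∫ z, K.dT (y k) z ∂K.μ := fun k =>
    integral_nonneg fun z => dT_nonneg k1Stmt _ z
  have hA0 : ∀ k, 0 ≤ ∫ z, K.dA (y k) z ∂K.μ := fun k =>
    integral_nonneg fun z => dA_nonneg k1Stmt hφ _ z
  obtain ⟨s, hs1, hs2, hs3, hs4⟩ := P284.H366.K.k7_of k1Stmt (k3 n M K) hφ p y hy hc
    (squeeze_zero hT0 (fun k => le_add_of_nonneg_right (hA0 k)) hy2)
    (squeeze_zero hA0 (fun k => le_add_of_nonneg_left (hT0 k)) hy2)
  have hL : s ∈ LS K p := by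
    obtain ⟨k, hk⟩ := (hs4.eventually (gt_mem_nhds ENNReal.zero_lt_top)).exists
    rw [← sub_add_cancel s (y k)]
    exact (LS K p).add_mem ⟨form_sub hs1 (hy k).form,
      smooth_sub (smooth_of_hol hs2) (hy k).smooth, hk⟩ (ts_le (hy k))
  exact ⟨s, hL, (tend_nl fun k => (LS K p).sub_mem hL (ts_le (hy k))).2 hs4, hs2, hs3⟩

end Den

open Den in
/-- **DEN** for complete metrics -/
theorem denP {n r : ℕ} {M : Type} [TopologicalSpace M] [T2Space M] [MeasurableSpace M]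
    [BorelSpace M] (K : KA n M) (hχ : Nonempty K.Cut) (hφ : Psd K) (η : K.Fm r)
    (hf : K.IsForm η) (hs : K.Smooth η) (hn : K.nl η < ⊤) (hw : WCl K η)
    (ho : ∀ g : K.Fm r, K.IsForm g → K.Hol g → K.nl g < ⊤ → K.dh g = 0 →
      (∀ i, ∀ z ∈ (K.e i).target, Ad (K.w i z) (cHess (K.φ i) z) (g i z) = 0) → K.ip η g = 0) :
    ∃ v : ℕ → K.Fm (r + 1), (∀ k, K.Test (v k)) ∧
      Tendsto (fun k => K.nl (K.S (v k) - η)) atTop (𝓝 0) ∧
      Tendsto (fun k => K.nq (K.S (v k) - η)) atTop (𝓝 0) := by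
  obtain ⟨χ⟩ := hχ
  have h3 := k3 n M K
  have ha : η ∈ LS K r := ⟨hf, hs, hn⟩
  have tc := test_cm χ hf hs
  have key := abs2 (E := LS K r) (F := TS K (r + 1)) (core K r) (sL K r) ⟨η, ha⟩
    fun k => ⟨cm χ η k, ts_le (tc k)⟩
  simp only [Cau, qf_eq, in_eq, Submodule.coe_sub, sL_val] at key
  obtain ⟨v, hv⟩ := key ((tend_nl fun k => (LS K r).sub_mem (ts_le (tc k)) ha).2
    (nl_cm k1Stmt h3 χ hf hs hn)) fun v hc h1 => by
      obtain ⟨y, hy, hy1, hy2⟩ := reg χ (fun k => cm χ η k - K.S (v k).1)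
        (fun k => (TS K r).sub_mem (tc k) (h3.S_test r _ (v k).2)) hc (fun ψ hψ => h1 ⟨ψ, hψ⟩)
        (wl χ hf hs (fun k => (v k).2) hw)
      refine ⟨fun k => ⟨y k, ts_le (hy k)⟩, hy1, fun hc' => ?_⟩
      obtain ⟨s, hL, h4, h5, h6⟩ := Den.lim χ hφ hy hc' hy2
      obtain ⟨hd, hd'⟩ := h3.dh_form r s hL.1 hL.2.1
      refine ⟨⟨s, hL⟩, h4, fun h7 => ho s hL.1 h5 hL.2.2 (eq_zero χ hd hd' fun ψ hψ => ?_) h6⟩
      have h8 : K.ip s (K.S ψ) = 0 := h7 ⟨ψ, hψ⟩
      rw [ip_conj k1Stmt, h3.adj r s ψ hL.1 hL.2.1 hψ.form hψ.smooth (Or.inr hψ), h8, map_zero]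
  exact ⟨fun k => (v k).1, fun k => (v k).2, (tend_nl fun k =>
    (LS K r).sub_mem (ts_le (h3.S_test r _ (v k).2)) ha).1 hv, hv⟩

/-- **DEN** for complete metrics -/
theorem denC {r : ℕ} {M : Type} [TopologicalSpace M] [T2Space M] [MeasurableSpace M]
    [BorelSpace M] (K : KA (r + 1) M) (hχ : Nonempty K.Cut) (hφ : Psd K) (η : K.Fm r)
    (hf : K.IsForm η) (hs : K.Smooth η) (hn : K.nl η < ⊤) (hw : WCl K η)
    (ho : ∀ g : K.Fm r, K.IsForm g → K.Hol g → K.nl g < ⊤ → K.dh g = 0 →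
      (∀ i, ∀ z ∈ (K.e i).target, Ad (K.w i z) (cHess (K.φ i) z) (g i z) = 0) → K.ip η g = 0) :
    ∃ v : ℕ → K.Fm (r + 1), (∀ k, K.Test (v k)) ∧
      Tendsto (fun k => K.nl (K.S (v k) - η)) atTop (𝓝 0) :=
  (denP K hχ hφ η hf hs hn hw ho).imp fun _ h => ⟨h.1, h.2.1⟩

/-- **DEN** -/
theorem stDen : StDen := fun _ _ _ _ _ _ _ K hφ η hη hw ho =>
  (denP K ⟨Den.cut K⟩ hφ η hη.form hη.smooth (Den.ts_le hη).2.2 hw
    fun g h1 h2 _ h3 _ => ho g h1 h2 h3).imp fun _ h => ⟨h.1, h.2.2⟩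

end Vale.Agent.P281Z.Ha
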