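import Vale.Agent.P281Z.Ha.Wcl

/-!
# P281Z, block HA: (WCL) without compactness
-/

open scoped ContDiff Topology ComplexConjugate ComplexOrder ENNReal
open Filter Set MeasureTheory

noncomputable section

namespace Vale.Agent.P281Z.Ha

open Vale.Agent.P272.K Vale.Agent.P284.H608.K

namespace WclH

open Vale.Agent.P284 Vale.Agent.P284.H752 Vale.Agent.P284.H205.K

variable {n p : ℕ} {M : Type} [TopologicalSpace M] [MeasurableSpace M] [T2Space M] {K : KA n M}

/-- small bump functions -/
theorem small_bmp (K : KA n M) (x : M) {W : Set M} (hW : W ∈ 𝓝 x) :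
    ∃ b : Bmp K, b.D ⊆ W ∧ ∀ᶠ y in 𝓝 x, b.f y = 1 := by
  classical
  set i := K.ix x
  have hi : x ∈ (K.e i).source := ix_mem x
  obtain ⟨U, hUW, hU, hxU⟩ := mem_nhds_iff.1 hW
  have hTo : IsOpen ((K.e i).target ∩ (K.e i).symm ⁻¹' U) := (K.e i).isOpen_inter_preimage_symm hU
  have hxT : K.e i x ∈ (K.e i).target ∩ (K.e i).symm ⁻¹' U :=
    ⟨(K.e i).map_source hi, by rw [mem_preimage, (K.e i).left_inv hi]; exact hxU⟩
  obtain ⟨r, hr, hrb⟩ := Metric.nhds_basis_closedBall.mem_iff.1 (hTo.mem_nhds hxT)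
  obtain ⟨θ, hθ, hθc, hθT, hθ1⟩ :=
    H419.K.exists_theta (isCompact_closedBall (K.e i x) r) hTo hrb
  have hc : IsCompact ((K.e i).symm '' tsupport θ) :=
    IsCompact.image_of_continuousOn hθc ((K.e i).continuousOn_symm.mono fun z hz => (hθT hz).1)
  have hoff : ∀ y, y ∉ (K.e i).symm '' tsupport θ →
      (if y ∈ (K.e i).source then θ (K.e i y) else 0) = 0 := by
    intro y hy
    by_cases hys : y ∈ (K.e i).source
    · rw [if_pos hys]
      exact image_eq_zero_of_notMem_tsupport fun h => hy ⟨K.e i y, h, (K.e i).left_inv hys⟩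
    · rw [if_neg hys]
  refine ⟨⟨i, (K.e i).symm '' tsupport θ,
    fun y => if y ∈ (K.e i).source then θ (K.e i y) else 0, hc, ?_, ?_, hoff⟩, ?_, ?_⟩
  · rintro _ ⟨z, hz, rfl⟩
    exact (K.e i).map_target (hθT hz).1
  · intro j z hz
    by_cases hy : (K.e j).symm z ∈ (K.e i).symm '' tsupport θ
    · have hys : (K.e j).symm z ∈ (K.e i).source := by
        obtain ⟨w, hw, hw'⟩ := hy
        rw [← hw']; exact (K.e i).map_target (hθT hw).1
      have hjs : (K.e j).symm z ∈ (K.e j).source := (K.e j).map_target hz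
      have h1 := nhds_two hjs hys
      have h2 := tr_an hjs hys
      rw [(K.e j).right_inv hz] at h1 h2
      have h3 : ContDiffAt ℝ ∞ (tr K j i) z := H419.K.real_smooth h2
      refine (hθ.contDiffAt.comp z h3).congr_of_eventuallyEq ?_
      filter_upwards [h1] with w hw
      rw [if_pos hw.2.2]; rfl
    · have h2 : ContinuousAt (K.e j).symm z := (K.e j).continuousAt_symm hz
      have h3 : ∀ᶠ w in 𝓝 z, (K.e j).symm w ∉ (K.e i).symm '' tsupport θ :=
        h2.eventually (p := fun y => y ∉ (K.e i).symm '' tsupport θ)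
          (hc.isClosed.isOpen_compl.mem_nhds hy)
      refine (contDiffAt_const (c := (0 : ℝ))).congr_of_eventuallyEq ?_
      filter_upwards [h3] with w hw using hoff _ hw
  · rintro _ ⟨z, hz, rfl⟩
    exact hUW (hθT hz).2
  · have h1 : ∀ᶠ y in 𝓝 x, K.e i y ∈ Metric.ball (K.e i x) r :=
      ((K.e i).continuousAt hi).eventually (Metric.ball_mem_nhds _ hr)
    filter_upwards [h1, (K.e i).open_source.mem_nhds hi] with y hy hy'
    show (if y ∈ (K.e i).source then θ (K.e i y) else 0) = 1
    rw [if_pos hy']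
    exact hθ1 _ (Metric.ball_subset_closedBall hy)

/-- the decomposition principle, subordinate to given neighbourhoods -/
theorem decompW {D : K.Fm p → ℂ}
    (hadd : ∀ τ τ', K.Test τ → K.Test τ' → D (τ + τ') = D τ + D τ')
    (W : M → Set M) (hW : ∀ x, W x ∈ 𝓝 x)
    (hloc : ∀ x (C : Set M) (τ : K.Fm p), IsCompact C → C ⊆ W x → K.Test τ → K.Off C τ → D τ = 0)
    {τ : K.Fm p} (hτ : K.Test τ) : D τ = 0 := by
  have hD0 : D 0 = 0 := by
    have := hadd 0 0 (H286.K.test_zero K) (H286.K.test_zero K)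
    rw [add_zero] at this
    simpa using this
  choose b hb hb1 using fun x => small_bmp K x (hW x)
  have key : ∀ (L : List M) (τ : K.Fm p), K.Test τ →
      (∀ y, (∀ x ∈ L, (b x).f y ≠ 1) → ∀ i, y ∈ (K.e i).source → τ i (K.e i y) = 0) →
      D τ = 0 := by
    intro L
    induction L with
    | nil =>
      intro τ hτ h
      have : τ = 0 := by
        funext i z
        by_cases hz : z ∈ (K.e i).target
        · have := h ((K.e i).symm z) (by simp) i ((K.e i).map_target hz)
          rwa [(K.e i).right_inv hz] at this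
        · exact hτ.form.off i z hz
      rw [this, hD0]
    | cons a L ih =>
      intro τ hτ h
      have h1 := mulF_test (b a).sm hτ
      have h2 := mulF_test (b a).sm.one_sub hτ
      rw [← mulF_add (b a).f τ, hadd _ _ h1 h2]
      have e1 : D (mulF K (b a).f τ) = 0 := by
        refine hloc a (b a).D _ (b a).cpt (hb a) h1 fun i x hi hx => ?_
        unfold mulF; rw [(K.e i).left_inv hi, (b a).off x hx, Complex.ofReal_zero, af_zero_smul]
      have e2 : D (mulF K (fun y => 1 - (b a).f y) τ) = 0 := by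
        refine ih _ h2 fun y hy i hi => ?_
        show ((1 - (b a).f ((K.e i).symm (K.e i y)) : ℝ) : ℂ) • τ i (K.e i y) = 0
        rw [(K.e i).left_inv hi]
        by_cases hb : (b a).f y = 1
        · rw [hb, sub_self, Complex.ofReal_zero, af_zero_smul]
        · rw [h y (fun b' hb' => by
            rcases List.mem_cons.1 hb' with rfl | hb'
            · exact hb
            · exact hy b' hb') i hi, af_smul_zero]
      rw [e1, e2, add_zero]
  obtain ⟨C, hC, hC'⟩ := hτ.supp
  obtain ⟨t, -, ht⟩ := hC.elim_nhds_subcover (fun x => {y | (b x).f y = 1}) fun x _ => hb1 x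
  refine key t.toList τ hτ fun y hy i hi => hC' i y hi fun hyC => ?_
  obtain ⟨x, hx, hx'⟩ := mem_iUnion₂.1 (ht hyC)
  exact hy x (Finset.mem_toList.2 hx) hx'

end WclH

open WclH Vale.Agent.P284 Vale.Agent.P284.H752

/-- **(WCL)**, first half, without compactness -/
theorem wclC {r : ℕ} {M : Type} [TopologicalSpace M] [T2Space M] [MeasurableSpace M]
    [BorelSpace M] {K : KA (r + 1) M} (hA : Api K) (hT : Tr K) {u : Vc K} (hu : Cl K u) :
    WCl K (tV K (sh K u)) := by
  cases r with
  | zero => trivial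
  | succ p =>
    intro ψ hψ
    choose W hW h using loc hA hT hu
    have h1 := hA.sh_vec _ hu.cov
    have hη := (hT.formV _).2 h1.1
    have hs := (hT.smV _).2 (h1.2.1 (hA.cl_sm u hu))
    refine decompW (D := fun ψ => K.ip (tV K (sh K u)) (K.dh ψ)) (fun a b ha hb => ?_) W hW
      (fun x C τ hC hCW hτ hτC => h x C τ hC.isClosed hCW hτ hτC) hψ
    have d1 := H205.K.dh_test ha
    have d2 := H205.K.dh_test hb
    change K.ip _ (K.dh (a + b)) = _
    rw [H205.K.dh_add ha.smooth hb.smooth, H205.K.ip_add_right k1Stmt d1.form d1.smooth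
      d2.form d2.smooth hη hs (Or.inl ⟨d1, d2⟩)]

/-- **(WCL)**, second half, without compactness -/
theorem wclH {n r : ℕ} {M : Type} [TopologicalSpace M] [T2Space M] [MeasurableSpace M]
    [BorelSpace M] {K : KA n M} {η : K.Fm r} (h1 : K.IsForm η) (h2 : K.Hol η) : WCl K η :=
  wcl_hol η h1 h2

end Vale.Agent.P281Z.Ha
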