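import Vale.Agent.P281Z.Ha.RngB

/-!
# P281Z, block HA, row FIN: finite dimension
-/

open scoped ContDiff Topology ComplexConjugate ComplexOrder ENNReal NNReal Matrix
open Filter Set MeasureTheory Metric

noncomputable section

namespace Vale.Agent.P281Z.Ha

open Vale.Agent.P272.K Vale.Agent.P284.H608.K

namespace Rn

variable {n : ℕ}

/-- finite dimension of a space of holomorphic families -/
theorem fin_loc (hM : StMon) {E : Type} [AddCommGroup E] [Module ℂ E] (V : Submodule ℂ E)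
    (p : E → E → ℂ) (add : ∀ a ∈ V, ∀ b ∈ V, ∀ c ∈ V, p (a + b) c = p a c + p b c)
    (smul : ∀ (c : ℂ) a b, p (c • a) b = c * p a b) (cj : ∀ a b, p a b = conj (p b a))
    (nn : ∀ a, 0 ≤ p a a) (pos : ∀ a ∈ V, p a a = 0 → a = 0) {J : Type} (s : Finset J)
    (a : J → Cm n) (ρ : J → ℝ) (hρ : ∀ j, 0 < ρ j) (L : J → E → Cm n → ℂ)
    (sub : ∀ j f g z, L j (f - g) z = L j f z - L j g z)
    (hol : ∀ j, ∀ f ∈ V, ∀ z ∈ ball (a j) (ρ j), AnalyticAt ℂ (L j f) z) (C : J → ℝ≥0∞)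
    (hC : ∀ j, C j ≠ ⊤) (lo : ∀ j, ∀ f ∈ V,
      ∫⁻ z in ball (a j) (ρ j), ‖L j f z‖ₑ ^ 2 ≤ C j * ENNReal.ofReal (p f f).re)
    (hi : ∀ f ∈ V, ENNReal.ofReal (p f f).re ≤
      ∑ j ∈ s, C j * ∫⁻ z in ball (a j) (ρ j / 2), ‖L j f z‖ₑ ^ 2) :
    ∃ s : Finset E, (∀ f ∈ s, f ∈ V) ∧ ∀ f ∈ V, f ∈ Submodule.span ℂ (s : Set E) := by
  refine fin_abs V p add smul cj nn pos fun f B hf hB => ?_
  obtain ⟨φ, hφ, h1⟩ := sub_fin s (fun j φ => ∃ h₀ : Cm n → ℂ,
    (∀ z ∈ ball (a j) (ρ j), AnalyticAt ℂ h₀ z) ∧ Tendsto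
      (fun k => ∫⁻ z in ball (a j) (ρ j / 2), ‖L j (f (φ k)) z - h₀ z‖ₑ ^ 2) atTop (𝓝 0))
    (fun j _ φ _ => by
      obtain ⟨ψ, h₀, h1, h2⟩ := mon2 hM (a j) (hρ j) (fun k => L j (f (φ k)))
        (fun k => hol j _ (hf _)) (ENNReal.mul_ne_top (hC j) ENNReal.ofReal_ne_top) fun k =>
          (lo j _ (hf _)).trans (mul_le_mul_right (ENNReal.ofReal_le_ofReal (hB _)) _)
      exact ⟨ψ, h1, h₀, h2⟩)
    fun j φ ψ hψ ⟨h₀, h1, h2⟩ => ⟨h₀, h1, h2.comp hψ.tendsto_atTop⟩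
  have h2 : Tendsto (fun k => ∑ j ∈ s, C j * ∫⁻ z in ball (a j) (ρ j / 2),
      ‖L j (f (φ k) - f (φ (k + 1))) z‖ₑ ^ 2) atTop (𝓝 (∑ _j ∈ s, 0)) := by
    refine tendsto_finsetSum _ fun j hj => tend0 (hC j) ?_
    obtain ⟨h₀, h3, h4⟩ := h1 j hj
    refine tend2 h4 (h4.comp (tendsto_add_atTop_nat 1)) fun k => lint2 _ isOpen_ball
      (fun z hz => ?_) fun z _ => ?_
    · have h5 := ball_subset_ball (half_le_self (hρ j).le) hz
      exact ((hol j _ (hf _) z h5).continuousAt.sub (h3 z h5).continuousAt).continuousWithinAt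
    · rw [sub, norm_sub_rev (L j (f (φ (k + 1))) z)]
      exact norm_sub_le_norm_sub_add_norm_sub _ _ _
  rw [Finset.sum_const_zero] at h2
  obtain ⟨k, hk⟩ := ((sq0 h2 fun k => hi _ (V.sub_mem (hf _) (hf _))).eventually
    (gt_mem_nhds zero_lt_one)).exists
  exact ⟨φ k, φ (k + 1), (hφ (Nat.lt_succ_self k)).ne, ENNReal.ofReal_lt_one.1 hk⟩

variable {M : Type} [TopologicalSpace M] [MeasurableSpace M] {K : KA n M}

theorem top_add {f g : Sc K} (h : Top K f) (h' : Top K g) : Top K (f + g) :=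
  ⟨fun i j x hi hj => by
    simp only [Pi.add_apply, h.chg i j x hi hj, h'.chg i j x hi hj, mul_add], fun i z hz => by
    simp only [Pi.add_apply, h.off i z hz, h'.off i z hz, add_zero]⟩

theorem top_smul (c : ℂ) {f : Sc K} (h : Top K f) : Top K (c • f) :=
  ⟨fun i j x hi hj => by
    simp only [Pi.smul_apply, h.chg i j x hi hj, smul_eq_mul, mul_left_comm c], fun i z hz => by
    simp only [Pi.smul_apply, h.off i z hz, smul_zero]⟩

theorem hl_sm {E : Type} [NormedAddCommGroup E] [NormedSpace ℂ E] [CompleteSpace E]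
    {f : K.I → Cm n → E} (h : Hl K f) : Sm K f := fun i z hz => an_sm (h i z hz)

variable (K) in
/-- the space of holomorphic sections -/
def H0s : Submodule ℂ (Sc K) where
  carrier := {f | H0 K f}
  add_mem' h h' := ⟨top_add h.top h'.top, fun i z hz => (h.hol i z hz).add (h'.hol i z hz)⟩
  zero_mem' := ⟨⟨fun _ _ _ _ _ => (mul_zero _).symm, fun _ _ _ => rfl⟩,
    fun _ _ _ => analyticAt_const⟩
  smul_mem' c _ h := ⟨top_smul c h.top, fun i z hz => (h.hol i z hz).const_smul (c := c)⟩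

variable (K) in
/-- the space `Γ` -/
def Gs : Submodule ℂ (Vc K) where
  carrier := {g | Gam K g}
  add_mem' := gam_add
  zero_mem' := ⟨⟨fun _ _ _ _ _ _ => by simp, fun _ _ _ => rfl⟩, fun _ _ _ => analyticAt_const,
    fun _ _ _ => by simp [dz]⟩
  smul_mem' c _ h := gam_smul c h

theorem rpS (I : Int K) {f : Sc K} (h : Top K f) (hs : Sm K f) :
    Rp K (fun i z (f : ℂ) => (wt K i z * (f * conj f)).re) f (dS K f f) :=
  ⟨hs, I.intS f f h h hs hs, fun i m hm => by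
    rw [dS_eq hm (fun j hj => h.chg i j m hm hj) fun j hj => h.chg i j m hm hj]⟩

theorem rpV (I : Int K) {g : Vc K} (h : Vec K g) (hs : Sm K g) :
    Rp K (fun i z (g : Cm n) => (wt K i z * ∑ b, (∑ c, g c * K.w i z c b) * conj (g b)).re) g
      (dV K (fl K g) g) :=
  ⟨hs, I.intV _ g (fl_cov h).1 h ((fl_cov h).2.1 hs) hs, fun i m hm => by
    rw [dV_eq hm h fun j hj => (fl_cov h).1.chg i j m hm hj]
    rfl⟩

theorem rpC (I : Int K) {u : Vc K} (h : Cov K u) (hs : Sm K u) :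
    Rp K (fun i z (u : Cm n) => (wt K i z * ∑ b, u b * conj (∑ c, u c * (K.w i z)⁻¹ c b)).re) u
      (dV K u (sh K u)) :=
  ⟨hs, I.intV u _ h (sh_vec h).1 hs ((sh_vec h).2.1 hs), fun i m hm => by
    rw [dV_eq hm (sh_vec h).1 fun j hj => h.chg i j m hm hj]
    rfl⟩

theorem pS_smul (c : ℂ) (f g : Sc K) : pS K (c • f) g = c * pS K f g := by
  rw [pS, pS, ← integral_const_mul]
  refine integral_congr_ae (Eventually.of_forall fun x => ?_)
  simp only [dS, Pi.smul_apply, smul_eq_mul]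
  ring

theorem pV_smul (c : ℂ) (u g : Vc K) : pV K (c • u) g = c * pV K u g := by
  rw [pV, pV, ← integral_const_mul]
  refine integral_congr_ae (Eventually.of_forall fun x => ?_)
  simp only [dV, Pi.smul_apply, smul_eq_mul, mul_assoc, ← Finset.mul_sum]
  ring

theorem pV_add (I : Int K) {u u' g : Vc K} (h : Cov K u) (h' : Cov K u') (hg : Vec K g)
    (hs : Sm K u) (hs' : Sm K u') (hgs : Sm K g) : pV K (u + u') g = pV K u g + pV K u' g := by
  rw [pV, pV, pV, ← integral_add (I.intV u g h hg hs hgs) (I.intV u' g h' hg hs' hgs)]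
  refine integral_congr_ae (Eventually.of_forall fun x => ?_)
  simp only [dV, Pi.add_apply, add_mul, Finset.sum_add_distrib, mul_add]

theorem en_comp (g : Cm n) (b : Fin n) : ‖g b‖ₑ ^ 2 ≤ ‖g‖ₑ ^ 2 := by
  rw [en_sq, en_sq]
  exact ENNReal.ofReal_le_ofReal (pow_le_pow_left₀ (norm_nonneg _) (norm_le_pi_norm g b) 2)

theorem en_sum (g : Cm n) : ‖g‖ₑ ^ 2 ≤ ∑ b, ‖g b‖ₑ ^ 2 := by
  simp only [en_sq]
  rw [← ENNReal.ofReal_sum_of_nonneg fun b _ => sq_nonneg _]
  refine ENNReal.ofReal_le_ofReal ((Real.le_sqrt (norm_nonneg _) (by positivity)).1 ?_)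
  exact (pi_norm_le_iff_of_nonneg (Real.sqrt_nonneg _)).2 fun b => Real.le_sqrt_of_sq_le
    (Finset.single_le_sum (f := fun b => ‖g b‖ ^ 2) (fun _ _ => sq_nonneg _) (Finset.mem_univ b))

end Rn

open Rn

/-- row FIN -/
theorem stFin (_ : StApi) (hI : StInt) (hM : StMon) : StFin := by
  intro n M _ _ _ _ _ K
  have I := hI n M K
  obtain ⟨s, ρ, hs, -⟩ := ex_cv K (fun _ => univ) fun _ => univ_mem
  have hb : ∀ x, bl K x (ρ x) ⊆ (K.e (K.ix x)).target := fun x =>
    ball_subset_closedBall.trans (hs.sub x)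
  constructor
  · obtain ⟨C, hC, h1⟩ := pack (qdS K) hs
    refine fin_loc hM (H0s K) (pS K) (fun a ha b hb c hc => ?_) pS_smul I.conjS I.nnS
      (fun a ha => I.posS a ha.top (hl_sm ha.hol)) s (fun x => K.e (K.ix x) x) ρ hs.pos
      (fun x f => f (K.ix x)) (fun _ _ _ _ => rfl) (fun x f hf z hz => hf.hol _ z (hb x hz)) C hC
      (fun x f hf => (h1 f _ (rpS I hf.top (hl_sm hf.hol))).1 x)
      fun f hf => (h1 f _ (rpS I hf.top (hl_sm hf.hol))).2
    rw [pS, pS, pS, ← integral_add (I.intS a c ha.top hc.top (hl_sm ha.hol) (hl_sm hc.hol))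
      (I.intS b c hb.top hc.top (hl_sm hb.hol) (hl_sm hc.hol))]
    refine integral_congr_ae (Eventually.of_forall fun x => ?_)
    simp only [dS, Pi.add_apply, add_mul, mul_add]
  · obtain ⟨C, hC, h1⟩ := pack (qdV K) hs
    refine fin_loc hM (Gs K) (fun g g' => pV K (fl K g) g') (fun a ha b hb c hc => ?_)
      (fun c a b => ?_) I.conjV I.nnV (fun a ha => I.posV a ha.vec (hl_sm ha.hol))
      (s ×ˢ (Finset.univ : Finset (Fin n))) (fun x => K.e (K.ix x.1) x.1) (fun x => ρ x.1)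
      (fun x => hs.pos x.1) (fun x g z => g (K.ix x.1) z x.2) (fun _ _ _ _ => rfl)
      (fun x g hg z hz => analyticAt_pi_iff.1 (hg.hol _ z (hb x.1 hz)) x.2) (fun x => C x.1)
      (fun x => hC x.1) (fun x g hg => (lintegral_mono fun z => en_comp _ _).trans
        ((h1 g _ (rpV I hg.vec (hl_sm hg.hol))).1 x.1)) fun g hg => ?_
    · have h2 : fl K (a + b) = fl K a + fl K b := by
        funext i z c
        simp only [fl, Pi.add_apply, add_mul, Finset.sum_add_distrib]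
      show pV K (fl K (a + b)) c = _
      rw [h2, pV_add I (fl_cov ha.vec).1 (fl_cov hb.vec).1 hc.vec
        ((fl_cov ha.vec).2.1 (hl_sm ha.hol)) ((fl_cov hb.vec).2.1 (hl_sm hb.hol)) (hl_sm hc.hol)]
    · have h2 : fl K (c • a) = c • fl K a := by
        funext i z b
        simp only [fl, Pi.smul_apply, smul_eq_mul, mul_assoc, Finset.mul_sum]
      show pV K (fl K (c • a)) b = _
      rw [h2, pV_smul]
    · refine (h1 g _ (rpV I hg.vec (hl_sm hg.hol))).2.trans ?_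
      rw [Finset.sum_product]
      refine Finset.sum_le_sum fun x _ => ?_
      simp only [← Finset.mul_sum]
      rw [← lintegral_finsetSum' _ fun b _ => aem _ isOpen_ball (continuousOn_pi.1
        (((hl_sm hg.hol).cont _).mono
          ((ball_subset_ball (half_le_self (hs.pos x).le)).trans (hb x))) b)]
      exact mul_le_mul_right (lintegral_mono fun z => en_sum _) _

end Vale.Agent.P281Z.Ha
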