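import Vale.Agent.P281Z.Ha.Api
import Vale.Agent.P284.H608.K.Eng

/-!
# P281Z, block HA: detection of exact forms, the twisted pairing, the output
-/

open scoped ContDiff Topology ComplexConjugate ComplexOrder
open Filter Set MeasureTheory

noncomputable section

namespace Vale.Agent.P281Z.Ha

open Vale.Agent.P272.K Vale.Agent.P284.H608.K

namespace OutH

section gen
variable {n : ℕ} {M : Type} [TopologicalSpace M] [MeasurableSpace M] {K : KA n M}
  {u u' g g' : Vc K} {f : Sc K}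

theorem cov_sub (h : Cov K u) (h' : Cov K u') : Cov K (u - u') := by
  simpa only [neg_smul, one_smul, ← sub_eq_add_neg] using h.add (h'.smul (-1))

theorem vec_sub (h : Vec K g) (h' : Vec K g') : Vec K (g - g') := by
  simpa only [neg_smul, one_smul, ← sub_eq_add_neg] using h.add (h'.smul (-1))

theorem sm_sub (h : Sm K g) (h' : Sm K g') : Sm K (g - g') := fun i z hz =>
  (h i z hz).sub (h' i z hz)

theorem hl_sm (h : Hl K g) : Sm K g := fun i z hz => an_sm (h i z hz)

theorem fl_sub (g g' : Vc K) : fl K (g - g') = fl K g - fl K g' := by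
  funext i z
  simp only [fl_eq, Pi.sub_apply, Matrix.sub_vecMul]

theorem sh_sub (g g' : Vc K) : sh K (g - g') = sh K g - sh K g' := by
  funext i z
  simp only [sh_eq, Pi.sub_apply, Matrix.sub_vecMul]

theorem db_neg (f : Sc K) : db K (-f) = -db K f := by
  funext i z b
  simp only [db, Pi.neg_apply]
  split_ifs
  · exact C2.dzb_neg b
  · exact neg_zero.symm

theorem top_neg (h : Top K f) : Top K (-f) :=
  ⟨fun i j x a b => by simp only [Pi.neg_apply, h.chg i j x a b, mul_neg],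
    fun i z a => by simp only [Pi.neg_apply, h.off i z a, neg_zero]⟩

theorem pV_sub (I : Int K) (h : Cov K u) (h' : Cov K u') (s : Sm K u) (s' : Sm K u') (v : Vec K g)
    (t : Sm K g) : pV K (u - u') g = pV K u g - pV K u' g := by
  rw [pV, pV, pV, ← integral_sub (I.intV u g h v s t) (I.intV u' g h' v s' t)]
  simp only [dV, Pi.sub_apply, sub_mul, Finset.sum_sub_distrib, mul_sub]

/-- the vector `|σ|² g` -/
def sq (T : Twi K) (g : Vc K) : Vc K := fun i z =>
  ((‖T.σ i z‖ ^ 2 * Real.exp (-T.τ i z) : ℝ) : ℂ) • g i z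

theorem sq_vec (T : Twi K) (h : Vec K g) : Vec K (sq T g) := by
  refine ⟨fun i j x a b c => ?_, fun i z a => by rw [sq, h.off i z a, smul_zero]⟩
  simp only [sq, Pi.smul_apply, smul_eq_mul, mul_left_comm _ (((_ : ℝ) : ℂ)), ← Finset.mul_sum,
    h.chg i j x a b c]
  rw [T.σch i j x a b, ← T.τch i j x a b, norm_mul]
  congr 2
  ring

theorem sq_sm (T : Twi K) (h : Sm K g) : Sm K (sq T g) := fun i z hz =>
  (Complex.ofRealCLM.contDiff.contDiffAt.comp z (((an_sm (T.σhol i z hz)).norm_sq ℝ).mul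
    (T.τsm i z hz).neg.exp)).smul (h i z hz)

theorem pV_tw (T : Twi K) (u g : Vc K) : pV T.ka (T.mul u) (T.mul g) = pV K u (sq T g) := by
  refine integral_congr_ae (.of_forall fun x => ?_)
  have e : T.ka.ix x = K.ix x := rfl
  simp only [dV, e, wt, sq, Twi.mul, Pi.smul_apply, smul_eq_mul, map_mul, Complex.conj_ofReal,
    Finset.mul_sum, neg_add, Real.exp_add, Complex.ofReal_mul, nsq, Complex.conj_conj]
  exact Finset.sum_congr rfl fun b _ => by ring

theorem fl_tw (T : Twi K) (g : Vc K) : fl T.ka (T.mul g) = T.mul (fl K g) := by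
  funext i z
  simp only [fl_eq, Twi.mul, Matrix.smul_vecMul]

end gen

variable {r : ℕ} {M : Type} [TopologicalSpace M] [T2Space M] [CompactSpace M] [MeasurableSpace M]
  [BorelSpace M] {K : KA (r + 1) M} {g g' : Vc K}

omit [T2Space M] [CompactSpace M] [BorelSpace M] in
theorem ip_tV (R : Tr K) (g g' : Vc K) : K.ip (tV K g) (tV K g') = pV K (fl K g) g' := by
  rw [KA.ip, R.dnV, pV]

omit [CompactSpace M] in
theorem wcl_sub (I : Int K) (R : Tr K) (v : Vec K g) (v' : Vec K g') (s : Sm K g) (s' : Sm K g')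
    (h : WCl K (tV K g)) (h' : WCl K (tV K g')) : WCl K (tV K (g - g')) := by
  cases r with
  | zero => trivial
  | succ p =>
    intro ψ hψ
    obtain ⟨a, b⟩ := (k3 _ M K).dh_form p ψ hψ.form hψ.smooth
    have h1 := h ψ hψ
    have h2 := h' ψ hψ
    obtain ⟨y, hy⟩ := R.surjV.2 (K.dh ψ)
    rw [← hy] at a b h1 h2 ⊢
    rw [ip_tV R] at h1 h2 ⊢
    rw [fl_sub, pV_sub I (fl_cov v).1 (fl_cov v').1 ((fl_cov v).2.1 s) ((fl_cov v').2.1 s')
      ((R.formV y).1 a) ((R.smV y).1 b), h1, h2, sub_zero]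

theorem den (I : Int K) (R : Tr K) (hD : StDen) (hp : Psd K) (v : Vec K g) (s : Sm K g)
    (h : WCl K (tV K g)) (ho : ∀ g', Gam K g' → pV K (fl K g) g' = 0) :
    ∃ f : ℕ → Sc K, (∀ k, Top K (f k) ∧ Sm K (f k)) ∧ Tendsto (fun k =>
      pV K (db K (f k) - fl K g) (sh K (db K (f k) - fl K g))) atTop (𝓝 0) := by
  obtain ⟨y, h1, h2⟩ := hD r M K hp (tV K g) ⟨(R.formV g).2 v, (R.smV g).2 s, univ, isCompact_univ,
    fun _ _ _ k => (k (mem_univ _)).elim⟩ h fun η a b c => by
      obtain ⟨x, rfl⟩ := R.surjV.2 η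
      have b' := (R.holV x).1 b
      rw [R.dh_eq x (hl_sm b'), show (0 : K.Fm (r + 1)) = tS K 0 from
        funext₂ fun i z => (zero_smul ℂ (dt (r + 1))).symm] at c
      rw [ip_tV R]
      refine ho x ⟨(R.formV x).1 a, b', fun i z hz => ?_⟩
      have := congrFun (congrFun (R.surjS.1 c) i) z
      simpa [dv, hz] using this
  choose f hf using fun k => R.surjS.2 (y k)
  have t : ∀ k, Top K (f k) ∧ Sm K (f k) := fun k =>
    ⟨(R.formS _).1 (hf k ▸ (h1 k).form), (R.smS _).1 (hf k ▸ (h1 k).smooth)⟩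
  have t' : ∀ k, Top K (-f k) ∧ Sm K (-f k) := fun k =>
    ⟨top_neg (t k).1, fun i z hz => ((t k).2 i z hz).neg⟩
  refine ⟨fun k => -f k, t', ?_⟩
  have := (Complex.continuous_ofReal.tendsto' 0 0 rfl).comp h2
  refine this.congr fun k => ?_
  have c := sh_vec (cov_sub (db_cl (t' k).1 (t' k).2).cov (fl_cov v).1)
  have e : K.S (y k) - tV K g = tV K (sh K (db K (-f k) - fl K g)) := by
    rw [← hf k, R.S_eq _ (t k).2, sh_sub, (fl_cov v).2.2, db_neg]
    funext i z
    simp only [tV, sh_eq, Pi.sub_apply, Pi.neg_apply, Matrix.neg_vecMul, map_sub, map_neg]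
  have n := I.nnV (sh K (db K (-f k) - fl K g))
  rw [Function.comp, e, KA.nq, ip_tV R, ← Complex.eq_re_of_ofReal_le (r := 0) n, c.2.2]

end OutH

open OutH

theorem stA1 (_ : StApi) (hI : StInt) (hT : StTr) (hW : StWcl) (hD : StDen) (hR : StRng) :
    StA1 := by
  intro n M _ _ _ _ _ K hp u hu ho
  cases n with
  | zero => exact ⟨0, ⟨by simp, by simp⟩, fun _ _ _ => contDiffAt_const, Subsingleton.elim _ _⟩
  | succ r =>
    obtain ⟨a, b, c⟩ := sh_vec hu.cov
    obtain ⟨f, h1, h2⟩ := den (hI _ M K) (hT r M K) hD hp a (b (cl_sm hu)) ((hW r M K).1 u hu)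
      (c.symm ▸ ho)
    exact hR _ M K u hu f h1 (c ▸ h2)

theorem stA3 (_ : StApi) (hI : StInt) (hT : StTr) (hW : StWcl) (hD : StDen) : StA3 := by
  intro n M _ _ _ _ _ K hp T u g hu hg hg' ho
  cases n with
  | zero => simp [pV, dV]
  | succ r =>
    have I := hI _ M K
    have R := hT r M K
    obtain ⟨a, b, c⟩ := sh_vec hu.cov
    have su := cl_sm hu
    have sg := hl_sm hg.hol
    obtain ⟨a', b', -⟩ := fl_cov hg.vec
    obtain ⟨f, h1, h2⟩ := den I R hD hp (vec_sub a hg.vec) (sm_sub (b su) sg)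
      (wcl_sub I R a hg.vec (b su) sg ((hW r M K).1 u hu)
        ((hW r M K).2 _ ((R.formV g).2 hg.vec) ((R.holV g).2 hg.hol))) fun x hx => by
      rw [fl_sub, c, pV_sub I hu.cov a' su (b' sg) hx.vec (hl_sm hx.hol), ho x hx, sub_self]
    rw [fl_sub, c] at h2
    have v := sq_vec T hg.vec
    have s := sq_sm T sg
    have k1 := cov_sub hu.cov a'
    have k2 := sm_sub su (b' sg)
    rw [fl_tw, pV_tw, pV_tw, ← sub_eq_zero, ← pV_sub I hu.cov a' su (b' sg) v s, ← norm_eq_zero,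
      ← pow_eq_zero_iff two_ne_zero]
    have h3 := ((Complex.continuous_re.tendsto' 0 0 rfl).comp h2).mul_const
      (pV K (fl K (sq T g)) (sq T g)).re
    rw [zero_mul] at h3
    refine le_antisymm (ge_of_tendsto' h3 fun k => ?_) (sq_nonneg _)
    have d := db_cl (h1 k).1 (h1 k).2
    have e := (hI _ M T.ka).stokes _ _ (tw_top T (h1 k).1)
      (fun i z hz => (an_sm (T.σhol i z hz)).smul ((h1 k).2 i z hz)) hg'.vec (hl_sm hg'.hol) hg'.dv
    rw [tw_db T (h1 k).2, pV_tw] at e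
    have := I.cs _ _ (cov_sub d.cov k1) v (sm_sub (cl_sm d) k2) s
    rwa [pV_sub I d.cov k1 (cl_sm d) k2 v s, e, zero_sub, norm_neg] at this

theorem out_of (h1 : StApi) (h2 : StInt) (h3 : StTr) (h4 : StWcl) (h5 : StDen) (h6 : StRng)
    (h7 : StFin) (h8 : StA2) : Out :=
  ⟨h1, h2, h7, stA1 h1 h2 h3 h4 h5 h6, h8, stA3 h1 h2 h3 h4 h5⟩

end Vale.Agent.P281Z.Ha
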