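import Vale.Agent.P281Z.Ha.Fin

/-!
# P281Z, block HA, row RNG: the range of `∂̄` is closed
-/

open scoped ContDiff Topology ComplexConjugate ComplexOrder ENNReal NNReal Matrix
open Filter Set MeasureTheory Metric

noncomputable section

namespace Vale.Agent.P281Z.Ha

open Vale.Agent.P272.K Vale.Agent.P284.H608.K

namespace Rn

variable {n : ℕ} {M : Type} [TopologicalSpace M] [MeasurableSpace M] {K : KA n M}

theorem top_sub {f g : Sc K} (h : Top K f) (h' : Top K g) : Top K (f - g) := by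
  rw [sub_eq_add_neg, ← neg_one_smul ℂ g]
  exact top_add h (top_smul _ h')

theorem cl_sub {u u' : Vc K} (h : Cl K u) (h' : Cl K u') : Cl K (u - u') := by
  rw [sub_eq_add_neg, ← neg_one_smul ℂ u']
  exact cl_add h (cl_smul _ h')

theorem sm_sub {f g : Sc K} (h : Sm K f) (h' : Sm K g) : Sm K (f - g) :=
  fun i z hz => (h i z hz).sub (h' i z hz)

theorem sm_smul (c : ℂ) {f : Sc K} (h : Sm K f) : Sm K (c • f) :=
  fun i z hz => (h i z hz).const_smul c

theorem db_sub {f g : Sc K} (h : Sm K f) (h' : Hl K g) : db K (f - g) = db K f := by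
  funext i z b
  by_cases hz : z ∈ (K.e i).target
  · rw [db_eq _ hz, db_eq _ hz, ← sub_zero (dzb b (f i) z), ← dzb_an (h' i z hz) b]
    exact C2.dzb_sub b ((h i z hz).differentiableAt (by simp))
      ((an_sm (h' i z hz)).differentiableAt (by simp))
  · rw [db_off _ hz, db_off _ hz]

theorem db_smul (c : ℂ) {f : Sc K} (h : Sm K f) : db K (c • f) = c • db K f := by
  funext i z b
  show _ = c * db K f i z b
  by_cases hz : z ∈ (K.e i).target
  · rw [db_eq _ hz, db_eq _ hz]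
    exact C2.dzb_const_mul b c ((h i z hz).differentiableAt (by simp))
  · rw [db_off _ hz, db_off _ hz, Pi.zero_apply, mul_zero]

theorem nS_smul (I : Int K) (t : ℝ) (f : Sc K) :
    (pS K ((t : ℂ) • f) ((t : ℂ) • f)).re = t ^ 2 * (pS K f f).re := by
  rw [pS_smul, I.conjS, pS_smul, map_mul, ← I.conjS, Complex.conj_ofReal, ← mul_assoc,
    ← Complex.ofReal_mul, Complex.re_ofReal_mul, sq]

theorem nV_smul (t : ℝ) (u : Vc K) :
    (pV K ((t : ℂ) • u) (sh K ((t : ℂ) • u))).re = t ^ 2 * (pV K u (sh K u)).re := by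
  rw [← Complex.re_ofReal_mul, pV, pV, ← integral_const_mul]
  refine congrArg _ (integral_congr_ae (Eventually.of_forall fun x => ?_))
  simp only [dV, sh, Pi.smul_apply, smul_eq_mul, mul_assoc, ← Finset.mul_sum, map_mul,
    Complex.conj_ofReal, mul_left_comm _ (t : ℂ)]
  push_cast
  ring

theorem nV_nn (I : Int K) {u : Vc K} (h : Cov K u) : 0 ≤ (pV K u (sh K u)).re := by
  have h1 := I.nnV (sh K u)
  rw [(sh_vec h).2.2] at h1
  exact (Complex.nonneg_iff.1 h1).1

theorem nV_add (I : Int K) {u u' : Vc K} (h : Cl K u) (h' : Cl K u') :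
    (pV K u (sh K u)).re ≤
      2 * (pV K (u - u') (sh K (u - u'))).re + 2 * (pV K u' (sh K u')).re := by
  have h0 : ∀ {u : Vc K}, Cl K u → Integrable (dV K u (sh K u)) K.μ := fun h =>
    (rpC I h.cov (cl_sm h)).int
  have h1 := cl_sub h h'
  have h2 := cl_sub h1 h'
  have h3 : pV K u (sh K u) + pV K (u - u' - u') (sh K (u - u' - u')) =
      (2 : ℝ) * pV K (u - u') (sh K (u - u')) + (2 : ℝ) * pV K u' (sh K u') := by
    simp only [pV]
    rw [← integral_add (h0 h) (h0 h2), ← integral_const_mul, ← integral_const_mul,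
      ← integral_add ((h0 h1).const_mul _) ((h0 h').const_mul _)]
    refine integral_congr_ae (Eventually.of_forall fun x => ?_)
    simp only [dV, sh, Pi.sub_apply, sub_mul, Finset.sum_sub_distrib, map_sub, mul_sub]
    push_cast
    ring
  have h4 := congrArg Complex.re h3
  rw [Complex.add_re, Complex.add_re, Complex.re_ofReal_mul, Complex.re_ofReal_mul] at h4
  linarith [nV_nn I h2.cov]

theorem en_n (g : Cm n) : ∑ b, ‖g b‖ₑ ^ 2 ≤ n * ‖g‖ₑ ^ 2 := by
  have h := Finset.sum_le_card_nsmul Finset.univ _ _ fun b _ => en_comp g b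
  rwa [Finset.card_univ, Fintype.card_fin, nsmul_eq_mul] at h

/-- gluing of local sections -/
theorem ex_top {s : Finset M} {ρ : M → ℝ} (hs : Cv K s ρ) (V : M → Cm n → ℂ)
    (hV : ∀ x ∈ s, ∀ y ∈ s, ∀ m ∈ Up K (K.ix x) (bl K x (ρ x / 2)),
      m ∈ Up K (K.ix y) (bl K y (ρ y / 2)) →
      V x (K.e (K.ix x) m) = ta K (K.ix x) (K.ix y) m * V y (K.e (K.ix y) m))
    (hsm : ∀ x ∈ s, ∀ z ∈ bl K x (ρ x / 2), ContDiffAt ℝ ∞ (V x) z) :
    ∃ w, Top K w ∧ Sm K w ∧ ∀ x ∈ s, ∀ z ∈ bl K x (ρ x / 2), w (K.ix x) z = V x z := by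
  classical
  choose c hc h1 using hs.cov
  let w : Sc K := fun j z => if z ∈ (K.e j).target then ta K j (K.ix (c ((K.e j).symm z)))
    ((K.e j).symm z) * V (c ((K.e j).symm z)) (K.e (K.ix (c ((K.e j).symm z))) ((K.e j).symm z))
    else 0
  have h2 : ∀ x ∈ s, ∀ j, ∀ z ∈ (K.e j).target, (K.e j).symm z ∈ Up K (K.ix x) (bl K x (ρ x / 2)) →
      w j z = ta K j (K.ix x) ((K.e j).symm z) * V x (K.e (K.ix x) ((K.e j).symm z)) := by
    intro x hx j z hz hm
    rw [ta_coc ((K.e j).map_target hz) (h1 _).1 hm.1, mul_assoc, ← hV _ (hc _) x hx _ (h1 _) hm]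
    exact if_pos hz
  have h3 : ∀ j, ∀ m ∈ (K.e j).source,
      w j (K.e j m) = ta K j (K.ix (c m)) m * V (c m) (K.e (K.ix (c m)) m) := by
    intro j m hm
    have h4 := h2 (c m) (hc m) j _ ((K.e j).map_source hm) (by
      rw [(K.e j).left_inv hm]
      exact h1 m)
    rwa [(K.e j).left_inv hm] at h4
  refine ⟨w, ⟨fun i j m hi hj => ?_, fun i z hz => if_neg hz⟩, fun j z hz => ?_,
    fun x hx z hz => ?_⟩
  · rw [h3 i m hi, h3 j m hj, ta_coc hi hj (h1 m).1, mul_assoc]
  · have h4 := h1 ((K.e j).symm z)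
    refine ((an_sm (ta_hol hz h4.1)).mul ((hsm _ (hc _) _ h4.2).comp z
      (an_sm (K.hol j _ z hz h4.1)))).congr_of_eventuallyEq ?_
    filter_upwards [(K.e j).open_target.mem_nhds hz,
      ((K.e j).continuousAt_symm hz).eventually ((up_open K _ isOpen_ball).mem_nhds h4)]
      with y k1 k2
    exact h2 _ (hc _) j y k1 k2
  · have h4 : z ∈ (K.e (K.ix x)).target := hs.sub x (ball_subset_closedBall
      (ball_subset_ball (half_le_self (hs.pos x).le) hz))
    rw [h2 x hx _ z h4 ⟨(K.e _).map_target h4, by rwa [mem_preimage, (K.e _).right_inv h4]⟩,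
      ta_self ((K.e _).map_target h4), one_mul, (K.e _).right_inv h4]

variable [BorelSpace M]

/-- limits in `L²` of sections are compatible -/
theorem compat {s : Finset M} {ρ : M → ℝ} (hs : Cv K s ρ) {v : ℕ → Sc K}
    (hv : ∀ k, Top K (v k) ∧ Sm K (v k)) {V : M → Cm n → ℂ}
    (hsm : ∀ x ∈ s, ∀ z ∈ bl K x (ρ x / 2), ContDiffAt ℝ ∞ (V x) z)
    (hl : ∀ x ∈ s, Tendsto (fun k => ∫⁻ z in bl K x (ρ x / 2), ‖v k (K.ix x) z - V x z‖ₑ ^ 2) atTop
      (𝓝 0)) : ∀ x ∈ s, ∀ y ∈ s, ∀ m ∈ Up K (K.ix x) (bl K x (ρ x / 2)),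
      m ∈ Up K (K.ix y) (bl K y (ρ y / 2)) →
      V x (K.e (K.ix x) m) = ta K (K.ix x) (K.ix y) m * V y (K.e (K.ix y) m) := by
  have := open_pos K
  have h0 : ∀ x, bl K x (ρ x / 2) ⊆ closedBall (K.e (K.ix x) x) (ρ x) := fun x =>
    ball_subset_closedBall.trans (closedBall_subset_closedBall (half_le_self (hs.pos x).le))
  have hc : ∀ x ∈ s, ContinuousOn (V x) (bl K x (ρ x / 2)) := fun x hx z hz =>
    (hsm x hx z hz).continuousAt.continuousWithinAt
  have h1 : ∀ x ∈ s, Tendsto (fun k => ∫⁻ m in Up K (K.ix x) (bl K x (ρ x / 2)),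
      ‖v k (K.ix x) (K.e (K.ix x) m) - V x (K.e (K.ix x) m)‖ₑ ^ 2 ∂K.μ) atTop (𝓝 0) := by
    intro x hx
    obtain ⟨C, hC, h2⟩ := cmp K (K.ix x) (qd_norm (E := ℂ) _) (isCompact_closedBall _ (ρ x))
      (hs.sub x)
    refine sq0 (tend0 hC (hl x hx)) fun k => ?_
    simp only [en_sq (E := ℂ) (v k (K.ix x) (K.e (K.ix x) _) - _)]
    exact (h2 _ isOpen_ball (h0 x) (fun z => v k (K.ix x) z - V x z)
      ((((hv k).2.cont _).mono ((h0 x).trans (hs.sub x))).sub (hc x hx))).2
  have h2 : ∀ x (F : Cm n → ℂ), ContinuousOn F (bl K x (ρ x / 2)) →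
      ContinuousOn (fun m => F (K.e (K.ix x) m)) (Up K (K.ix x) (bl K x (ρ x / 2))) :=
    fun x F hF => hF.comp ((K.e _).continuousOn.mono inter_subset_left) fun _ hm => hm.2
  intro x hx y hy m hm hm'
  have hU := (up_open K (K.ix x) (O := bl K x (ρ x / 2)) isOpen_ball).inter
    (up_open K (K.ix y) (O := bl K y (ρ y / 2)) isOpen_ball)
  refine glue K.μ hU (A := fun m => V x (K.e (K.ix x) m)) (A' := fun m => V y (K.e (K.ix y) m))
    (τ := ta K (K.ix x) (K.ix y)) (B := fun k m => v k (K.ix y) (K.e (K.ix y) m))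
    ((h2 x _ (hc x hx)).mono inter_subset_left) ((h2 y _ (hc y hy)).mono inter_subset_right)
    (fun m' h => ?_) (fun k => (h2 y _ (((hv k).2.cont _).mono
      ((h0 y).trans (hs.sub y)))).mono inter_subset_right)
    (sq0 (h1 x hx) fun k => ?_) (sq0 (h1 y hy) fun k => lintegral_mono_set inter_subset_right)
    m ⟨hm, hm'⟩
  · have h3 := (ta_hol (j := K.ix y) ((K.e (K.ix x)).map_source h.1.1) (by
      rw [(K.e _).left_inv h.1.1]
      exact h.2.1)).continuousAt.comp ((K.e (K.ix x)).continuousAt h.1.1)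
    refine (h3.congr ?_).continuousWithinAt
    filter_upwards [(K.e (K.ix x)).open_source.mem_nhds h.1.1] with m'' h''
    simp only [Function.comp, (K.e _).left_inv h'']
  · refine le_trans (le_of_eq (setLIntegral_congr_fun hU.measurableSet fun m' h => ?_))
      (lintegral_mono_set inter_subset_left)
    simp only [(hv k).1.chg _ _ m' h.1.1 h.2.1]

/-- the a priori estimate -/
theorem key [CompactSpace M] (I : Int K) (hL : StLoc) (hM : StMon) {u : Vc K} (hu : Cl K u)
    {v : ℕ → Sc K} (hv : ∀ k, Top K (v k) ∧ Sm K (v k)) {B : ℝ}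
    (hB : ∀ k, (pS K (v k) (v k)).re ≤ B)
    (hd : Tendsto (fun k => (pV K (db K (v k) - u) (sh K (db K (v k) - u))).re) atTop (𝓝 0)) :
    ∃ (φ : ℕ → ℕ) (w : Sc K), StrictMono φ ∧ Top K w ∧ Sm K w ∧ db K w = u ∧
      Tendsto (fun k => (pS K (v (φ k) - w) (v (φ k) - w)).re) atTop (𝓝 0) := by
  choose q hq using fun x => hu.loc (K.ix x) _ ((K.e _).map_source (ix_src K x))
  obtain ⟨s, ρ, hs, h1⟩ := ex_cv K _ hq
  obtain ⟨C, hC, h2⟩ := pack (qdS K) hs
  obtain ⟨C', hC', h3⟩ := pack (qdC K) hs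
  have hb : ∀ x, bl K x (ρ x) ⊆ (K.e (K.ix x)).target := fun x =>
    ball_subset_closedBall.trans (hs.sub x)
  have hb2 : ∀ x, bl K x (ρ x / 2) ⊆ bl K x (ρ x) := fun x =>
    ball_subset_ball (half_le_self (hs.pos x).le)
  have hd' := ENNReal.tendsto_ofReal hd
  rw [ENNReal.ofReal_zero] at hd'
  obtain ⟨φ, hφ, h4⟩ := sub_fin s (fun x φ => ∃ h₀ : Cm n → ℂ,
    (∀ z ∈ bl K x (ρ x), AnalyticAt ℂ h₀ z) ∧ Tendsto
      (fun k => ∫⁻ z in bl K x (ρ x / 2), ‖v (φ k) (K.ix x) z - q x z - h₀ z‖ₑ ^ 2) atTop (𝓝 0))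
    (fun x _ φ hφ => by
      have h5 := lt_top (q := q x) fun z hz => (h1 x hz).1.continuousAt.continuousWithinAt
      obtain ⟨ψ, h₀, h6, h7⟩ := loc hL hM _ (hs.pos x) (fun k z => v (φ k) (K.ix x) z - q x z)
        (fun k z hz => ((hv _).2 _ z (hb x hz)).sub (h1 x (ball_subset_closedBall hz)).1)
        (C := 2 * (C x * ENNReal.ofReal B) + 2 * ∫⁻ z in bl K x (ρ x), ‖q x z‖ₑ ^ 2)
        (by have := hC x; finiteness) (fun k => (lint2 _ isOpen_ball (((hv _).2.cont _).mono (hb x))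
          fun z _ => norm_sub_le _ _).trans (by
            gcongr
            exact ((h2 _ _ (rpS I (hv _).1 (hv _).2)).1 x).trans
              (mul_le_mul_right (ENNReal.ofReal_le_ofReal (hB _)) _)))
        (sq0 (tend0 (ENNReal.natCast_ne_top n) (tend0 (hC' x) (hd'.comp hφ.tendsto_atTop)))
          fun k => by
            have h8 := cl_sub (db_cl (hv (φ k)).1 (hv (φ k)).2) hu
            refine le_trans ?_ (mul_le_mul_right ((h3 _ _ (rpC I h8.cov (cl_sm h8))).1 x) _)
            rw [← lintegral_const_mul' _ _ (ENNReal.natCast_ne_top n)]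
            refine setLIntegral_mono' measurableSet_ball fun z hz => le_trans (le_of_eq
              (Finset.sum_congr rfl fun b _ => ?_)) (en_n _)
            have h9 := h1 x (ball_subset_closedBall hz)
            rw [C2.dzb_sub b (((hv _).2 _ z (hb x hz)).differentiableAt (by simp))
              (h9.1.differentiableAt (by simp)), h9.2, ← db_eq _ (hb x hz)]
            rfl)
      exact ⟨ψ, h6, h₀, h7⟩)
    fun x φ ψ hψ ⟨h₀, h5, h6⟩ => ⟨h₀, h5, h6.comp hψ.tendsto_atTop⟩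
  choose! h hh h5 using h4
  have h6 : ∀ x ∈ s, ∀ z ∈ bl K x (ρ x / 2), ContDiffAt ℝ ∞ (fun z => q x z + h x z) z :=
    fun x hx z hz => (h1 x (ball_subset_closedBall (hb2 x hz))).1.add (an_sm (hh x hx z (hb2 x hz)))
  simp only [sub_sub] at h5
  obtain ⟨w, hw, hws, h7⟩ := ex_top hs (fun x z => q x z + h x z)
    (compat hs (fun k => hv (φ k)) h6 h5) h6
  refine ⟨φ, w, hφ, hw, hws, ?_, tend_re (fun k => (Complex.nonneg_iff.1 (I.nnS _)).1) ?_⟩
  · funext j z b
    by_cases hz : z ∈ (K.e j).target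
    · obtain ⟨x, hx, hm⟩ := hs.cov ((K.e j).symm z)
      have h8 := (db_cl hw hws).cov.chg j _ _ ((K.e j).map_target hz) hm.1 b
      have h9 := hu.cov.chg j _ _ ((K.e j).map_target hz) hm.1 b
      rw [(K.e j).right_inv hz] at h8 h9
      rw [h8, h9]
      refine congrArg _ (Finset.sum_congr rfl fun c _ => congrArg _ ?_)
      have h10 := h1 x (ball_subset_closedBall (hb2 x hm.2))
      have h11 := hh x hx _ (hb2 x hm.2)
      rw [db_eq _ ((K.e _).map_source hm.1), C2.dzb_congr c (g := fun z => q x z + h x z)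
        (eventually_of_mem (isOpen_ball.mem_nhds hm.2) (h7 x hx)),
        C2.dzb_add c (h10.1.differentiableAt (by simp)) ((an_sm h11).differentiableAt (by simp)),
        h10.2, dzb_an h11, add_zero]
    · rw [db_off _ hz, hu.cov.off j z hz]
  · have h8 : Tendsto (fun k => ∑ x ∈ s, C x * ∫⁻ z in bl K x (ρ x / 2),
        ‖(v (φ k) - w) (K.ix x) z‖ₑ ^ 2) atTop (𝓝 (∑ _x ∈ s, 0)) := by
      refine tendsto_finsetSum _ fun x hx => tend0 (hC x) ((h5 x hx).congr fun k => ?_)
      exact setLIntegral_congr_fun measurableSet_ball fun z hz => by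
        simp only [Pi.sub_apply, h7 x hx z hz]
    rw [Finset.sum_const_zero] at h8
    exact sq0 h8 fun k => (h2 _ _ (rpS I (top_sub (hv _).1 hw) (sm_sub (hv _).2 hws))).2

end Rn

open Rn

/-- row RNG -/
theorem stRng (_ : StApi) (hI : StInt) (hL : StLoc) (hM : StMon) : StRng := by
  intro n M _ _ _ _ _ K u hu v hv hd
  have I := hI n M K
  have hd' : Tendsto (fun k => (pV K (db K (v k) - u) (sh K (db K (v k) - u))).re) atTop (𝓝 0) :=
    (Complex.continuous_re.tendsto 0).comp hd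
  have hn : ∀ f, 0 ≤ (pS K f f).re := fun f => (Complex.nonneg_iff.1 (I.nnS f)).1
  have h1 : ∀ k, ∃ h : H0s K, ∀ h' : H0s K,
      (pS K (v k - h) (v k - h)).re < (pS K (v k - h') (v k - h')).re + 1 := by
    intro k
    obtain ⟨h, h2⟩ := exists_lt_of_ciInf_lt
      (lt_add_one (⨅ h : H0s K, (pS K (v k - h) (v k - h)).re))
    exact ⟨h, fun h' => h2.trans_le (add_le_add_left
      (ciInf_le ⟨0, forall_mem_range.2 fun _ => hn _⟩ h') _)⟩
  choose h hh using h1
  have hy : ∀ k, Top K (v k - h k) ∧ Sm K (v k - (h k : Sc K)) := fun k =>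
    ⟨top_sub (hv k).1 (h k).2.top, sm_sub (hv k).2 (hl_sm (h k).2.hol)⟩
  have hdy : ∀ k, db K (v k - h k) = db K (v k) := fun k => db_sub (hv k).2 (h k).2.hol
  by_cases H : Tendsto (fun k => (pS K (v k - h k) (v k - h k)).re) atTop atTop
  · exfalso
    let t : ℕ → ℝ := fun k => √((pS K (v k - h k) (v k - h k)).re + 1)
    have ht : ∀ k, 0 < t k := fun k => Real.sqrt_pos.2 (by linarith [hn (v k - h k)])
    have ht2 : ∀ k, t k ^ 2 = (pS K (v k - h k) (v k - h k)).re + 1 := fun k =>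
      Real.sq_sqrt (by linarith [hn (v k - h k)])
    have h0 : Cl K 0 := by
      rw [← sub_self u]
      exact cl_sub hu hu
    obtain ⟨φ, w, hφ, hw, hws, h2, h3⟩ := key I hL hM h0
      (v := fun k => (((t k)⁻¹ : ℝ) : ℂ) • (v k - h k)) (B := 1)
      (fun k => ⟨top_smul _ (hy k).1, sm_smul _ (hy k).2⟩)
      (fun k => by
        rw [nS_smul I, inv_pow, inv_mul_le_iff₀ (pow_pos (ht k) 2), ht2]
        linarith)
      (by
        have h4 := ((tendsto_atTop_add_const_right _ 1 H).inv_tendsto_atTop).mul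
          ((hd'.const_mul 2).add_const (2 * (pV K u (sh K u)).re))
        rw [zero_mul] at h4
        refine squeeze_zero (fun k => nV_nn I (cl_sub (db_cl (top_smul _ (hy k).1)
          (sm_smul _ (hy k).2)) h0).cov) (fun k => ?_) h4
        rw [sub_zero, db_smul _ (hy k).2, hdy, nV_smul, inv_pow, ht2]
        exact mul_le_mul_of_nonneg_left (nV_add I (db_cl (hv k).1 (hv k).2) hu)
          (inv_nonneg.2 (by linarith [hn (v k - h k)])))
    obtain ⟨k, h4, h5⟩ := ((h3.eventually (gt_mem_nhds one_half_pos)).and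
      ((H.comp hφ.tendsto_atTop).eventually_ge_atTop 3)).exists
    have h6 := hh (φ k) (h (φ k) + (t (φ k) : ℂ) • (⟨w, hw, hol_of hws h2⟩ : H0s K))
    have h7 : v (φ k) - (h (φ k) + (t (φ k) : ℂ) • (⟨w, hw, hol_of hws h2⟩ : H0s K) : H0s K) =
        (t (φ k) : ℂ) • ((((t (φ k))⁻¹ : ℝ) : ℂ) • (v (φ k) - h (φ k)) - w) := by
      rw [smul_sub, smul_smul, ← Complex.ofReal_mul, mul_inv_cancel₀ (ht _).ne', Complex.ofReal_one,
        one_smul, sub_sub]
      rfl
    rw [h7, nS_smul I, ht2] at h6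
    simp only [Function.comp] at h5
    nlinarith
  · simp only [Filter.tendsto_atTop, not_forall, not_eventually, not_le] at H
    obtain ⟨B, hB⟩ := H
    obtain ⟨φ, hφ, h2⟩ := extraction_of_frequently_atTop hB
    obtain ⟨-, w, -, hw, hws, h3, -⟩ := key I hL hM hu (v := fun k => v (φ k) - h (φ k))
      (fun k => hy _) (fun k => (h2 k).le) (by
        simp only [hdy]
        exact hd'.comp hφ.tendsto_atTop)
    exact ⟨w, hw, hws, h3⟩

end Vale.Agent.P281Z.Ha
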