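import Vale.Agent.P281Z.Ha.Defs
import Vale.Agent.P284.H752.K1
import Vale.Agent.P284.H205.K.Alg
import Vale.Agent.P284.H451.K1bA

/-!
# P281Z, block HA, row TR: the dictionary with the forms of the `L²` engine
-/

open scoped ContDiff Topology ComplexConjugate ComplexOrder Matrix
open Filter Set

noncomputable section

namespace Vale.Agent.P281Z.Ha

open Vale.Agent.P272.K Vale.Agent.P284.H608.K Vale.Agent.P284.H205.K
open Vale.Agent.P284.H451.K1 (wadj curry_wdz curry_wdz_zero euler wdz_apply)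

namespace TrH

variable {n r : ℕ}

theorem ev_dt (σ : Equiv.Perm (Fin n)) :
    ev (dt n) (fun i => σ i) = ((Equiv.Perm.sign σ : ℤ) : ℂ) := by
  have h := Matrix.det_permute σ (1 : Matrix (Fin n) (Fin n) ℂ)
  rw [Matrix.det_one, mul_one] at h
  rw [← h]
  change Matrix.det _ = _
  congr 1
  ext i j
  simp [Matrix.one_apply, Pi.single_apply, eq_comm]

theorem ev_id : dt n (fun i => Pi.single i 1) = 1 := by simpa [ev] using ev_dt (n := n) 1

theorem hn_dt {w : Matrix (Fin n) (Fin n) ℂ} (hw : w.PosDef) : hn w (dt n) (dt n) = w.det⁻¹ := by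
  have h := Vale.Agent.P284.H752.k1_F1 le_rfl hw (dt n) (dt n)
  have e : ∀ σ : Equiv.Perm (Fin n),
      ((Equiv.Perm.sign σ : ℤ) : ℂ) * ((Equiv.Perm.sign σ : ℤ) : ℂ) = 1 := fun σ => by
    rw [← Int.cast_mul, ← Units.val_mul, Int.units_mul_self, Units.val_one, Int.cast_one]
  have e2 : (Finset.univ.filter fun k : Fin n => n ≤ (k : ℕ)) = ∅ :=
    Finset.filter_eq_empty_iff.2 fun k _ => not_le.2 k.2
  have h1 : Qp le_rfl w (fun s t => ev (dt n) s * conj (ev (dt n) t)) = (n.factorial : ℂ) ^ 2 := by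
    unfold Qp
    simp only [Fin.castLE_refl, ev_dt, e2, Finset.prod_empty, mul_one, map_intCast,
      mul_mul_mul_comm _ _ _ _, e, Finset.sum_const, Finset.card_univ, Fintype.card_perm,
      Fintype.card_fin, nsmul_eq_mul, sq]
  rw [h1, Nat.sub_self, Nat.factorial_zero, Nat.cast_one, mul_one, mul_assoc, eq_comm,
    mul_eq_left₀ (pow_ne_zero 2 (Nat.cast_ne_zero.2 n.factorial_ne_zero))] at h
  exact eq_inv_of_mul_eq_one_right h

theorem top_eq (A : Af n n) : A = A (fun i => Pi.single i 1) • dt n := by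
  ext v
  have h := DFunLike.congr_fun (A.toAlternatingMap.eq_smul_basis_det (Pi.basisFun ℂ (Fin n))) v
  rw [Pi.basisFun_det] at h
  refine h.trans ?_
  change A _ * _ = A _ * _
  congr 2
  funext i
  exact Pi.basisFun_apply _ _ i

theorem dt_comp (L : Cm n →L[ℂ] Cm n) :
    (dt n).compContinuousLinearMap L = (Jm L).det • dt n := by
  rw [top_eq ((dt n).compContinuousLinearMap L), ← Matrix.det_transpose]
  congr 1

theorem dt_inj {a b : ℂ} : a • dt n = b • dt n ↔ a = b :=
  ⟨fun h => by simpa [ev_id] using DFunLike.congr_fun h fun i => Pi.single i 1, fun h => h ▸ rfl⟩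

/-- the form `c dz_1 ∧ … ∧ dz_n` -/
def sg (n : ℕ) : ℂ →L[ℂ] Af n n := ContinuousLinearMap.toSpanSingleton ℂ (dt n)

/-- the contraction with the volume form -/
def io (r : ℕ) : Cm (r + 1) →L[ℂ] Af (r + 1) r := (dt (r + 1)).curryLeft

/-- the inverse of `io` -/
def ro (r : ℕ) : Af (r + 1) r →L[ℂ] Cm (r + 1) :=
  ContinuousLinearMap.pi fun c => ∑ i : Fin (r + 1),
    ((-1 : ℂ) ^ (i : ℕ) * (Pi.single i 1 : Cm (r + 1)) c) • ContinuousAlternatingMap.apply ℂ _ ℂ
      (i.removeNth fun j => (Pi.single j 1 : Cm (r + 1)))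

theorem wdz_eq (c : Fin (r + 1)) (η : Af (r + 1) r) : wdz c η = ro r η c • dt (r + 1) := by
  rw [top_eq (wdz c η), wdz_apply]
  simp [ro, mul_assoc]

theorem wdz_io (c : Fin (r + 1)) (g : Cm (r + 1)) : wdz c (io r g) = g c • dt (r + 1) := by
  have h : wdz c (dt (r + 1)) = 0 := Vale.Agent.P284.H752.ext_ev fun s => by
    obtain ⟨i, j, h1, h2⟩ := Fintype.exists_ne_map_eq_of_card_lt s (by simp)
    exact (wdz c (dt (r + 1))).map_eq_zero_of_eq _ (by rw [h2]) h1
  have k := curry_wdz c (dt (r + 1)) g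
  rw [h, ContinuousAlternatingMap.curryLeft_zero, zero_apply] at k
  exact (sub_eq_zero.1 k.symm).symm

theorem ro_io (g : Cm (r + 1)) : ro r (io r g) = g :=
  funext fun c => dt_inj.1 ((wdz_eq c _).symm.trans (wdz_io c g))

theorem io_ro (η : Af (r + 1) r) : io r (ro r η) = η := by
  have h : ∑ c, (wdz c η).curryLeft (Pi.single c 1) = η := by
    rcases r with _ | r
    · simp [curry_wdz_zero]
    · simp only [curry_wdz, Finset.sum_sub_distrib, euler, Pi.single_eq_same, one_smul,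
        Finset.sum_const, Finset.card_univ, Fintype.card_fin]
      rw [← Nat.cast_smul_eq_nsmul ℂ, ← sub_smul]
      simp
  rw [clm_eq (A := io r), ← h]
  refine Finset.sum_congr rfl fun c _ => ?_
  rw [h, wdz_eq, ContinuousAlternatingMap.curryLeft_smul]
  rfl

theorem io_inj : Function.Injective (io r) := Function.LeftInverse.injective ro_io

theorem io_chg {L : Cm (r + 1) →L[ℂ] Cm (r + 1)} (hL : (Jm L).det ≠ 0) (a : ℂ)
    (g g' : Cm (r + 1)) : io r g = a • (io r g').compContinuousLinearMap L ↔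
      ∀ c, ∑ b, Jm L c b * g b = a * (Jm L).det * g' c := by
  have e : ∀ v, L v = Jm L *ᵥ v := fun v =>
    (LinearMap.toMatrix'_mulVec (L : Cm (r + 1) →ₗ[ℂ] Cm (r + 1)) v).symm
  obtain ⟨v, rfl⟩ : ∃ v, L v = g' := ⟨(Jm L)⁻¹ *ᵥ g', by
    rw [e, Matrix.mulVec_mulVec, Matrix.mul_nonsing_inv _ hL.isUnit, Matrix.one_mulVec]⟩
  have h : (io r (L v)).compContinuousLinearMap L = (Jm L).det • io r v := by
    have := congrArg (fun A : Af (r + 1) (r + 1) => A.curryLeft v) (dt_comp L)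
    simpa [io] using this
  rw [h, smul_smul, ← map_smul, io_inj.eq_iff,
    ← (Matrix.mulVec_injective_iff_isUnit.2 ((Matrix.isUnit_iff_isUnit_det _).2 hL.isUnit)).eq_iff,
    Matrix.mulVec_smul, ← e v, funext_iff]
  rfl

theorem hn_io {w : Matrix (Fin (r + 1)) (Fin (r + 1)) ℂ} (hw : w.PosDef) (g g' : Cm (r + 1)) :
    hn w (io r g) (io r g') = w.det⁻¹ * ∑ b, (∑ c, g c * w c b) * conj (g' b) := by
  have h1 : ∀ c, hn w (io r g) (io r (w⁻¹ c)) = g c * w.det⁻¹ := fun c => by
    rw [← hn_dt hw, ← hn_smul_left, ← wdz_io, wadj hw, clm_eq (A := io r) (w⁻¹ c)]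
    rfl
  have h2 : g' = ∑ c, (g' ᵥ* w) c • w⁻¹ c := by
    rw [← Matrix.vecMul_eq_sum, Matrix.vecMul_vecMul,
      Matrix.mul_nonsing_inv _ hw.det_pos.ne'.isUnit, Matrix.vecMul_one]
  have h3 : ∀ a b, conj (w a b) = w b a := fun a b => hw.1.apply b a
  conv_lhs => rw [h2]
  simp only [map_sum, map_smul, hn_sum_right, hn_smul_right, h1, Matrix.vecMul, dotProduct, map_mul,
    h3, Finset.sum_mul, Finset.mul_sum]
  rw [Finset.sum_comm]
  exact Finset.sum_congr rfl fun _ _ => Finset.sum_congr rfl fun _ _ => by ring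

variable {V V' : Type} [NormedAddCommGroup V] [NormedSpace ℂ V] [NormedAddCommGroup V']
  [NormedSpace ℂ V'] {η : Cm n → V} {z : Cm n}

theorem hasW_clm (A : V →L[ℂ] V') {P Q : Cm n →L[ℂ] V} (h : HasW η P Q z) :
    HasW (fun y => A (η y)) (A.comp P) (A.comp Q) z :=
  ((A.restrictScalars ℝ).hasFDerivAt.comp z h).congr_fderiv (by ext v; simp)

theorem dzV_clm (A : V →L[ℂ] V') (h : DifferentiableAt ℝ η z) (a : Fin n) :
    dzV a (fun y => A (η y)) z = A (dzV a η z) := by
  rw [(hasW_clm A (hasW_of_diff h)).dzV, (hasW_of_diff h).dzV]; rfl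

theorem dbV_clm (A : V →L[ℂ] V') (h : DifferentiableAt ℝ η z) (a : Fin n) :
    dbV a (fun y => A (η y)) z = A (dbV a η z) := by
  rw [(hasW_clm A (hasW_of_diff h)).dbV, (hasW_of_diff h).dbV]; rfl

theorem dzb_eq (a : Fin n) (f : Cm n → ℂ) : dzb a f z = dbV a f z := by
  simp only [dzb, dbV, smul_eq_mul]; ring

theorem sm_iff (A : V →L[ℂ] V') (B : V' →L[ℂ] V) (h : ∀ v, B (A v) = v) :
    ContDiffAt ℝ ∞ (fun y => A (η y)) z ↔ ContDiffAt ℝ ∞ η z :=
  ⟨fun k => by simpa [Function.comp_def, h] using (B.restrictScalars ℝ).contDiff.contDiffAt.comp z k,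
    fun k => (A.restrictScalars ℝ).contDiff.contDiffAt.comp z k⟩

theorem dz_exp {φ : Cm n → ℝ} {f : Cm n → ℂ} (hφ : DifferentiableAt ℝ φ z)
    (hf : DifferentiableAt ℝ f z) (b : Fin n) :
    (Real.exp (φ z) : ℂ) * dz b (fun y => (Real.exp (-φ y) : ℂ) * f y) z =
      dz b f z - dz b (fun y => (φ y : ℂ)) z * f z := by
  have h1 := hasW_of_diff (η := fun y => (φ y : ℂ)) (Complex.ofRealCLM.differentiableAt.comp z hφ)
  have h2 := (h1.exp_neg.smul (hasW_of_diff hf)).dzV b
  have h3 : (Real.exp (φ z) : ℂ) * Real.exp (-φ z) = 1 := by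
    rw [← Complex.ofReal_mul, ← Real.exp_add, add_neg_cancel, Real.exp_zero, Complex.ofReal_one]
  simp only [smul_eq_mul] at h2
  rw [dz_eq_dzV, dz_eq_dzV, dz_eq_dzV, h2, h1.dzV, (hasW_of_diff hf).dzV]
  simp only [add_apply, ContinuousLinearMap.smulRight_apply, smul_apply, smul_eq_mul]
  linear_combination (pL f z (Pi.single b 1) -
    pL (fun y => (φ y : ℂ)) z (Pi.single b 1) * f z) * h3

theorem dhL_io {φ : Cm (r + 1) → ℝ} {g : Cm (r + 1) → Cm (r + 1)} {z : Cm (r + 1)}
    (hφ : DifferentiableAt ℝ φ z) (hg : DifferentiableAt ℝ g z) :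
    dhL φ (fun y => io r (g y)) z = sg (r + 1) ((Real.exp (φ z) : ℂ) *
      ∑ b, dz b (fun y => (Real.exp (-φ y) : ℂ) * g y b) z) := by
  rw [dhL, ← ContinuousAlternatingMap.alternatizeUncurryFinCLM_apply, map_sum, Finset.mul_sum,
    map_sum]
  refine Finset.sum_congr rfl fun b _ => ?_
  rw [dzV_clm _ hg, ← map_smul, ← map_sub, dz_exp hφ (differentiableAt_pi.1 hg b),
    dz_eq_dzV b fun y => g y b]
  refine (wdz_io b _).trans (congrArg (sg (r + 1)) (congrArg (· - _) ?_))
  exact (dzV_clm (ContinuousLinearMap.proj (R := ℂ) (φ := fun _ => ℂ) b) hg b).symm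

theorem SL_sg {w : Cm (r + 1) → Matrix (Fin (r + 1)) (Fin (r + 1)) ℂ} {f : Cm (r + 1) → ℂ}
    {z : Cm (r + 1)} (hf : DifferentiableAt ℝ f z) :
    SL w (fun y => sg (r + 1) (f y)) z = -io r fun a => ∑ b, dzb b f z * (w z)⁻¹ b a := by
  rw [SL, Lam, clm_eq (A := io r)]
  refine congrArg _ (Finset.sum_congr rfl fun a _ => ?_)
  rw [Finset.sum_smul]
  refine Finset.sum_congr rfl fun b _ => ?_
  rw [dbV_clm _ hf, dzb_eq, mul_comm, mul_smul]
  exact congrArg _ (by simp [sg, io])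

variable {M : Type} [TopologicalSpace M] [MeasurableSpace M] (K : KA n M)

theorem jac {i j : K.I} {x : M} (hi : x ∈ (K.e i).source) (hj : x ∈ (K.e j).source) :
    jacM (K.e i) (K.e j) x = Jm (fderiv ℂ (fun z => K.e j ((K.e i).symm z)) (K.e i x)) := by
  have h := (K.hol i j _ ((K.e i).map_source hi) (by rwa [(K.e i).left_inv hi])).differentiableAt
  ext p q
  have h1 := (HasW.of_holo (hasFDerivAt_pi'.1 h.hasFDerivAt p)).dzV q
  rw [Jm_apply, ← dz_eq_dzV] at *
  exact h1

theorem jac_ne {i j : K.I} {x : M} (hi : x ∈ (K.e i).source) (hj : x ∈ (K.e j).source) :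
    (jacM (K.e i) (K.e j) x).det ≠ 0 := fun h => by
  have := (K.wpos i _ ((K.e i).map_source hi)).det_pos.ne'
  rw [K.wch i j x hi hj, Matrix.det_mul, Matrix.det_mul, Matrix.det_transpose, h, zero_mul,
    zero_mul] at this
  exact this rfl

theorem pos (x : M) : (K.w (K.ix x) (K.e (K.ix x) x)).PosDef :=
  K.wpos _ _ ((K.e _).map_source (K.cover x).choose_spec)

end TrH

open TrH in
theorem tr {r : ℕ} {M : Type} [TopologicalSpace M] [MeasurableSpace M] (K : KA (r + 1) M) :
    Tr K := by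
  have fS : ∀ (f : Sc K) i j x, x ∈ (K.e i).source → x ∈ (K.e j).source →
      (tS K f i (K.e i x) = K.a i j (K.e i x) • (tS K f j (K.e j x)).compContinuousLinearMap
        (fderiv ℂ (fun z => K.e j ((K.e i).symm z)) (K.e i x)) ↔
      f i (K.e i x) = ta K i j x * f j (K.e j x)) := fun f i j x hi hj => by
    rw [ta, jac K hi hj, ← dt_inj (n := r + 1), mul_assoc, mul_smul, mul_comm, mul_smul, ← dt_comp]
    rfl
  have fV : ∀ (g : Vc K) i j x, x ∈ (K.e i).source → x ∈ (K.e j).source →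
      (tV K g i (K.e i x) = K.a i j (K.e i x) • (tV K g j (K.e j x)).compContinuousLinearMap
        (fderiv ℂ (fun z => K.e j ((K.e i).symm z)) (K.e i x)) ↔
      ∀ c, ∑ b, jacM (K.e i) (K.e j) x c b * g i (K.e i x) b = ta K i j x * g j (K.e j x) c) :=
    fun g i j x hi hj => by
      rw [ta, jac K hi hj]
      exact io_chg (jac K hi hj ▸ jac_ne K hi hj) _ _ _
  have oS : ∀ (f : Sc K) i z, tS K f i z = 0 ↔ f i z = 0 := fun f i z =>
    map_eq_zero_iff (sg (r + 1)) fun _ _ => dt_inj.1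
  have oV : ∀ (g : Vc K) i z, tV K g i z = 0 ↔ g i z = 0 := fun g i z =>
    map_eq_zero_iff (io r) io_inj
  refine ⟨fun f => ⟨fun h => ⟨fun i j x hi hj => (fS f i j x hi hj).1 (h.change i j x hi hj),
      fun i z hz => (oS f i z).1 (h.off i z hz)⟩,
      fun h => ⟨fun i j x hi hj => (fS f i j x hi hj).2 (h.chg i j x hi hj),
      fun i z hz => (oS f i z).2 (h.off i z hz)⟩⟩,
    fun g => ⟨fun h => ⟨fun i j x hi hj => (fV g i j x hi hj).1 (h.change i j x hi hj),
      fun i z hz => (oV g i z).1 (h.off i z hz)⟩,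
      fun h => ⟨fun i j x hi hj => (fV g i j x hi hj).2 (h.chg i j x hi hj),
      fun i z hz => (oV g i z).2 (h.off i z hz)⟩⟩,
    fun f => forall₃_congr fun i z _ => sm_iff (sg (r + 1))
      (ContinuousAlternatingMap.apply ℂ _ ℂ fun j => Pi.single j 1) fun v => by simp [sg, ev_id],
    fun g => forall₃_congr fun i z _ => sm_iff (io r) (ro r) ro_io,
    fun g => forall₃_congr fun i z _ => ⟨fun h => ?_, fun h => ((io r).analyticAt _).comp h⟩,
    ⟨fun f f' h => funext₂ fun i z => dt_inj.1 (congrFun₂ h i z),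
      fun η => ⟨fun i z => η i z fun j => Pi.single j 1, funext₂ fun i z => (top_eq _).symm⟩⟩,
    ⟨fun g g' h => funext₂ fun i z => io_inj (congrFun₂ h i z),
      fun η => ⟨fun i z => ro r (η i z), funext₂ fun i z => io_ro _⟩⟩,
    fun f f' => funext fun x => ?_, fun g g' => funext fun x => ?_,
    fun f hf => funext₂ fun i z => ?_, fun g hg => funext₂ fun i z => ?_, fun g x => ?_⟩
  · exact (((ro r).analyticAt _).comp h).congr (.of_forall fun y => ro_io _)
  · simp only [KA.dn, tS, dS, wt, hn_smul_left, hn_smul_right, hn_dt (pos K x)]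
    ring
  · rw [KA.dn, dV, wt, div_eq_mul_inv, mul_assoc]
    exact congrArg _ (hn_io (pos K x) _ _)
  · by_cases hz : z ∈ (K.e i).target
    · refine (if_pos hz).trans ((SL_sg ((hf i z hz).differentiableAt (by simp))).trans ?_)
      refine congrArg (fun v => -io r v) (funext fun a => ?_)
      simp only [sh, db, if_pos hz]
    · refine (if_neg hz).trans (neg_eq_zero.2 ((oV _ i z).2 (funext fun b => ?_))).symm
      simp [sh, db, hz]
  · by_cases hz : z ∈ (K.e i).target
    · refine (if_pos hz).trans ((dhL_io ((K.φsm i z hz).differentiableAt (by simp))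
        ((hg i z hz).differentiableAt (by simp))).trans ?_)
      exact congrArg (sg (r + 1)) (if_pos hz).symm
    · exact (if_neg hz).trans ((oS _ i z).2 (if_neg hz)).symm
  · have h : ∀ c, wdz c (tV K g (K.ix x) (K.e (K.ix x) x)) = _ := fun c => wdz_io c _
    rw [KA.dA, wt, div_eq_mul_inv, mul_assoc, Complex.re_ofReal_mul, Ad]
    simp only [h, hn_smul_left, hn_smul_right, hn_dt (pos K x), Finset.mul_sum]
    exact congrArg _ (congrArg _ (Finset.sum_congr rfl fun _ _ =>
      Finset.sum_congr rfl fun _ _ => by ring))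

/-- row TR -/
theorem stTr : StTr := fun _ _ _ _ _ _ _ K => tr K

end Vale.Agent.P281Z.Ha
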