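import Vale.Agent.P281Z.Ha.Defs
import Vale.Agent.P284.H608.K.Eng

/-!
# P281Z, block HA: (WCL) and (A2)
-/

open scoped ContDiff Topology ComplexConjugate ComplexOrder ENNReal
open Filter Set MeasureTheory

noncomputable section

namespace Vale.Agent.P281Z.Ha

open Vale.Agent.P272.K Vale.Agent.P284.H608.K

namespace WclH

open Vale.Agent.P284 Vale.Agent.P284.H752

section gen

variable {n p : ℕ} {M : Type} [TopologicalSpace M] [MeasurableSpace M] {K : KA n M}

theorem test_of [CompactSpace M] {η : K.Fm p} (h : K.IsForm η) (hs : K.Smooth η) : K.Test η :=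
  ⟨h, hs, univ, isCompact_univ, fun _ x _ hx => (hx (mem_univ x)).elim⟩

theorem hol_sm {η : K.Fm p} (h : K.Hol η) : K.Smooth η := fun i z hz =>
  H419.K.real_smooth (h i z hz)

theorem dbV_hol {η : K.Fm p} (h : K.Hol η) {i : K.I} {z : Cm n} (hz : z ∈ (K.e i).target)
    (b : Fin n) : dbV b (η i) z = 0 := by
  have h1 := H205.K.HasW.of_holo (h i z hz).differentiableAt.hasFDerivAt
  rw [h1.dbV]
  rfl

theorem S_hol {η : K.Fm (p + 1)} (h : K.Hol η) : K.S η = 0 := by
  funext i z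
  by_cases hz : z ∈ (K.e i).target
  · rw [H205.K.S_at _ hz]
    unfold SL Lam
    simp [dbV_hol h hz, ContinuousAlternatingMap.curryLeft_zero]
  · rw [H205.K.S_off _ hz]; rfl

theorem dT_hol {η : K.Fm p} (h : K.Hol η) (x : M) : K.dT η x = 0 := by
  have hz : K.e (K.ix x) x ∈ (K.e (K.ix x)).target := (K.e _).map_source (H205.K.ix_mem x)
  unfold KA.dT Tn
  simp [dbV_hol h hz, H205.K.hn_zero_left]

theorem sum_mulF {s : Finset M} {χ : M → M → ℝ} (h : ∀ y, ∑ x ∈ s, χ x y = 1) (ψ : K.Fm p) :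
    ∑ x ∈ s, H205.K.mulF K (χ x) ψ = ψ := by
  funext i z
  rw [Finset.sum_apply, Finset.sum_apply]
  have h1 : ∀ x, H205.K.mulF K (χ x) ψ i z = (χ x ((K.e i).symm z) : ℂ) • ψ i z := fun _ => rfl
  simp only [h1]
  rw [← Finset.sum_smul, ← Complex.ofReal_sum, h, Complex.ofReal_one, one_smul]

theorem dh_zero : K.dh (0 : K.Fm p) = 0 := by
  funext i z
  by_cases hz : z ∈ (K.e i).target
  · rw [H205.K.dh_at _ hz]
    exact H205.K.dhL_zero _
  · rw [H205.K.dh_off _ hz]; rfl

/-- the measure is positive on open sets -/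
theorem openPos [BorelSpace M] : K.μ.IsOpenPosMeasure := by
  refine ⟨fun U hU ⟨x, hx⟩ h0 => ?_⟩
  set i := K.ix x
  have hi : x ∈ (K.e i).source := H205.K.ix_mem x
  have h1 : K.μ.restrict (K.e i).source U = 0 :=
    le_antisymm ((Measure.restrict_le_self U).trans h0.le) zero_le
  have hsy : AEMeasurable (K.e i).symm (H205.K.nuC K i) :=
    H205.K.symm_meas.mono_ac H205.K.nuC_ac
  rw [H205.K.map_nuC, Measure.map_apply_of_aemeasurable hsy hU.measurableSet] at h1
  set V : Set (Cm n) := (K.e i).target ∩ (K.e i).symm ⁻¹' U with hV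
  have hVo : IsOpen V := (K.e i).isOpen_inter_preimage_symm hU
  have h2 : H205.K.nuC K i V = 0 := measure_mono_null inter_subset_right h1
  unfold H205.K.nuC at h2
  rw [withDensity_apply_eq_zero' H205.K.det_meas] at h2
  have h3 : V ⊆ {z | ENNReal.ofReal (K.w i z).det.re ≠ 0} ∩ V := fun z hz =>
    ⟨(ENNReal.ofReal_pos.2 (Complex.lt_def.1 (K.wpos i z hz.1).det_pos).1).ne', hz⟩
  have h4 := measure_mono_null h3 h2
  rw [Measure.restrict_apply hVo.measurableSet, inter_eq_left.2 inter_subset_left] at h4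
  refine (hVo.measure_ne_zero volume ⟨K.e i x, (K.e i).map_source hi, ?_⟩) h4
  rw [mem_preimage, (K.e i).left_inv hi]
  exact hx

variable [T2Space M] [BorelSpace M]

/-- additivity and a partition of unity -/
theorem glue (hI : Int K) {η : K.Fm (p + 1)} (hη : K.IsForm η) (hs : K.Smooth η)
    (W : M → Set M) (hW : ∀ x, W x ∈ 𝓝 x)
    (h : ∀ x (C : Set M) (ψ : K.Fm p), IsClosed C → C ⊆ W x → K.Test ψ → K.Off C ψ →
      K.ip η (K.dh ψ) = 0) {ψ : K.Fm p} (hψ : K.Test ψ) : K.ip η (K.dh ψ) = 0 := by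
  classical
  obtain ⟨s, χ, h1, h2, -, h4⟩ := hI.pou W hW
  have ht : ∀ x, K.Test (H205.K.mulF K (χ x) ψ) := fun x => H205.K.mulF_test (h4 x) hψ
  have key : ∀ t : Finset M, K.Test (∑ x ∈ t, H205.K.mulF K (χ x) ψ) ∧
      K.ip η (K.dh (∑ x ∈ t, H205.K.mulF K (χ x) ψ)) = 0 := by
    intro t
    induction t using Finset.induction_on with
    | empty =>
      rw [Finset.sum_empty]
      refine ⟨H286.K.test_zero K, ?_⟩
      rw [dh_zero, H286.K.ip_conj k1Stmt, H286.K.ip_zero_left, map_zero]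
    | insert a t ha ih =>
      rw [Finset.sum_insert ha]
      refine ⟨H286.K.test_add K (ht a) ih.1, ?_⟩
      have d1 := H205.K.dh_test (ht a)
      have d2 := H205.K.dh_test ih.1
      rw [H205.K.dh_add (ht a).smooth ih.1.smooth, H205.K.ip_add_right k1Stmt d1.form d1.smooth
        d2.form d2.smooth hη hs (Or.inl ⟨d1, d2⟩), ih.2, add_zero]
      refine h a (tsupport (χ a)) _ (isClosed_tsupport _) (h1 a) (ht a) fun i y hy hyC => ?_
      unfold H205.K.mulF
      rw [(K.e i).left_inv hy, image_eq_zero_of_notMem_tsupport hyC, Complex.ofReal_zero,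
        H205.K.af_zero_smul]
  have := (key s).2
  rwa [sum_mulF h2] at this

/-- `S v` is weakly closed -/
theorem ip_S {v : K.Fm (p + 1 + 1)} (hv : K.IsForm v) (hs : K.Smooth v) {ψ : K.Fm p}
    (hψ : K.Test ψ) : K.ip (K.S v) (K.dh ψ) = 0 := by
  have d1 := H205.K.dh_test hψ
  have d2 := (k3 n M K).adj (p + 1) (K.dh ψ) v d1.form d1.smooth hv hs (Or.inl d1)
  rw [H286.K.ip_conj k1Stmt, ← d2, H205.K.dh_dh hψ.smooth, H286.K.ip_zero_left, map_zero]

/-- holomorphic forms are weakly closed -/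
theorem wcl_hol : ∀ {r : ℕ} (η : K.Fm r), K.IsForm η → K.Hol η → WCl K η
  | 0, _, _, _ => trivial
  | r + 1, η, h1, h2 => fun ψ hψ => by
    have d2 := (k3 n M K).adj r ψ η hψ.form hψ.smooth h1 (hol_sm h2) (Or.inl hψ)
    rw [H286.K.ip_conj k1Stmt, d2, S_hol h2, H286.K.ip_conj k1Stmt, H286.K.ip_zero_left, map_zero,
      map_zero]

/-- the Bochner-Kodaira identity for holomorphic forms -/
theorem bk_hol [CompactSpace M] : ∀ {r : ℕ} (η : K.Fm r), K.IsForm η → K.Hol η →
    K.nq (K.dh η) = ∫ x, K.dA η x ∂K.μ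
  | 0, η, h1, h2 => by
    have := (k3 n M K).bk0 η (test_of h1 (hol_sm h2))
    simpa only [dT_hol h2, integral_zero, zero_add] using this
  | r + 1, η, h1, h2 => by
    have := (k3 n M K).bk r η (test_of h1 (hol_sm h2))
    simpa only [dT_hol h2, integral_zero, zero_add, S_hol h2, H286.K.nq_zero, add_zero] using this

end gen

theorem dt_one (p : ℕ) : dt p (fun i => Pi.single i 1) = 1 := by
  change Matrix.det (Matrix.of fun i : Fin p => (Pi.single i (1 : ℂ) : Fin p → ℂ)) = 1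
  have : (Matrix.of fun i : Fin p => (Pi.single i (1 : ℂ) : Fin p → ℂ)) = 1 := by
    ext i j
    rw [Matrix.one_apply, Matrix.of_apply, Pi.single_apply]
    simp only [eq_comm]
  rw [this, Matrix.det_one]

theorem dt_inj {p : ℕ} {a b : ℂ} (h : a • dt p = b • dt p) : a = b := by
  have := congrArg (fun A : Af p p => A fun i => Pi.single i 1) h
  simpa only [ContinuousAlternatingMap.smul_apply, dt_one, smul_eq_mul, mul_one] using this

section wcl

variable {p : ℕ} {M : Type} [TopologicalSpace M] [T2Space M] [MeasurableSpace M] [BorelSpace M]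
  {K : KA (p + 1 + 1) M}

/-- the local statement -/
theorem loc (hA : Api K) (hT : Tr K) {u : Vc K} (hu : Cl K u) (x : M) : ∃ W ∈ 𝓝 x,
    ∀ (C : Set M) (ψ : K.Fm p), IsClosed C → C ⊆ W → K.Test ψ → K.Off C ψ →
      K.ip (tV K (sh K u)) (K.dh ψ) = 0 := by
  set i := K.ix x
  have hi : x ∈ (K.e i).source := H205.K.ix_mem x
  have hz := (K.e i).map_source hi
  obtain ⟨q, hq⟩ := hu.loc i _ hz
  obtain ⟨T, hT1, hTo, hT2⟩ := mem_nhds_iff.1 (hq.and ((K.e i).open_target.mem_nhds hz))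
  obtain ⟨ρ, hρ, hρT⟩ := Metric.nhds_basis_closedBall.mem_iff.1 (hTo.mem_nhds hT2)
  obtain ⟨θ, hθ, hθc, hθT, hθ1⟩ :=
    H419.K.exists_theta (isCompact_closedBall (K.e i x) ρ) hTo hρT
  have hsm : ContDiff ℝ ∞ fun z => (θ z : ℂ) * q z :=
    H419.K.cut_smooth hθ hθT fun z hz => (hT1 hz).1.1
  have hsub : tsupport θ ⊆ (K.e i).target := fun z hz => (hT1 (hθT hz)).2
  set c : Cm (p + 1 + 1) → Af (p + 1 + 1) (p + 1 + 1) :=
    fun z => ((θ z : ℂ) * q z) • dt (p + 1 + 1) with hc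
  have hc0 : ∀ z ∉ tsupport θ, c z = 0 := fun z hz => by
    simp only [hc, image_eq_zero_of_notMem_tsupport hz, Complex.ofReal_zero, zero_mul,
      H205.K.af_zero_smul]
  have hcs : ∀ z, ContDiffAt ℝ ∞ c z := fun z =>
    ContDiffAt.fun_smul hsm.contDiffAt contDiffAt_const
  have hv : K.Test (H419.K.ext K i c) := H419.K.ext_test i hθc hsub hc0 hcs
  have hvi : H419.K.ext K i c i = c := H419.K.ext_self i hsub hc0
  obtain ⟨f, hf⟩ := hT.surjS.2 (H419.K.ext K i c)
  have hf1 : Top K f := (hT.formS f).1 (by rw [hf]; exact hv.form)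
  have hf2 : Sm K f := (hT.smS f).1 (by rw [hf]; exact hv.smooth)
  have hfi : f i = fun z => (θ z : ℂ) * q z := by
    funext z
    have h1 : tS K f i z = c z := by rw [hf, hvi]
    exact dt_inj h1
  have hξ : K.IsForm (tV K (sh K (db K f))) :=
    (hT.formV _).2 (hA.sh_vec _ (hA.db_cl f hf1 hf2).cov).1
  have hη : K.IsForm (tV K (sh K u)) := (hT.formV _).2 (hA.sh_vec _ hu.cov).1
  refine ⟨(K.e i).source ∩ K.e i ⁻¹' Metric.ball (K.e i x) ρ,
    ((K.e i).isOpen_inter_preimage Metric.isOpen_ball).mem_nhds ⟨hi, Metric.mem_ball_self hρ⟩,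
    fun C ψ hC hCW hψ hψC => ?_⟩
  have d1 := H205.K.dh_test hψ
  have e1 : K.ip (tV K (sh K (db K f))) (K.dh ψ) = 0 := by
    have h1 := ip_S (K := K) hv.form hv.smooth hψ
    rw [← hf, hT.S_eq f hf2, ← neg_one_smul ℂ, H286.K.ip_smul_left] at h1
    simpa using h1
  rw [← e1]
  unfold KA.ip
  refine integral_congr_ae (Eventually.of_forall fun y => ?_)
  by_cases hy : y ∈ C
  · obtain ⟨hy1, hy2⟩ := hCW hy
    have h1 : db K f i (K.e i y) = u i (K.e i y) := by
      funext b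
      have h2 : f i =ᶠ[𝓝 (K.e i y)] q := by
        filter_upwards [Metric.isOpen_ball.mem_nhds hy2] with z hz
        rw [hfi]
        change (θ z : ℂ) * q z = q z
        rw [hθ1 z (Metric.ball_subset_closedBall hz), Complex.ofReal_one, one_mul]
      unfold db
      rw [if_pos ((K.e i).map_source hy1), C2.dzb_congr b h2]
      exact (hT1 (hρT (Metric.ball_subset_closedBall hy2))).1.2 b
    have h3 : tV K (sh K u) i (K.e i y) = tV K (sh K (db K f)) i (K.e i y) := by
      have h4 : sh K u i (K.e i y) = sh K (db K f) i (K.e i y) := by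
        funext b
        unfold sh
        rw [h1]
      unfold tV
      rw [h4]
    change K.dn _ _ y = K.dn _ _ y
    rw [H205.K.dn_eq k1Stmt hη d1.form hy1, H205.K.dn_eq k1Stmt hξ d1.form hy1, h3]
  · have h1 := H205.K.dh_off' hC hψC _ y (H205.K.ix_mem y) hy
    change K.dn _ _ y = K.dn _ _ y
    rw [H205.K.dn_zero_right h1, H205.K.dn_zero_right h1]

theorem wcl_cl (hA : Api K) (hI : Int K) (hT : Tr K) {u : Vc K} (hu : Cl K u) {ψ : K.Fm p}
    (hψ : K.Test ψ) : K.ip (tV K (sh K u)) (K.dh ψ) = 0 := by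
  choose W hW h using loc hA hT hu
  have h1 := hA.sh_vec _ hu.cov
  exact glue hI ((hT.formV _).2 h1.1) ((hT.smV _).2 (h1.2.1 (hA.cl_sm u hu))) W hW h hψ

end wcl

section quad

variable {n : ℕ}

/-- the Hermitian form of a matrix -/
def Q (H : Matrix (Fin n) (Fin n) ℂ) (v : Cm n) : ℂ := ∑ c, ∑ d, H c d * (v c * conj (v d))

theorem Q_nonneg {H : Matrix (Fin n) (Fin n) ℂ} (h : H.PosSemidef) (v : Cm n) : 0 ≤ Q H v := by
  have h1 := h.dotProduct_mulVec_nonneg (star v)
  refine h1.trans (le_of_eq ?_)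
  rw [star_star]
  simp only [Q, dotProduct, Matrix.mulVec, Finset.mul_sum, Pi.star_apply, RCLike.star_def]
  refine Finset.sum_congr rfl fun c _ => Finset.sum_congr rfl fun d _ => ?_
  ring

theorem Q_add (H H' : Matrix (Fin n) (Fin n) ℂ) (v : Cm n) : Q (H + H') v = Q H v + Q H' v := by
  simp only [Q, Matrix.add_apply, add_mul, Finset.sum_add_distrib]

theorem Q_sub (a : ℂ) (H H' : Matrix (Fin n) (Fin n) ℂ) (v : Cm n) :
    Q (a • H - H') v = a * Q H v - Q H' v := by
  simp only [Q, Matrix.sub_apply, Matrix.smul_apply, smul_eq_mul, sub_mul, Finset.sum_sub_distrib,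
    Finset.mul_sum, mul_assoc]

theorem Q_smul (H : Matrix (Fin n) (Fin n) ℂ) (s : ℂ) (v : Cm n) :
    Q H (s • v) = (s * conj s) * Q H v := by
  simp only [Q, Pi.smul_apply, smul_eq_mul, map_mul, Finset.mul_sum]
  refine Finset.sum_congr rfl fun c _ => Finset.sum_congr rfl fun d _ => ?_
  ring

variable {M : Type} [TopologicalSpace M] [MeasurableSpace M]

theorem wt_pos (K : KA n M) {i : K.I} {z : Cm n} (hz : z ∈ (K.e i).target) : 0 < wt K i z := by
  unfold wt
  exact div_pos (Complex.zero_lt_real.2 (Real.exp_pos _)) (K.wpos i z hz).det_pos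

theorem hl_sm {K : KA n M} {g : Vc K} (h : Hl K g) : Sm K g := fun i z hz =>
  H419.K.real_smooth (h i z hz)

end quad

section a2

variable {r : ℕ} {M : Type} [TopologicalSpace M] [T2Space M] [CompactSpace M] [MeasurableSpace M]
  [BorelSpace M] {K : KA (r + 1) M}

omit [T2Space M] [CompactSpace M] [BorelSpace M] in
theorem tS_zero : tS K 0 = 0 := by
  funext i z
  exact H205.K.af_zero_smul _

/-- the curvature vanishes on `Γ` -/
theorem curv_zero (hT : Tr K) (hP : Psd K) {g : Vc K} (hg : Gam K g) (x : M) :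
    Q (cHess (K.φ (K.ix x)) (K.e (K.ix x) x)) (g (K.ix x) (K.e (K.ix x) x)) = 0 := by
  have hf : K.IsForm (tV K g) := (hT.formV g).2 hg.vec
  have hh : K.Hol (tV K g) := (hT.holV g).2 hg.hol
  have h0 : dv K g = 0 := by
    funext i z
    unfold dv
    split_ifs with hz
    · rw [hg.dv i z hz, mul_zero]; rfl
    · rfl
  have h1 := bk_hol (tV K g) hf hh
  rw [hT.dh_eq g (hl_sm hg.hol), h0, tS_zero, H286.K.nq_zero] at h1
  have hz : ∀ y, K.e (K.ix y) y ∈ (K.e (K.ix y)).target := fun y =>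
    (K.e _).map_source (H205.K.ix_mem y)
  have h2 : ∀ y, 0 ≤ wt K (K.ix y) (K.e (K.ix y) y) *
      Q (cHess (K.φ (K.ix y)) (K.e (K.ix y) y)) (g (K.ix y) (K.e (K.ix y) y)) := fun y =>
    mul_nonneg (wt_pos K (hz y)).le (Q_nonneg (hP _ _ (hz y)) _)
  have h3 : 0 ≤ K.dA (tV K g) := fun y => by
    rw [hT.dA_eq]
    exact (Complex.nonneg_iff.1 (h2 y)).1
  have h4 : Continuous (K.dA (tV K g)) := by
    have e : K.dA (tV K g) = fun y => (H205.K.ad2 K (tV K g) (tV K g) y).re :=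
      funext fun y => H205.K.dA_ad2 _ y
    rw [e]
    exact Complex.continuous_re.comp (H205.K.ad2_cont k1Stmt hf (hol_sm hh) hf (hol_sm hh))
  have h5 := (integral_eq_zero_iff_of_nonneg h3
    ((k3 _ M K).intT r _ (test_of hf (hol_sm hh))).2).1 h1.symm
  have := openPos (K := K)
  have h6 := congrFun ((Continuous.ae_eq_iff_eq K.μ h4 continuous_zero).1 h5) x
  rw [hT.dA_eq] at h6
  have h7 : wt K (K.ix x) (K.e (K.ix x) x) *
      Q (cHess (K.φ (K.ix x)) (K.e (K.ix x) x)) (g (K.ix x) (K.e (K.ix x) x)) = 0 :=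
    Complex.ext h6 (Complex.nonneg_iff.1 (h2 x)).2.symm
  exact (mul_eq_zero.1 h7).resolve_left (wt_pos K (hz x)).ne'

/-- holomorphic sections on which the curvature is seminegative are in `Γ` -/
theorem dv_of (hI : Int K) (hT : Tr K) {g : Vc K} (h1 : Vec K g) (h2 : Hl K g)
    (h : ∀ x, Q (cHess (K.φ (K.ix x)) (K.e (K.ix x) x)) (g (K.ix x) (K.e (K.ix x) x)) ≤ 0) :
    Dv K g := by
  have hf : K.IsForm (tV K g) := (hT.formV g).2 h1
  have hh : K.Hol (tV K g) := (hT.holV g).2 h2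
  have hz : ∀ y, K.e (K.ix y) y ∈ (K.e (K.ix y)).target := fun y =>
    (K.e _).map_source (H205.K.ix_mem y)
  have h3 := bk_hol (tV K g) hf hh
  have h4 : ∫ x, K.dA (tV K g) x ∂K.μ ≤ 0 := by
    refine integral_nonpos fun y => ?_
    rw [hT.dA_eq]
    exact (Complex.le_def.1 (mul_nonpos_of_nonneg_of_nonpos (wt_pos K (hz y)).le (h y))).1
  have h5 := H205.K.dh_form hf (hol_sm hh)
  rw [hT.dh_eq g (hl_sm h2)] at h3 h5
  have h6 : K.nq (tS K (dv K g)) = (pS K (dv K g) (dv K g)).re := by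
    unfold KA.nq KA.ip pS
    rw [hT.dnS]
  have h7 := Complex.nonneg_iff.1 (hI.nnS (dv K g))
  have h8 : pS K (dv K g) (dv K g) = 0 :=
    Complex.ext (le_antisymm (by rw [← h6, h3]; exact h4) h7.1) h7.2.symm
  have h9 := hI.posS _ ((hT.formS _).1 h5.1) ((hT.smS _).1 h5.2) h8
  intro i z hz
  have h10 : dv K g i z = 0 := by rw [h9]; rfl
  unfold dv at h10
  rw [if_pos hz] at h10
  exact (mul_eq_zero.1 h10).resolve_left (Complex.ofReal_ne_zero.2 (Real.exp_pos _).ne')

end a2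

end WclH

open WclH

/-- **(WCL)** -/
theorem stWcl (hA : StApi) (hI : StInt) (hT : StTr) : StWcl := by
  intro r M _ _ _ _ _ K
  refine ⟨fun u hu => ?_, fun η h1 h2 => wcl_hol η h1 h2⟩
  cases r with
  | zero => trivial
  | succ p => exact fun ψ hψ => wcl_cl (hA _ M K) (hI _ M K) (hT _ M K) hu hψ

/-- **(A2)** -/
theorem stA2 (hA : StApi) (hI : StInt) (hT : StTr) : StA2 := by
  intro n M _ _ _ _ _ K hP T hD g hg
  have h1 : Vec T.ka (T.mul g) := (hA n M K).tw_vec T g hg.vec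
  have h2 : Hl T.ka (T.mul g) := fun i z hz => (T.σhol i z hz).smul (hg.hol i z hz)
  refine ⟨h1, h2, ?_⟩
  cases n with
  | zero => exact fun i z _ => Finset.sum_of_isEmpty _
  | succ r =>
    refine dv_of (hI _ M T.ka) (hT _ M T.ka) h1 h2 fun x => ?_
    obtain ⟨C, hC⟩ := hD
    have hz : K.e (K.ix x) x ∈ (K.e (K.ix x)).target :=
      (K.e _).map_source (Vale.Agent.P284.H205.K.ix_mem x)
    have h3 := curv_zero (hT _ M K) hP hg x
    have h4 := Q_nonneg (hC _ _ hz) (g (K.ix x) (K.e (K.ix x) x))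
    rw [Q_sub, h3, mul_zero, zero_sub, neg_nonneg] at h4
    change Q (cHess (fun z => K.φ (K.ix x) z + T.τ (K.ix x) z) (K.e (K.ix x) x))
      (T.σ (K.ix x) (K.e (K.ix x) x) • g (K.ix x) (K.e (K.ix x) x)) ≤ 0
    rw [C2.cHess_add ((K.φsm _ _ hz).of_le (by norm_cast)) ((T.τsm _ _ hz).of_le (by norm_cast)),
      Q_smul, Q_add, h3, zero_add]
    exact mul_nonpos_of_nonneg_of_nonpos (mul_star_self_nonneg _) h4

end Vale.Agent.P281Z.Ha
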