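import Vale.Agent.P281Z.Ha.Api
import Vale.Agent.P281Z.Ha.Int
import Vale.Agent.P281Z.Ha.Tr
import Vale.Agent.P281Z.Ha.Wcl
import Vale.Agent.P281Z.Ha.Den
import Vale.Agent.P281Z.Ha.Loc
import Vale.Agent.P281Z.Ha.Rng
import Vale.Agent.P281Z.Ha.Fin
import Vale.Agent.P281Z.Ha.Out

/-!
# P281Z, block HA: the output
-/

namespace Vale.Agent.P281Z.Ha

theorem int : StInt := stInt stApi

theorem out : Out :=
  out_of stApi int stTr (stWcl stApi int stTr) stDen (stRng stApi int stLoc stMon)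
    (stFin stApi int stMon) (stA2 stApi int stTr)

end Vale.Agent.P281Z.Ha
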