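import Vale.Agent.P281Z.Ha.RngA
import Vale.Agent.P281Z.Ha.Api

/-!
# P281Z, block HA: comparison of the global norms with the norms in the charts
-/

open scoped ContDiff Topology ComplexConjugate ComplexOrder ENNReal NNReal Matrix
open Filter Set MeasureTheory Metric

noncomputable section

namespace Vale.Agent.P281Z.Ha.Rn

open Vale.Agent.P272.K Vale.Agent.P284.H608.K

variable {n : ℕ} {E : Type} [NormedAddCommGroup E] [NormedSpace ℝ E]

/-- a continuous family of positive quadratic functions -/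
structure Qd (T : Set (Cm n)) (Φ : Cm n → E → ℝ) : Prop where
  cont : ContinuousOn (fun p : Cm n × E => Φ p.1 p.2) (T ×ˢ univ)
  pos : ∀ z ∈ T, ∀ g, g ≠ 0 → 0 < Φ z g
  hom : ∀ z (t : ℝ) g, Φ z (t • g) = t ^ 2 * Φ z g

theorem Qd.zero {T : Set (Cm n)} {Φ : Cm n → E → ℝ} (h : Qd T Φ) (z : Cm n) : Φ z 0 = 0 := by
  have h1 := h.hom z 0 0
  rwa [zero_smul, zero_pow two_ne_zero, zero_mul] at h1

theorem Qd.nn {T : Set (Cm n)} {Φ : Cm n → E → ℝ} (h : Qd T Φ) {z : Cm n} (hz : z ∈ T) (g : E) :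
    0 ≤ Φ z g := by
  by_cases hg : g = 0
  · rw [hg, h.zero]
  · exact (h.pos z hz g hg).le

theorem Qd.mul {T : Set (Cm n)} {Φ : Cm n → E → ℝ} (h : Qd T Φ) {D : Cm n → ℝ}
    (hD : ContinuousOn D T) (h0 : ∀ z ∈ T, 0 < D z) : Qd T fun z g => Φ z g * D z :=
  ⟨h.cont.mul (hD.comp continuousOn_fst fun _ hp => hp.1),
    fun z hz g hg => mul_pos (h.pos z hz g hg) (h0 z hz), fun z t g => by rw [h.hom, mul_assoc]⟩

theorem qd_norm (T : Set (Cm n)) : Qd T fun _ (g : E) => ‖g‖ ^ 2 :=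
  ⟨by fun_prop, fun _ _ g hg => by positivity, fun _ t g => by
    rw [norm_smul, mul_pow, Real.norm_eq_abs, sq_abs]⟩

theorem Qd.bd [ProperSpace E] {T Kc : Set (Cm n)} {Φ : Cm n → E → ℝ} (h : Qd T Φ)
    (hK : IsCompact Kc) (hT : Kc ⊆ T) :
    ∃ C : ℝ, 0 ≤ C ∧ ∀ z ∈ Kc, ∀ g, ‖g‖ ^ 2 ≤ C * Φ z g ∧ Φ z g ≤ C * ‖g‖ ^ 2 := by
  have h1 := hK.prod (isCompact_sphere (0 : E) 1)
  have h2 := h.cont.mono (prod_mono hT (subset_univ (sphere (0 : E) 1)))
  have h0 : ∀ p ∈ Kc ×ˢ sphere (0 : E) 1, 0 < Φ p.1 p.2 := fun p hp =>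
    h.pos _ (hT hp.1) _ (ne_of_mem_sphere hp.2 one_ne_zero)
  obtain ⟨B, hB⟩ := h1.exists_bound_of_continuousOn h2
  obtain ⟨B', hB'⟩ := h1.exists_bound_of_continuousOn (h2.inv₀ fun p hp => (h0 p hp).ne')
  refine ⟨|B| + |B'|, by positivity, fun z hz g => ?_⟩
  by_cases hg : g = 0
  · rw [hg, h.zero, norm_zero]
    simp
  have h3 : 0 < ‖g‖ := norm_pos_iff.2 hg
  have h4 : (z, ‖g‖⁻¹ • g) ∈ Kc ×ˢ sphere (0 : E) 1 :=
    ⟨hz, by simp [norm_smul, h3.ne']⟩
  have h5 : Φ z g = ‖g‖ ^ 2 * Φ z (‖g‖⁻¹ • g) := by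
    rw [← h.hom, smul_smul, mul_inv_cancel₀ h3.ne', one_smul]
  have h6 := h0 _ h4
  have h7 := (le_abs_self _).trans ((hB _ h4).trans (le_abs_self _))
  have h8 := (le_abs_self _).trans ((hB' _ h4).trans (le_abs_self _))
  simp only [Pi.inv_apply] at h6 h7 h8
  rw [inv_le_iff_one_le_mul₀ h6] at h8
  rw [h5]
  have h9 : 0 < ‖g‖ ^ 2 := by positivity
  constructor
  · nlinarith [mul_pos h9 h6, abs_nonneg B, mul_nonneg (abs_nonneg B) (mul_pos h9 h6).le]
  · nlinarith [abs_nonneg B', mul_nonneg (abs_nonneg B') h9.le]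

omit [NormedSpace ℝ E] in
theorem en_sq (g : E) : ‖g‖ₑ ^ 2 = ENNReal.ofReal (‖g‖ ^ 2) := by
  rw [ENNReal.ofReal_pow (norm_nonneg _), ofReal_norm]

variable {M : Type} [TopologicalSpace M] [MeasurableSpace M] (K : KA n M)

/-- the part of `M` over the set `O` of the chart `i` -/
def Up (i : K.I) (O : Set (Cm n)) : Set M := (K.e i).source ∩ K.e i ⁻¹' O

theorem up_open (i : K.I) {O : Set (Cm n)} (hO : IsOpen O) : IsOpen (Up K i O) :=
  (K.e i).isOpen_inter_preimage hO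

theorem w_cont (i : K.I) : ContinuousOn (K.w i) (K.e i).target := fun z hz =>
  (continuousAt_pi.2 fun j => continuousAt_pi.2 fun k =>
    (K.wsm i z hz j k).continuousAt).continuousWithinAt

theorem det_cont (i : K.I) : ContinuousOn (fun z => (K.w i z).det) (K.e i).target :=
  continuous_id.matrix_det.comp_continuousOn (w_cont K i)

theorem wi_cont (i : K.I) : ContinuousOn (fun z => (K.w i z)⁻¹) (K.e i).target := fun z hz =>
  (continuousAt_matrix_inv _ (by
    rw [Ring.inverse_eq_inv']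
    exact continuousAt_inv₀ (K.wpos i z hz).det_pos.ne')).comp_continuousWithinAt (w_cont K i z hz)

theorem wt_cont (i : K.I) : ContinuousOn (wt K i) (K.e i).target :=
  (Complex.continuous_ofReal.comp_continuousOn (Real.continuous_exp.comp_continuousOn
    (ContinuousOn.neg fun z hz => (K.φsm i z hz).continuousAt.continuousWithinAt))).div
    (det_cont K i) fun z hz => (K.wpos i z hz).det_pos.ne'

theorem wt_pos (i : K.I) {z : Cm n} (hz : z ∈ (K.e i).target) : 0 < wt K i z :=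
  div_pos (Complex.zero_lt_real.2 (Real.exp_pos _)) (K.wpos i z hz).det_pos

theorem qd_wt (i : K.I) {X : Cm n → E → ℂ}
    (hc : ContinuousOn (fun p : Cm n × E => X p.1 p.2) ((K.e i).target ×ˢ univ))
    (hp : ∀ z ∈ (K.e i).target, ∀ g, g ≠ 0 → 0 < X z g)
    (hh : ∀ z (t : ℝ) g, X z (t • g) = t ^ 2 * X z g) :
    Qd (K.e i).target fun z g => (wt K i z * X z g).re :=
  ⟨Complex.continuous_re.comp_continuousOn
      (((wt_cont K i).comp continuousOn_fst fun _ hp => hp.1).mul hc),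
    fun z hz g hg => (Complex.pos_iff.1 (mul_pos (wt_pos K i hz) (hp z hz g hg))).1,
    fun z t g => by rw [hh, mul_left_comm, ← Complex.ofReal_pow, Complex.re_ofReal_mul]⟩

theorem qdS (i : K.I) : Qd (K.e i).target fun z (f : ℂ) => (wt K i z * (f * conj f)).re := by
  refine qd_wt K i (X := fun _ f => f * conj f) (by fun_prop) (fun _ _ g hg => ?_) fun _ t g => ?_
  · rw [← nsq]
    exact Complex.zero_lt_real.2 (by positivity)
  · simp only [Complex.real_smul, map_mul, Complex.conj_ofReal]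
    ring

theorem herm_pos {W : Matrix (Fin n) (Fin n) ℂ} (hW : W.PosDef) {g : Cm n} (hg : g ≠ 0) :
    0 < ∑ b, (∑ c, g c * W c b) * conj (g b) := by
  have h := hW.dotProduct_mulVec_pos (x := star g) (star_ne_zero.2 hg)
  rwa [star_star, Matrix.dotProduct_mulVec] at h

theorem cont_vm {T : Set (Cm n)} {W : Cm n → Matrix (Fin n) (Fin n) ℂ} (hW : ContinuousOn W T)
    (b : Fin n) : ContinuousOn (fun p : Cm n × Cm n => ∑ c, p.2 c * W p.1 c b) (T ×ˢ univ) :=
  continuousOn_finsetSum _ fun c _ => ContinuousOn.mul (by fun_prop)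
    ((continuousOn_pi.1 (continuousOn_pi.1 hW c) b).comp continuousOn_fst fun _ hp => hp.1)

theorem qdV (i : K.I) : Qd (K.e i).target fun z (g : Cm n) =>
    (wt K i z * ∑ b, (∑ c, g c * K.w i z c b) * conj (g b)).re := by
  refine qd_wt K i (X := fun z (g : Cm n) => ∑ b, (∑ c, g c * K.w i z c b) * conj (g b))
    (continuousOn_finsetSum _ fun b _ => (cont_vm (w_cont K i) b).mul (by fun_prop))
    (fun z hz g hg => herm_pos (K.wpos i z hz) hg) fun z t g => ?_
  simp only [Pi.smul_apply, Complex.real_smul, map_mul, Complex.conj_ofReal, mul_assoc,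
    ← Finset.mul_sum]
  rw [Finset.mul_sum, Finset.mul_sum]
  exact Finset.sum_congr rfl fun b _ => by ring

theorem qdC (i : K.I) : Qd (K.e i).target fun z (u : Cm n) =>
    (wt K i z * ∑ b, u b * conj (∑ c, u c * (K.w i z)⁻¹ c b)).re := by
  refine qd_wt K i (X := fun z (u : Cm n) => ∑ b, u b * conj (∑ c, u c * (K.w i z)⁻¹ c b))
    (continuousOn_finsetSum _ fun b _ => ContinuousOn.mul (by fun_prop)
      (Complex.continuous_conj.comp_continuousOn (cont_vm (wi_cont K i) b)))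
    (fun z hz g hg => ?_) fun z t g => ?_
  · have h := star_pos_iff.2 (herm_pos (K.wpos i z hz).inv hg)
    rw [Complex.star_def, map_sum] at h
    simpa only [map_mul, Complex.conj_conj, mul_comm] using h
  · simp only [Pi.smul_apply, Complex.real_smul, map_mul, Complex.conj_ofReal, mul_assoc,
      ← Finset.mul_sum]
    rw [Finset.mul_sum, Finset.mul_sum]
    exact Finset.sum_congr rfl fun b _ => by ring

variable [BorelSpace M] [ProperSpace E]

/-- the comparison of the integrals -/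
theorem cmp (i : K.I) {Φ : Cm n → E → ℝ} (hΦ : Qd (K.e i).target Φ) {Kc : Set (Cm n)}
    (hK : IsCompact Kc) (hT : Kc ⊆ (K.e i).target) : ∃ C : ℝ≥0∞, C ≠ ⊤ ∧
    ∀ O, IsOpen O → O ⊆ Kc → ∀ F : Cm n → E, ContinuousOn F O →
      ∫⁻ z in O, ‖F z‖ₑ ^ 2 ≤
        C * ∫⁻ m in Up K i O, ENNReal.ofReal (Φ (K.e i m) (F (K.e i m))) ∂K.μ ∧
      ∫⁻ m in Up K i O, ENNReal.ofReal (Φ (K.e i m) (F (K.e i m))) ∂K.μ ≤
        C * ∫⁻ z in O, ‖F z‖ₑ ^ 2 := by
  classical
  have hd : ∀ z ∈ (K.e i).target, 0 < (K.w i z).det.re := fun z hz =>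
    (Complex.pos_iff.1 (K.wpos i z hz).det_pos).1
  obtain ⟨C, hC, h1⟩ := (hΦ.mul (Complex.continuous_re.comp_continuousOn (det_cont K i)) hd).bd
    hK hT
  refine ⟨ENNReal.ofReal C, ENNReal.ofReal_ne_top, fun O hO hOK F hF => ?_⟩
  have hU := (up_open K i hO).measurableSet
  have h2 : ContinuousOn (fun m => ENNReal.ofReal (Φ (K.e i m) (F (K.e i m)))) (Up K i O) := by
    have h3 : ContinuousOn (K.e i) (Up K i O) := (K.e i).continuousOn.mono inter_subset_left
    exact ENNReal.continuous_ofReal.comp_continuousOn (hΦ.cont.comp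
      (h3.prodMk (hF.comp h3 fun _ hm => hm.2)) fun m hm => ⟨hT (hOK hm.2), mem_univ _⟩)
  have h3 : ∫⁻ m in Up K i O, ENNReal.ofReal (Φ (K.e i m) (F (K.e i m))) ∂K.μ =
      ∫⁻ z in O, ENNReal.ofReal (Φ z (F z) * (K.w i z).det.re) := by
    have h4 := K.hμ i _ (h2.measurable_piecewise (g := fun _ => 0) continuousOn_const hU)
      fun x hx => piecewise_eq_of_notMem _ _ _ fun h => hx h.1
    rw [← lintegral_indicator hU, ← piecewise_eq_indicator]
    refine h4.trans ?_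
    rw [← Measure.restrict_restrict_of_subset (hOK.trans hT),
      ← lintegral_indicator hO.measurableSet]
    refine setLIntegral_congr_fun (K.e i).open_target.measurableSet fun z hz => ?_
    have h5 : (K.e i).symm z ∈ Up K i O ↔ z ∈ O := by
      simp only [Up, mem_inter_iff, (K.e i).map_target hz, mem_preimage, (K.e i).right_inv hz,
        true_and]
    by_cases h : z ∈ O
    · simp only [piecewise_eq_of_mem _ _ _ (h5.2 h), indicator_of_mem h, (K.e i).right_inv hz]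
      rw [ENNReal.ofReal_mul (hΦ.nn hz _)]
    · simp only [piecewise_eq_of_notMem _ _ _ (h5.not.2 h), indicator_of_notMem h, zero_mul]
  rw [h3, ← lintegral_const_mul' _ _ ENNReal.ofReal_ne_top,
    ← lintegral_const_mul' _ _ ENNReal.ofReal_ne_top]
  refine ⟨setLIntegral_mono' hO.measurableSet fun z hz => ?_,
    setLIntegral_mono' hO.measurableSet fun z hz => ?_⟩
  · rw [en_sq, ← ENNReal.ofReal_mul hC]
    exact ENNReal.ofReal_le_ofReal (h1 z (hOK hz) _).1
  · rw [en_sq, ← ENNReal.ofReal_mul hC]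
    exact ENNReal.ofReal_le_ofReal (h1 z (hOK hz) _).2

theorem open_pos : K.μ.IsOpenPosMeasure := by
  refine ⟨fun U hU ⟨x, hx⟩ h0 => ?_⟩
  have h1 := ix_src K x
  obtain ⟨ρ, hρ, h2⟩ := nhds_basis_closedBall.mem_iff.1
    (((K.e (K.ix x)).isOpen_inter_preimage_symm hU).mem_nhds ⟨(K.e _).map_source h1, by
      rw [mem_preimage, (K.e _).left_inv h1]
      exact hx⟩)
  obtain ⟨C, -, h3⟩ := cmp K (K.ix x) (qd_norm (E := ℝ) _) (isCompact_closedBall _ ρ)
    (h2.trans inter_subset_left)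
  have h4 := (h3 _ isOpen_ball ball_subset_closedBall (fun _ => 1) continuousOn_const).1
  have h5 : K.μ (Up K (K.ix x) (ball (K.e (K.ix x) x) ρ)) = 0 :=
    measure_mono_null (fun m hm => by
      have h6 := (h2 (ball_subset_closedBall hm.2)).2
      rwa [mem_preimage, (K.e _).left_inv hm.1] at h6) h0
  rw [setLIntegral_measure_zero _ _ h5, mul_zero, enorm_one, one_pow, setLIntegral_one] at h4
  exact (measure_ball_pos volume _ hρ).not_ge h4

/-- the ball around the point `x` in its chart -/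
abbrev bl (x : M) (ρ : ℝ) : Set (Cm n) := ball (K.e (K.ix x) x) ρ

/-- finite covers by balls -/
structure Cv (s : Finset M) (ρ : M → ℝ) : Prop where
  pos : ∀ x, 0 < ρ x
  sub : ∀ x, closedBall (K.e (K.ix x) x) (ρ x) ⊆ (K.e (K.ix x)).target
  cov : ∀ m, ∃ x ∈ s, m ∈ Up K (K.ix x) (bl K x (ρ x / 2))

omit [BorelSpace M] in
theorem ex_cv [CompactSpace M] (N : M → Set (Cm n)) (hN : ∀ x, N x ∈ 𝓝 (K.e (K.ix x) x)) :
    ∃ s ρ, Cv K s ρ ∧ ∀ x, closedBall (K.e (K.ix x) x) (ρ x) ⊆ N x := by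
  choose ρ hρ h1 using fun x => nhds_basis_closedBall.mem_iff.1 (inter_mem
    ((K.e (K.ix x)).open_target.mem_nhds ((K.e _).map_source (ix_src K x))) (hN x))
  obtain ⟨s, -, hs⟩ := isCompact_univ.elim_nhds_subcover
    (fun x => Up K (K.ix x) (bl K x (ρ x / 2))) fun x _ =>
      (up_open K _ isOpen_ball).mem_nhds ⟨ix_src K x, mem_ball_self (half_pos (hρ x))⟩
  refine ⟨s, ρ, ⟨hρ, fun x => (h1 x).trans inter_subset_left, fun m => ?_⟩,
    fun x => (h1 x).trans inter_subset_right⟩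
  simpa only [mem_iUnion, exists_prop] using hs (mem_univ m)

/-- `D` is the density of the family `F` -/
structure Rp (Φ : K.I → Cm n → E → ℝ) (F : K.I → Cm n → E) (D : M → ℂ) : Prop where
  sm : Sm K F
  int : Integrable D K.μ
  eq : ∀ i, ∀ m ∈ (K.e i).source, (D m).re = Φ i (K.e i m) (F i (K.e i m))

variable {K}

omit [BorelSpace M] [ProperSpace E] in
theorem _root_.Vale.Agent.P281Z.Ha.Sm.cont {F : K.I → Cm n → E} (h : Sm K F) (i : K.I) :
    ContinuousOn (F i) (K.e i).target := fun z hz => (h i z hz).continuousAt.continuousWithinAt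

omit [BorelSpace M] [ProperSpace E] in
theorem Rp.tot {Φ : K.I → Cm n → E → ℝ} (hΦ : ∀ i, Qd (K.e i).target (Φ i)) {F : K.I → Cm n → E}
    {D : M → ℂ} (h : Rp K Φ F D) :
    ENNReal.ofReal (∫ m, D m ∂K.μ).re = ∫⁻ m, ENNReal.ofReal (D m).re ∂K.μ := by
  refine (congrArg _ (integral_re h.int).symm).trans
    (ofReal_integral_eq_lintegral_ofReal h.int.re (Eventually.of_forall fun m => ?_))
  show 0 ≤ (D m).re
  rw [h.eq _ m (ix_src K m)]
  exact (hΦ _).nn ((K.e _).map_source (ix_src K m)) _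

/-- the norms in the charts are bounded by the global norm and conversely -/
theorem pack {Φ : K.I → Cm n → E → ℝ} (hΦ : ∀ i, Qd (K.e i).target (Φ i)) {s : Finset M}
    {ρ : M → ℝ} (hs : Cv K s ρ) : ∃ C : M → ℝ≥0∞, (∀ x, C x ≠ ⊤) ∧ ∀ F D, Rp K Φ F D →
      (∀ x, ∫⁻ z in bl K x (ρ x), ‖F (K.ix x) z‖ₑ ^ 2 ≤ C x * ENNReal.ofReal (∫ m, D m ∂K.μ).re) ∧
      ENNReal.ofReal (∫ m, D m ∂K.μ).re ≤
        ∑ x ∈ s, C x * ∫⁻ z in bl K x (ρ x / 2), ‖F (K.ix x) z‖ₑ ^ 2 := by
  choose C hC h1 using fun x => cmp K (K.ix x) (hΦ _) (isCompact_closedBall _ (ρ x)) (hs.sub x)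
  refine ⟨C, hC, fun F D h => ?_⟩
  have h2 : ∀ x O, IsOpen O → ∫⁻ m in Up K (K.ix x) O, ENNReal.ofReal (D m).re ∂K.μ =
      ∫⁻ m in Up K (K.ix x) O, ENNReal.ofReal
        (Φ (K.ix x) (K.e (K.ix x) m) (F (K.ix x) (K.e (K.ix x) m))) ∂K.μ := fun x O hO =>
    setLIntegral_congr_fun (up_open K _ hO).measurableSet fun m hm => by
      simp only [h.eq _ m hm.1]
  rw [h.tot hΦ]
  refine ⟨fun x => ?_, ?_⟩
  · refine (h1 x _ isOpen_ball ball_subset_closedBall _
      ((h.sm.cont _).mono (ball_subset_closedBall.trans (hs.sub x)))).1.trans ?_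
    rw [← h2 x _ isOpen_ball]
    exact mul_le_mul_right (setLIntegral_le_lintegral _ _) _
  · have h3 : ⋃ x : s, Up K (K.ix x) (bl K x (ρ x / 2)) = univ :=
      eq_univ_of_forall fun m => by
        obtain ⟨x, hx, hm⟩ := hs.cov m
        exact mem_iUnion.2 ⟨⟨x, hx⟩, hm⟩
    rw [← setLIntegral_univ, ← h3, ← Finset.sum_coe_sort]
    refine (lintegral_iUnion_le _ _).trans ?_
    rw [tsum_fintype]
    refine Finset.sum_le_sum fun x _ => ?_
    have h4 : bl K x (ρ x / 2) ⊆ closedBall (K.e (K.ix x) x) (ρ x) :=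
      ball_subset_closedBall.trans (closedBall_subset_closedBall (half_le_self (hs.pos x).le))
    rw [h2 x _ isOpen_ball]
    exact (h1 x _ isOpen_ball h4 _ ((h.sm.cont _).mono (h4.trans (hs.sub x)))).2

end Vale.Agent.P281Z.Ha.Rn
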